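import Claimed.Agent.R256.Prj.Defs
import Claimed.Agent.R256.Inc.CoreA8
import Claimed.Agent.R255.Rate.RpDefs
import Claimed.Agent.R255.Ent.Prod
import Claimed.Agent.R256.Inc.CoreA

/-!
# Row 256, folder Prj, unit POP: FROM LAWS TO POPULATIONS.      (chief helper186, owner of this file helper288)

PAPER-FREE.  The population theorems (`pj_rad_her`, `pj_pin`, `R255.rp_*`) speak about ONE finite weighted population `(lam, pos)`.  The law level has `P : FLaw Ω`, a side `Zs`, marks `a b` (`PjIid`).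
POPULATION OF THE SIDE VALUE `z`:   index type `Set.range a` (the VALUES of the mark, so that a graph on the population is an event `{G (Zs ω) (a ω) (b ω)}`), `pos = Subtype.val`,
   weights `fun i => pjLam P Zs a kp z i.1`,   `pjLam P Zs a kp z x = pr(Zs = z, a = x) / pr(Zs = z)` if `kp z x`, `0` otherwise   (`kp : ζ → ℝ × ℝ → Prop` = the kept values).
All statements take an arbitrary instance `[Fintype (Set.range a)]`.   All constants explicit, no limits.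

EXITS
* `pj_lam_sum`    `∑_{i, Ψ i} lam_z i = pr(Zs = z, kp z a, Ψ a) / pr(Zs = z)`                                 (the dictionary)
* `pj_prune`      SEVERAL partitions at once: `kp ⊆ E₀`, every node that meets `kp` keeps `≥ th` of its mass, loss `≤ th · #partitions`      (= `ent_core_exists` + saturation)
* `pj_pop_tree`   floors + `PjGoodH` on `kp` ⟹ hereditary Frostman on the tree of ANY nested names `c k (a ω)`, constant `2^(η n)/th`, for ALL `z`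
* `pj_pop`        (2D tree)  `RpPop`, `RtTreeHer` for ALL `z`;  `pr{¬ kp} ≤ τ + (n+1) th`
* `pj_pop2`       (2D tree and time tree)  `RpPop`, `RtTreeHer`, `PjTree1` for ALL `z`;  `pr{¬ kp} ≤ τ + τ' + 2 (n+1) th`
* `pj_pop_strip`  `PjNoStrip` ⟹ `RtNoStrip (lam_z) wd b` for `z = Zs ω` off probability `κ / b`, for every `kp`       (worst strip by choice, Markov in `z`)
* `pj_pair1`      `pr(Zs = z, a = x, kp z b, Ψ b) = pr(Zs = z, a = x) ∑_{j, Ψ j} lam_z j`                    (`PjIid`)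
* `pj_pair`       `pr{kp Zs a, kp Zs b, Φ(Zs, a, b)} = E_z ∑_i ∑_{j, Φ z i j} lam_z i lam_z j`                (`PjIid`; the format of `pjMiss`)
* `pj_goodH_of_mesh`   `PjGoodH` on a mesh of levels ⟹ on all levels (nested names).
* `pjLift 𝒢 x y`  a graph on the population as a relation on values;  `pj_lift_iff : pjLift 𝒢 i.1 j.1 ↔ 𝒢 i j`.
-/

set_option autoImplicit false

namespace Claimed.Agent.R256

open Claimed.Agent.R255 Claimed.Agent.R255.FLaw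
open Finset Classical

variable {Ω : Type} [Fintype Ω] {ζ : Type}

/-- the weight of the value `x` in the sub-population of the side value `z` -/
noncomputable def pjLam (P : FLaw Ω) (Zs : Ω → ζ) (a : Ω → ℝ × ℝ) (kp : ζ → ℝ × ℝ → Prop) (z : ζ) (x : ℝ × ℝ) : ℝ :=
  if kp z x then P.pr (fun ω => Zs ω = z ∧ a ω = x) / P.pr (fun ω => Zs ω = z) else 0

/-- a graph on the population of values as a relation on `ℝ × ℝ` -/
def pjLift {a : Ω → ℝ × ℝ} (𝒢 : Set.range a → Set.range a → Prop) (x y : ℝ × ℝ) : Prop :=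
  ∃ (hx : x ∈ Set.range a) (hy : y ∈ Set.range a), 𝒢 ⟨x, hx⟩ ⟨y, hy⟩

theorem pj_pop_eqns_cite : True := by
  have := @pjLam.eq_1
  have := @pjLift.eq_1
  trivial

theorem pj_lift_iff {a : Ω → ℝ × ℝ} (𝒢 : Set.range a → Set.range a → Prop) (i j : Set.range a) :
    pjLift 𝒢 i.1 j.1 ↔ 𝒢 i j :=
  ⟨fun ⟨_, _, h⟩ => h, fun h => ⟨i.2, j.2, h⟩⟩

/-- **SUM.**  The dictionary between sums over the population and probabilities. -/
theorem pj_lam_sum (P : FLaw Ω) (Zs : Ω → ζ) (a : Ω → ℝ × ℝ) [Fintype (Set.range a)] (kp : ζ → ℝ × ℝ → Prop) (z : ζ)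
    (Ψ : ℝ × ℝ → Prop) :
    ∑ i : Set.range a with Ψ i.1, pjLam P Zs a kp z i.1
      = P.pr (fun ω => Zs ω = z ∧ kp z (a ω) ∧ Ψ (a ω)) / P.pr (fun ω => Zs ω = z) := by
  have h1 := ent_pr_sum_values P (fun ω => Zs ω = z ∧ kp z (a ω) ∧ Ψ (a ω)) a
    (Finset.univ.image (Subtype.val : Set.range a → ℝ × ℝ))
    (fun ω _ _ => Finset.mem_image.2 ⟨⟨a ω, ω, rfl⟩, Finset.mem_univ _, rfl⟩)
  rw [h1, Finset.sum_image (fun i _ j _ h => Subtype.ext h), Finset.sum_div, Finset.sum_filter]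
  refine Finset.sum_congr rfl fun i _ => ?_
  unfold pjLam
  by_cases hΨ : Ψ i.1
  · rw [if_pos hΨ]
    by_cases hk : kp z i.1
    · rw [if_pos hk]
      congr 1
      exact ent_pr_congr P fun ω _ =>
        ⟨fun h => ⟨⟨h.1, by rw [h.2]; exact hk, by rw [h.2]; exact hΨ⟩, h.2⟩, fun h => ⟨h.1.1, h.2⟩⟩
    · rw [if_neg hk, ent_pr_eq_zero P (fun ω _ h => hk (by rw [← h.2]; exact h.1.2.1)), zero_div]
  · rw [if_neg hΨ, ent_pr_eq_zero P (fun ω _ h => hΨ (by rw [← h.2]; exact h.1.2.2)), zero_div]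

/-- **PRUNE.**  Several partitions at once. -/
theorem pj_prune {κ : Type} [Fintype κ] {β : κ → Type} (P : FLaw Ω) (Zs : Ω → ζ) (a : Ω → ℝ × ℝ)
    (E₀ : ζ → ℝ × ℝ → Prop) (F : ∀ k, ζ → ℝ × ℝ → β k) (th : ℝ) (hth : 0 ≤ th) :
    ∃ kp : ζ → ℝ × ℝ → Prop, (∀ z x, kp z x → E₀ z x ∧ ∃ ω, P.p ω ≠ 0 ∧ Zs ω = z ∧ a ω = x) ∧
      P.pr (fun ω => ¬ kp (Zs ω) (a ω)) ≤ P.pr (fun ω => ¬ E₀ (Zs ω) (a ω)) + Fintype.card κ * th ∧
      ∀ k z x, kp z x → th * P.pr (fun ω => F k (Zs ω) (a ω) = F k z x)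
        ≤ P.pr (fun ω => kp (Zs ω) (a ω) ∧ F k (Zs ω) (a ω) = F k z x) := by
  obtain ⟨E, hsub, hmass, hcore⟩ := ent_core_exists P (fun ω => E₀ (Zs ω) (a ω)) (fun k ω => F k (Zs ω) (a ω))
    (fun k => P.wt (fun ω => F k (Zs ω) (a ω))) (fun k => ent_wt_isW P _) hth
  refine ⟨fun z x => ∃ ω, P.p ω ≠ 0 ∧ Zs ω = z ∧ a ω = x ∧ E ω, ?_, ?_, ?_⟩
  · rintro z x ⟨ω, hω, hz, hx, hE⟩
    refine ⟨?_, ω, hω, hz, hx⟩
    have := hsub ω hE
    rw [hz, hx] at this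
    exact this
  · have h1 : P.pr (fun ω => ¬ ∃ ω', P.p ω' ≠ 0 ∧ Zs ω' = Zs ω ∧ a ω' = a ω ∧ E ω') ≤ P.pr (fun ω => ¬ E ω) :=
      ent_pr_mono P fun ω hω hn hE => hn ⟨ω, hω, rfl, rfl, hE⟩
    refine h1.trans ?_
    rw [ent_pr_not, ent_pr_not]
    linarith
  · rintro k z x ⟨ω, hω, hz, hx, hE⟩
    have h1 := hcore k ω hE hω
    rw [← hz, ← hx]
    refine le_trans h1 (ent_pr_mono P fun ω' hω' hh => ⟨⟨ω', hω', rfl, rfl, hh.1⟩, hh.2⟩)

/-- the numerical factor of `pj_pop_tree` -/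
theorem pj_pt_num (e η : ℝ) (n k k' : ℕ) (hk : k ≤ k') :
    Real.exp (-((e * ((k' : ℝ) - k) - η * n) * Real.log 2)) = 2 ^ (η * n) * ((1 / 2 : ℝ) ^ (k' - k)) ^ e := by
  have h2 : (0 : ℝ) < 2 := by norm_num
  have e1 : ((1 / 2 : ℝ) ^ (k' - k)) ^ e = (2 : ℝ) ^ (-(e * ((k' : ℝ) - k))) := by
    have : ((1 / 2 : ℝ) ^ (k' - k)) = (2 : ℝ) ^ (-((k' : ℝ) - k)) := by
      rw [Real.rpow_neg h2.le, ← Nat.cast_sub hk, Real.rpow_natCast, one_div, inv_pow]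
    rw [this, ← Real.rpow_mul h2.le]
    congr 1
    ring
  rw [e1, ← Real.rpow_add h2, Real.rpow_def_of_pos h2]
  congr 1
  ring

/-- the probabilistic core of `pj_pop_tree` -/
theorem pj_pt_core {α : Type} (P : FLaw Ω) (Zs : Ω → ζ) (a : Ω → ℝ × ℝ) (c : ℕ → ℝ × ℝ → α)
    (hc : ∀ k k' : ℕ, k ≤ k' → ∀ x y, c k' x = c k' y → c k x = c k y) (e η th : ℝ) (n : ℕ) (hth : 0 < th)
    (kp : ζ → ℝ × ℝ → Prop)
    (hgood : ∀ ω, P.p ω ≠ 0 → kp (Zs ω) (a ω) → PjGoodH P (fun k ω => c k (a ω)) Zs e η n ω)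
    (hfl : ∀ k ≤ n, ∀ z x, kp z x → th * P.pr (fun ω => (c k (a ω), Zs ω) = (c k x, z))
        ≤ P.pr (fun ω => kp (Zs ω) (a ω) ∧ (c k (a ω), Zs ω) = (c k x, z)))
    (z : ζ) (k k' : ℕ) (hk : k ≤ k') (hk' : k' ≤ n) (x₀ : ℝ × ℝ) :
    P.pr (fun ω => Zs ω = z ∧ kp z (a ω) ∧ c k' (a ω) = c k' x₀)
      ≤ 2 ^ (η * n) / th * ((1 / 2 : ℝ) ^ (k' - k)) ^ e * P.pr (fun ω => Zs ω = z ∧ kp z (a ω) ∧ c k (a ω) = c k x₀) := by
  have hcst : 0 ≤ 2 ^ (η * n) / th * ((1 / 2 : ℝ) ^ (k' - k)) ^ e := by positivity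
  by_cases hpos : 0 < P.pr (fun ω => Zs ω = z ∧ kp z (a ω) ∧ c k' (a ω) = c k' x₀)
  · obtain ⟨ω₁, ⟨hz, hkp, hcc⟩, hp⟩ := (ent_pr_pos_iff P _).1 hpos
    have hck : c k (a ω₁) = c k x₀ := hc k k' hk _ _ hcc
    have s1 : P.pr (fun ω => Zs ω = z ∧ kp z (a ω) ∧ c k' (a ω) = c k' x₀) ≤
        P.fib (pair (fun ω => c k' (a ω)) (pair (fun ω => c k (a ω)) Zs)) ω₁ := by
      refine ent_pr_mono P fun ω _ h => ?_
      exact Prod.ext (h.2.2.trans hcc.symm) (Prod.ext ((hc k k' hk _ _ h.2.2).trans hck.symm) (h.1.trans hz.symm))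
    have s2 := ent_exp_neg_surC P (fun ω => c k' (a ω)) (pair (fun ω => c k (a ω)) Zs) hp
    have s3 : (e * ((k' : ℝ) - k) - η * n) * Real.log 2 ≤ P.surC (fun ω => c k' (a ω)) (pair (fun ω => c k (a ω)) Zs) ω₁ :=
      hgood ω₁ hp (by rw [hz]; exact hkp) k k' hk hk'
    have s4 : Real.exp (-P.surC (fun ω => c k' (a ω)) (pair (fun ω => c k (a ω)) Zs) ω₁) ≤
        2 ^ (η * n) * ((1 / 2 : ℝ) ^ (k' - k)) ^ e := by
      rw [← pj_pt_num e η n k k' hk]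
      exact Real.exp_le_exp.2 (by linarith)
    have hfpos : 0 < P.fib (pair (fun ω => c k (a ω)) Zs) ω₁ := ent_fib_pos P _ hp
    have s5 : P.fib (pair (fun ω => c k' (a ω)) (pair (fun ω => c k (a ω)) Zs)) ω₁ ≤
        2 ^ (η * n) * ((1 / 2 : ℝ) ^ (k' - k)) ^ e * P.fib (pair (fun ω => c k (a ω)) Zs) ω₁ := by
      rw [s2, div_le_iff₀ hfpos] at s4
      exact s4
    have s6 := hfl k (hk.trans hk') z (a ω₁) hkp
    have s7 : P.fib (pair (fun ω => c k (a ω)) Zs) ω₁ = P.pr (fun ω => (c k (a ω), Zs ω) = (c k (a ω₁), z)) := by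
      refine ent_pr_congr P fun ω _ => ?_
      show (c k (a ω), Zs ω) = (c k (a ω₁), Zs ω₁) ↔ _
      rw [hz]
    have s8 : P.pr (fun ω => kp (Zs ω) (a ω) ∧ (c k (a ω), Zs ω) = (c k (a ω₁), z)) =
        P.pr (fun ω => Zs ω = z ∧ kp z (a ω) ∧ c k (a ω) = c k x₀) := by
      refine ent_pr_congr P fun ω _ => ?_
      constructor
      · rintro ⟨h1, h2⟩
        have h3 := (Prod.mk.inj h2).2
        exact ⟨h3, by rw [← h3]; exact h1, (Prod.mk.inj h2).1.trans hck⟩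
      · rintro ⟨h1, h2, h3⟩
        exact ⟨by rw [h1]; exact h2, Prod.ext (h3.trans hck.symm) h1⟩
    rw [← s7, s8] at s6
    have s9 : P.fib (pair (fun ω => c k (a ω)) Zs) ω₁ ≤ P.pr (fun ω => Zs ω = z ∧ kp z (a ω) ∧ c k (a ω) = c k x₀) / th := by
      rw [le_div_iff₀ hth, mul_comm]
      exact s6
    have hcst2 : 0 ≤ 2 ^ (η * n) * ((1 / 2 : ℝ) ^ (k' - k)) ^ e := by positivity
    calc P.pr (fun ω => Zs ω = z ∧ kp z (a ω) ∧ c k' (a ω) = c k' x₀)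
        ≤ 2 ^ (η * n) * ((1 / 2 : ℝ) ^ (k' - k)) ^ e * P.fib (pair (fun ω => c k (a ω)) Zs) ω₁ := s1.trans s5
      _ ≤ 2 ^ (η * n) * ((1 / 2 : ℝ) ^ (k' - k)) ^ e * (P.pr (fun ω => Zs ω = z ∧ kp z (a ω) ∧ c k (a ω) = c k x₀) / th) :=
          mul_le_mul_of_nonneg_left s9 hcst2
      _ = 2 ^ (η * n) / th * ((1 / 2 : ℝ) ^ (k' - k)) ^ e * P.pr (fun ω => Zs ω = z ∧ kp z (a ω) ∧ c k (a ω) = c k x₀) := by
          ring
  · exact (not_lt.1 hpos).trans (mul_nonneg hcst (ent_pr_nonneg P _))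

/-- **TREE.**  Floors + hereditary scores on the kept values  ⟹  all sub-populations are hereditarily Frostman on the tree of the nested names `c k`. -/
theorem pj_pop_tree {α : Type} (P : FLaw Ω) (Zs : Ω → ζ) (a : Ω → ℝ × ℝ) [Fintype (Set.range a)] (c : ℕ → ℝ × ℝ → α)
    (hc : ∀ k k' : ℕ, k ≤ k' → ∀ x y, c k' x = c k' y → c k x = c k y) (e η th : ℝ) (n : ℕ) (hth : 0 < th)
    (kp : ζ → ℝ × ℝ → Prop)
    (hgood : ∀ ω, P.p ω ≠ 0 → kp (Zs ω) (a ω) → PjGoodH P (fun k ω => c k (a ω)) Zs e η n ω)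
    (hfl : ∀ k ≤ n, ∀ z x, kp z x → th * P.pr (fun ω => (c k (a ω), Zs ω) = (c k x, z))
        ≤ P.pr (fun ω => kp (Zs ω) (a ω) ∧ (c k (a ω), Zs ω) = (c k x, z)))
    (z : ζ) (k k' : ℕ) (hk : k ≤ k') (hk' : k' ≤ n) (x₀ : ℝ × ℝ) :
    ∑ i : Set.range a with c k' i.1 = c k' x₀, pjLam P Zs a kp z i.1
      ≤ 2 ^ (η * n) / th * ((1 / 2 : ℝ) ^ (k' - k)) ^ e * ∑ i : Set.range a with c k i.1 = c k x₀, pjLam P Zs a kp z i.1 := by
  rw [pj_lam_sum P Zs a kp z (fun x => c k' x = c k' x₀), pj_lam_sum P Zs a kp z (fun x => c k x = c k x₀), ← mul_div_assoc]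
  exact div_le_div_of_nonneg_right (pj_pt_core P Zs a c hc e η th n hth kp hgood hfl z k k' hk hk' x₀) (ent_pr_nonneg P _)

/-- hereditary goodness is a function of the names and of the side -/
theorem pj_goodH_congr {α δ : Type} (P : FLaw Ω) (X : ℕ → Ω → α) (D : Ω → δ) (e η : ℝ) (n : ℕ) {ω ω' : Ω}
    (hX : ∀ k, X k ω = X k ω') (hD : D ω = D ω') (h : PjGoodH P X D e η n ω) : PjGoodH P X D e η n ω' := by
  intro k k' hk hk'
  have h1 := h k k' hk hk'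
  have e1 : P.surC (X k') (pair (X k) D) ω = P.surC (X k') (pair (X k) D) ω' := by
    unfold FLaw.surC
    rw [ent_fib_congr P (pair (X k') (pair (X k) D)) (ω := ω) (ω' := ω') (by simp only [FLaw.pair, hX, hD]),
      ent_fib_congr P (pair (X k) D) (ω := ω) (ω' := ω') (by simp only [FLaw.pair, hX, hD])]
  rw [← e1]
  exact h1

/-- the population fields -/
theorem pj_pop_rp (P : FLaw Ω) (Zs : Ω → ζ) (a : Ω → ℝ × ℝ) [Fintype (Set.range a)] (A : ℝ) (hbd : PjBd A a)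
    (kp : ζ → ℝ × ℝ → Prop) (z : ζ) :
    RpPop (fun i : Set.range a => pjLam P Zs a kp z i.1) Subtype.val A := by
  refine ⟨fun i => ?_, ?_, fun i => ?_⟩
  · show 0 ≤ pjLam P Zs a kp z i.1
    unfold pjLam
    split_ifs
    · exact div_nonneg (ent_pr_nonneg P _) (ent_pr_nonneg P _)
    · exact le_rfl
  · have e := pj_lam_sum P Zs a kp z (fun _ => True)
    rw [Finset.filter_true] at e
    rw [e]
    exact div_le_one_of_le₀ (ent_pr_mono P fun ω _ h => h.1) (ent_pr_nonneg P _)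
  · obtain ⟨ω, hω⟩ := i.2
    rw [← hω]
    exact hbd ω

theorem pj_pop_lvl {n k' : ℕ} (h : (1 / 2 : ℝ) ^ n ≤ (1 / 2 : ℝ) ^ k') : k' ≤ n :=
  (pow_le_pow_iff_right_of_lt_one₀ (by norm_num) (by norm_num)).1 h

theorem pj_pop_nest2 (k k' : ℕ) (h : k ≤ k') (x y : ℝ × ℝ) (hxy : rtCell k' x = rtCell k' y) : rtCell k x = rtCell k y := by
  have h1 : icCell k' x.1 = icCell k' y.1 := congrArg Prod.fst hxy
  have h2 : icCell k' x.2 = icCell k' y.2 := congrArg Prod.snd hxy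
  exact Prod.ext (ic_cell_nest h h1) (ic_cell_nest h h2)

/-- **POP (exit, planar tree).** -/
theorem pj_pop (P : FLaw Ω) (Zs : Ω → ζ) (a : Ω → ℝ × ℝ) [Fintype (Set.range a)] (A d η th τ : ℝ) (n : ℕ) (hth : 0 < th)
    (hbd : PjBd A a) (h2 : P.pr (fun ω => ¬ PjGoodH P (icQ a) Zs d η n ω) ≤ τ) :
    ∃ kp : ζ → ℝ × ℝ → Prop, (∀ z x, kp z x → ∃ ω, P.p ω ≠ 0 ∧ Zs ω = z ∧ a ω = x) ∧
      P.pr (fun ω => ¬ kp (Zs ω) (a ω)) ≤ τ + ((n : ℝ) + 1) * th ∧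
      ∀ z, RpPop (fun i : Set.range a => pjLam P Zs a kp z i.1) Subtype.val A ∧
        RtTreeHer (fun i : Set.range a => pjLam P Zs a kp z i.1) Subtype.val (2 ^ (η * n) / th) d ((1 / 2 : ℝ) ^ n) := by
  obtain ⟨kp, hk1, hk2, hk3⟩ := pj_prune (κ := Fin (n + 1)) (β := fun _ => (ℤ × ℤ) × ζ) P Zs a
    (fun z x => ∀ ω, Zs ω = z → a ω = x → PjGoodH P (icQ a) Zs d η n ω)
    (fun k z x => (rtCell k x, z)) th hth.le
  refine ⟨kp, fun z x h => (hk1 z x h).2, ?_, fun z => ⟨pj_pop_rp P Zs a A hbd kp z, ?_⟩⟩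
  · refine hk2.trans ?_
    rw [Fintype.card_fin]
    push_cast
    have h3 : P.pr (fun ω => ¬ ∀ ω', Zs ω' = Zs ω → a ω' = a ω → PjGoodH P (icQ a) Zs d η n ω')
        ≤ P.pr (fun ω => ¬ PjGoodH P (icQ a) Zs d η n ω) := by
      refine ent_pr_mono P fun ω _ hn hg => hn fun ω' hz ha => ?_
      refine pj_goodH_congr P (icQ a) Zs d η n (fun k => ?_) hz.symm hg
      unfold icQ
      rw [ha]
    linarith
  · intro k k' hk hk' i₀
    have key := pj_pop_tree P Zs a rtCell pj_pop_nest2 d η th n hth kp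
      (fun ω _ hkp => (hk1 _ _ hkp).1 ω rfl rfl)
      (fun k hk z x hkp => hk3 ⟨k, Nat.lt_succ_of_le hk⟩ z x hkp) z k k' hk (pj_pop_lvl hk') i₀.1
    convert key

/-- **POP2 (exit, planar tree and time tree).** -/
theorem pj_pop2 (P : FLaw Ω) (Zs : Ω → ζ) (a : Ω → ℝ × ℝ) [Fintype (Set.range a)] (A d η th τ τ' : ℝ) (n : ℕ) (hth : 0 < th)
    (hbd : PjBd A a) (h2 : P.pr (fun ω => ¬ PjGoodH P (icQ a) Zs d η n ω) ≤ τ)
    (h1 : P.pr (fun ω => ¬ PjGoodH P (icX a) Zs d η n ω) ≤ τ') :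
    ∃ kp : ζ → ℝ × ℝ → Prop, (∀ z x, kp z x → ∃ ω, P.p ω ≠ 0 ∧ Zs ω = z ∧ a ω = x) ∧
      P.pr (fun ω => ¬ kp (Zs ω) (a ω)) ≤ τ + τ' + 2 * ((n : ℝ) + 1) * th ∧
      ∀ z, RpPop (fun i : Set.range a => pjLam P Zs a kp z i.1) Subtype.val A ∧
        RtTreeHer (fun i : Set.range a => pjLam P Zs a kp z i.1) Subtype.val (2 ^ (η * n) / th) d ((1 / 2 : ℝ) ^ n) ∧
        PjTree1 (fun i : Set.range a => pjLam P Zs a kp z i.1) (fun i => i.1.1) (2 ^ (η * n) / th) d ((1 / 2 : ℝ) ^ n) := by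
  obtain ⟨kp, hk1, hk2, hk3⟩ := pj_prune (κ := Fin (n + 1) ⊕ Fin (n + 1))
    (β := fun s => Sum.casesOn s (fun _ => (ℤ × ℤ) × ζ) (fun _ => ℤ × ζ)) P Zs a
    (fun z x => ∀ ω, Zs ω = z → a ω = x → PjGoodH P (icQ a) Zs d η n ω ∧ PjGoodH P (icX a) Zs d η n ω)
    (fun s => match s with
      | Sum.inl k => fun z x => (rtCell k x, z)
      | Sum.inr k => fun z x => (icCell k x.1, z)) th hth.le
  refine ⟨kp, fun z x h => (hk1 z x h).2, ?_, fun z => ⟨pj_pop_rp P Zs a A hbd kp z, ?_, ?_⟩⟩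
  · refine hk2.trans ?_
    rw [Fintype.card_sum, Fintype.card_fin]
    push_cast
    have h3 : P.pr (fun ω => ¬ ∀ ω', Zs ω' = Zs ω → a ω' = a ω →
          PjGoodH P (icQ a) Zs d η n ω' ∧ PjGoodH P (icX a) Zs d η n ω')
        ≤ P.pr (fun ω => ¬ PjGoodH P (icQ a) Zs d η n ω ∨ ¬ PjGoodH P (icX a) Zs d η n ω) := by
      refine ent_pr_mono P fun ω _ hn => ?_
      by_contra hc
      push Not at hc
      refine hn fun ω' hz ha => ⟨?_, ?_⟩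
      · refine pj_goodH_congr P (icQ a) Zs d η n (fun k => ?_) hz.symm hc.1
        unfold icQ
        rw [ha]
      · refine pj_goodH_congr P (icX a) Zs d η n (fun k => ?_) hz.symm hc.2
        unfold icX
        rw [ha]
    have h4 := ent_pr_or_le P (fun ω => ¬ PjGoodH P (icQ a) Zs d η n ω) (fun ω => ¬ PjGoodH P (icX a) Zs d η n ω)
    linarith
  · intro k k' hk hk' i₀
    have key := pj_pop_tree P Zs a rtCell pj_pop_nest2 d η th n hth kp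
      (fun ω _ hkp => ((hk1 _ _ hkp).1 ω rfl rfl).1)
      (fun k hk z x hkp => hk3 (Sum.inl ⟨k, Nat.lt_succ_of_le hk⟩) z x hkp) z k k' hk (pj_pop_lvl hk') i₀.1
    convert key
  · intro k k' hk hk' i₀
    have key := pj_pop_tree P Zs a (fun k x => icCell k x.1) (fun k k' h x y hxy => ic_cell_nest h hxy) d η th n hth kp
      (fun ω _ hkp => ((hk1 _ _ hkp).1 ω rfl rfl).2)
      (fun k hk z x hkp => hk3 (Sum.inr ⟨k, Nat.lt_succ_of_le hk⟩) z x hkp) z k k' hk (pj_pop_lvl hk') i₀.1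
    convert key

/-- **STRIP.**  Avoidance of strips chosen per side  ⟹  most sub-populations have no heavy strip. -/
theorem pj_pop_strip (P : FLaw Ω) (Zs : Ω → ζ) (a : Ω → ℝ × ℝ) [Fintype (Set.range a)] (kp : ζ → ℝ × ℝ → Prop) (wd κ b : ℝ)
    (hb : 0 < b) (h : PjNoStrip P Zs a wd κ) :
    P.pr (fun ω => ¬ RtNoStrip (fun i : Set.range a => pjLam P Zs a kp (Zs ω) i.1) Subtype.val wd b) ≤ κ / b := by
  have hch : ∀ z : ζ, ∃ pφ : (ℝ × ℝ) × ℝ, ¬ RtNoStrip (fun i : Set.range a => pjLam P Zs a kp z i.1) Subtype.val wd b →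
      b < ∑ i : Set.range a with |ip (i.1 - pφ.1) (nrm pφ.2)| ≤ wd, pjLam P Zs a kp z i.1 := by
    intro z
    by_cases hz : RtNoStrip (fun i : Set.range a => pjLam P Zs a kp z i.1) Subtype.val wd b
    · exact ⟨((0, 0), 0), fun h => absurd hz h⟩
    · have hz' := hz
      unfold RtNoStrip at hz'
      push Not at hz'
      obtain ⟨p₀, φ, hlt⟩ := hz'
      exact ⟨(p₀, φ), fun _ => hlt⟩
  choose pφ hpφ using hch
  have hS := h (fun z => - Real.sin (pφ z).2) (fun z => Real.cos (pφ z).2) (fun z => ip (pφ z).1 (nrm (pφ z).2))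
    (fun z => by
      have := Real.sin_sq_add_cos_sq (pφ z).2
      nlinarith)
  have hm := ent_cell_markov P Zs (fun ω => |(- Real.sin (pφ (Zs ω)).2) * (a ω).1 + Real.cos (pφ (Zs ω)).2 * (a ω).2
    - ip (pφ (Zs ω)).1 (nrm (pφ (Zs ω)).2)| ≤ wd) hb
  refine le_trans (ent_pr_mono P fun ω hω hbad => ?_) (hm.trans (div_le_div_of_nonneg_right hS hb.le))
  have h1 := hpφ (Zs ω) hbad
  have e := pj_lam_sum P Zs a kp (Zs ω) (fun x => |ip (x - (pφ (Zs ω)).1) (nrm (pφ (Zs ω)).2)| ≤ wd)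
  have h2 : b < P.pr (fun ω' => Zs ω' = Zs ω ∧ kp (Zs ω) (a ω') ∧ |ip (a ω' - (pφ (Zs ω)).1) (nrm (pφ (Zs ω)).2)| ≤ wd)
      / P.pr (fun ω' => Zs ω' = Zs ω) := lt_of_lt_of_eq h1 e
  rw [ent_cfib_pr P Zs (ent_fib_pos P Zs hω)]
  refine h2.le.trans (div_le_div_of_nonneg_right (ent_pr_mono P fun ω' _ hh => ?_) (ent_fib_nonneg P Zs ω))
  obtain ⟨hz, -, hs⟩ := hh
  refine ⟨?_, hz⟩
  rw [hz]
  have e2 : ip (a ω' - (pφ (Zs ω)).1) (nrm (pφ (Zs ω)).2)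
      = (- Real.sin (pφ (Zs ω)).2) * (a ω').1 + Real.cos (pφ (Zs ω)).2 * (a ω').2 - ip (pφ (Zs ω)).1 (nrm (pφ (Zs ω)).2) := by
    unfold ip nrm
    simp only [Prod.fst_sub, Prod.snd_sub]
    ring
  rw [← e2]
  exact hs

/-- splitting an event by the value of a mark -/
theorem pj_pair_split (P : FLaw Ω) (E : Ω → Prop) (c : Ω → ℝ × ℝ) (Θ : ℝ × ℝ → Prop) [DecidablePred Θ] (S : Finset (ℝ × ℝ))
    (hS : ∀ ω, c ω ∈ S) :
    P.pr (fun ω => E ω ∧ Θ (c ω)) = ∑ y ∈ S with Θ y, P.pr (fun ω => E ω ∧ c ω = y) := by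
  rw [ent_pr_sum_values P _ c S (fun ω _ _ => hS ω), Finset.sum_filter]
  refine Finset.sum_congr rfl fun y _ => ?_
  by_cases hy : Θ y
  · rw [if_pos hy]
    refine ent_pr_congr P fun ω _ => ⟨fun h => ⟨h.1.1, h.2⟩, fun h => ⟨⟨h.1, by rw [h.2]; exact hy⟩, h.2⟩⟩
  · rw [if_neg hy]
    exact ent_pr_eq_zero P fun ω _ h => hy (by rw [← h.2]; exact h.1.2)

/-- sums over the range as sums over the image -/
theorem pj_pair_range (a : Ω → ℝ × ℝ) [Fintype (Set.range a)] (f : ℝ × ℝ → ℝ) :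
    ∑ i : Set.range a, f i.1 = ∑ x ∈ Finset.univ.image a, f x :=
  (Finset.sum_subtype (Finset.univ.image a) (fun x => by simp [Set.mem_range]) f).symm

/-- **PAIR, one pin.** -/
theorem pj_pair1 (P : FLaw Ω) (Zs : Ω → ζ) (a b : Ω → ℝ × ℝ) [Fintype (Set.range a)] (h : PjIid P Zs a b)
    (kp : ζ → ℝ × ℝ → Prop) (z : ζ) (x : ℝ × ℝ) (Ψ : ℝ × ℝ → Prop) :
    P.pr (fun ω => Zs ω = z ∧ a ω = x ∧ kp z (b ω) ∧ Ψ (b ω))
      = P.pr (fun ω => Zs ω = z ∧ a ω = x) * ∑ j : Set.range a with Ψ j.1, pjLam P Zs a kp z j.1 := by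
  rw [pj_lam_sum]
  by_cases hz : P.pr (fun ω => Zs ω = z) = 0
  · rw [hz, div_zero, mul_zero]
    refine le_antisymm ?_ (ent_pr_nonneg P _)
    rw [← hz]
    exact ent_pr_mono P fun ω _ hh => hh.1
  · obtain ⟨S, hSd⟩ : ∃ S : Finset (ℝ × ℝ), S = Finset.univ.image a ∪ Finset.univ.image b := ⟨_, rfl⟩
    have hSa : ∀ ω, a ω ∈ S := fun ω => by
      rw [hSd]; exact Finset.mem_union_left _ (Finset.mem_image_of_mem a (Finset.mem_univ ω))
    have hSb : ∀ ω, b ω ∈ S := fun ω => by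
      rw [hSd]; exact Finset.mem_union_right _ (Finset.mem_image_of_mem b (Finset.mem_univ ω))
    have e1 : P.pr (fun ω => Zs ω = z ∧ a ω = x ∧ kp z (b ω) ∧ Ψ (b ω))
        = ∑ y ∈ S with (kp z y ∧ Ψ y), P.pr (fun ω => (Zs ω = z ∧ a ω = x) ∧ b ω = y) := by
      rw [← pj_pair_split P (fun ω => Zs ω = z ∧ a ω = x) b (fun y => kp z y ∧ Ψ y) S hSb]
      exact ent_pr_congr P fun ω _ => by tauto
    have e2 : P.pr (fun ω => Zs ω = z ∧ kp z (a ω) ∧ Ψ (a ω))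
        = ∑ y ∈ S with (kp z y ∧ Ψ y), P.pr (fun ω => Zs ω = z ∧ a ω = y) :=
      pj_pair_split P (fun ω => Zs ω = z) a (fun y => kp z y ∧ Ψ y) S hSa
    rw [e1, e2, mul_div_assoc', eq_div_iff hz, Finset.sum_mul, Finset.mul_sum]
    refine Finset.sum_congr rfl fun y _ => ?_
    have h1 := h.1 z x y
    have h2 := h.2 z y
    have e3 : P.pr (fun ω => (Zs ω = z ∧ a ω = x) ∧ b ω = y) = P.pr (fun ω => Zs ω = z ∧ a ω = x ∧ b ω = y) :=
      ent_pr_congr P fun ω _ => by tauto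
    rw [e3, h1, h2]

/-- **PAIR.** -/
theorem pj_pair (P : FLaw Ω) (Zs : Ω → ζ) (a b : Ω → ℝ × ℝ) [Fintype (Set.range a)] (h : PjIid P Zs a b)
    (kp : ζ → ℝ × ℝ → Prop) (Φ : ζ → ℝ × ℝ → ℝ × ℝ → Prop) :
    P.pr (fun ω => kp (Zs ω) (a ω) ∧ kp (Zs ω) (b ω) ∧ Φ (Zs ω) (a ω) (b ω))
      = P.ev (fun ω => ∑ i : Set.range a, ∑ j : Set.range a with Φ (Zs ω) i.1 j.1,
          pjLam P Zs a kp (Zs ω) i.1 * pjLam P Zs a kp (Zs ω) j.1) := by
  rw [ent_pr_tower P Zs]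
  refine ent_ev_congr P fun ω hω => ?_
  have hpos := ent_fib_pos P Zs hω
  obtain ⟨z, hzd⟩ : ∃ z, z = Zs ω := ⟨_, rfl⟩
  have hpz : 0 < P.pr (fun ω' => Zs ω' = z) := by rw [hzd]; exact hpos
  rw [ent_cfib_pr P Zs hpos, ← hzd]
  have e0 : P.fib Zs ω = P.pr (fun ω' => Zs ω' = z) := by rw [hzd]; rfl
  rw [e0]
  -- the inner sums
  obtain ⟨f, hf⟩ : ∃ f : ℝ × ℝ → ℝ, f = fun x : ℝ × ℝ => if kp z x then
      P.pr (fun ω' => Zs ω' = z ∧ a ω' = x ∧ kp z (b ω') ∧ Φ z x (b ω')) / P.pr (fun ω' => Zs ω' = z) else 0 := ⟨_, rfl⟩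
  have e1 : ∀ i : Set.range a, ∑ j : Set.range a with Φ z i.1 j.1, pjLam P Zs a kp z i.1 * pjLam P Zs a kp z j.1
      = f i.1 := by
    intro i
    rw [← Finset.mul_sum, hf]
    beta_reduce
    by_cases hk : kp z i.1
    · rw [if_pos hk, pj_pair1 P Zs a b h kp z i.1 (Φ z i.1)]
      unfold pjLam
      rw [if_pos hk]
      ring
    · rw [if_neg hk]
      unfold pjLam
      rw [if_neg hk, zero_mul]
  rw [Finset.sum_congr rfl fun i _ => e1 i, pj_pair_range a f, hf, ← Finset.sum_filter, ← Finset.sum_div]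
  congr 1
  have e2 := pj_pair_split P (fun ω' => Zs ω' = z ∧ kp z (b ω') ∧ Φ z (a ω') (b ω')) a (fun x => kp z x) (Finset.univ.image a)
    (fun ω' => Finset.mem_image_of_mem a (Finset.mem_univ ω'))
  have e3 : P.pr (fun ω' => (kp (Zs ω') (a ω') ∧ kp (Zs ω') (b ω') ∧ Φ (Zs ω') (a ω') (b ω')) ∧ Zs ω' = z)
      = P.pr (fun ω' => (Zs ω' = z ∧ kp z (b ω') ∧ Φ z (a ω') (b ω')) ∧ kp z (a ω')) := by
    refine ent_pr_congr P fun ω' _ => ⟨fun hh => ?_, fun hh => ?_⟩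
    · obtain ⟨⟨h1, h2, h3⟩, h4⟩ := hh
      rw [h4] at h1 h2 h3
      exact ⟨⟨h4, h2, h3⟩, h1⟩
    · obtain ⟨⟨h4, h2, h3⟩, h1⟩ := hh
      rw [← h4] at h1 h2 h3
      exact ⟨⟨h1, h2, h3⟩, h4⟩
  rw [e3, e2]
  refine Finset.sum_congr rfl fun x _ => ?_
  refine ent_pr_congr P fun ω' _ => ⟨fun hh => ?_, fun hh => ?_⟩
  · obtain ⟨⟨h1, h2, h3⟩, h4⟩ := hh
    rw [h4] at h3
    exact ⟨h1, h4, h2, h3⟩
  · obtain ⟨h1, h4, h2, h3⟩ := hh
    rw [← h4] at h3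
    exact ⟨⟨h1, h2, h3⟩, h4⟩

/-- nested names: the surprise is a difference of logarithms of fibres -/
theorem pj_mesh_sur {α δ : Type} (P : FLaw Ω) (X : ℕ → Ω → α) (D : Ω → δ)
    (hX : ∀ k k' : ℕ, k ≤ k' → ∀ ω ω', X k' ω = X k' ω' → X k ω = X k ω') {k k' : ℕ} (hk : k ≤ k') {ω : Ω} (hω : P.p ω ≠ 0) :
    P.surC (X k') (pair (X k) D) ω = Real.log (P.fib (pair (X k) D) ω) - Real.log (P.fib (pair (X k') D) ω) := by
  rw [ent_surC_eq_sub P _ _ hω]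
  congr 2
  refine ent_pr_congr P fun ω' _ => ?_
  constructor
  · intro h
    exact Prod.ext (Prod.mk.inj h).1 (Prod.mk.inj (Prod.mk.inj h).2).2
  · intro h
    exact Prod.ext (Prod.mk.inj h).1 (Prod.ext (hX k k' hk _ _ (Prod.mk.inj h).1) (Prod.mk.inj h).2)

/-- nested names: the fibres decrease in the level -/
theorem pj_mesh_mono {α δ : Type} (P : FLaw Ω) (X : ℕ → Ω → α) (D : Ω → δ)
    (hX : ∀ k k' : ℕ, k ≤ k' → ∀ ω ω', X k' ω = X k' ω' → X k ω = X k ω') {k k' : ℕ} (hk : k ≤ k') {ω : Ω} (hω : P.p ω ≠ 0) :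
    Real.log (P.fib (pair (X k') D) ω) ≤ Real.log (P.fib (pair (X k) D) ω) := by
  refine Real.log_le_log (ent_fib_pos P _ hω) (ent_fib_mono P _ _ ω fun ω' _ h => ?_)
  exact Prod.ext (hX k k' hk _ _ (Prod.mk.inj h).1) (Prod.mk.inj h).2

/-- **MESH.**  Hereditary scores on a mesh `Lv` of levels with gaps `≤ g`  ⟹  on all levels, with the extra loss `2 e g` bits (nested names). -/
theorem pj_goodH_of_mesh {α δ : Type} (P : FLaw Ω) (X : ℕ → Ω → α) (D : Ω → δ)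
    (hX : ∀ k k' : ℕ, k ≤ k' → ∀ ω ω', X k' ω = X k' ω' → X k ω = X k ω') (e η η' : ℝ) (n g : ℕ) (Lv : Finset ℕ)
    (he : 0 ≤ e) (hη0 : 0 ≤ η)
    (hup : ∀ k ≤ n, ∃ l ∈ Lv, k ≤ l ∧ l ≤ k + g) (hdn : ∀ k ≤ n, ∃ l ∈ Lv, l ≤ k ∧ k ≤ l + g)
    (hη : η * n + 2 * e * g ≤ η' * n) {ω : Ω} (hω : P.p ω ≠ 0)
    (h : ∀ l ∈ Lv, ∀ l' ∈ Lv, l ≤ l' → l' ≤ n →
      (e * ((l' : ℝ) - l) - η * n) * Real.log 2 ≤ P.surC (X l') (pair (X l) D) ω) :
    PjGoodH P X D e η' n ω := by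
  intro k k' hk hk'
  have hlog : 0 < Real.log 2 := Real.log_pos (by norm_num)
  obtain ⟨l, hl, hl1, hl2⟩ := hup k (hk.trans hk')
  obtain ⟨l', hl', hl'1, hl'2⟩ := hdn k' hk'
  have c1 : (l : ℝ) ≤ k + g := by exact_mod_cast hl2
  have c2 : (k' : ℝ) ≤ l' + g := by exact_mod_cast hl'2
  by_cases hll : l ≤ l'
  · have h1 := h l hl l' hl' hll (hl'1.trans hk')
    rw [pj_mesh_sur P X D hX hll hω] at h1
    rw [pj_mesh_sur P X D hX hk hω]
    have m1 := pj_mesh_mono P X D hX hl1 hω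
    have m2 := pj_mesh_mono P X D hX hl'1 hω
    have a1 : e * ((k' : ℝ) - k) - η' * n ≤ e * ((l' : ℝ) - l) - η * n := by
      have : e * ((k' : ℝ) - k - 2 * g) ≤ e * ((l' : ℝ) - l) := mul_le_mul_of_nonneg_left (by linarith) he
      linarith
    have a2 := mul_le_mul_of_nonneg_right a1 hlog.le
    linarith
  · have c3 : (l' : ℝ) ≤ l := by exact_mod_cast (not_le.1 hll).le
    have a1 : e * ((k' : ℝ) - k) - η' * n ≤ 0 := by
      have : e * ((k' : ℝ) - k) ≤ e * (2 * g) := mul_le_mul_of_nonneg_left (by linarith) he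
      have : 0 ≤ η * n := mul_nonneg hη0 (Nat.cast_nonneg n)
      linarith
    exact (mul_nonpos_of_nonpos_of_nonneg a1 hlog.le).trans (ent_surC_nonneg P _ _ hω)

end Claimed.Agent.R256
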