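import Claimed.Agent.R256.Inc.Core

/-!
# Row 256, unit PRJ (04C), file CoreK: the Kaufman projection theorem `RW.ex_K` in the language of finite laws.      (chief helper186, deputy helper288)

`pj_coreK` = E1 of report 886 in the dress of `R256/Inc/Core.lean` (`ic_coreF`): point Frostman `d`, slope Frostman `s`  ⟹  the intercept given the tag has score `≥ min d s - α`,
off an event of probability `≤ (I(point ; tag | D) + log 2) / (η n log 2)`.
PROOF = proof of `ic_coreF0`, `ic_coreF` with `ex_F` replaced by `ex_K` (no hypothesis `s ≤ 1`).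
-/

set_option autoImplicit false

namespace Claimed.Agent.R256

open Claimed.Agent.R255 Claimed.Agent.R255.FLaw Claimed.Agent.RW
open Classical

/-- `pj_coreK` without side data -/
theorem pj_coreK0 (d s α A : ℝ) (hd : 0 < d) (hs : 0 < s) (hα : 0 < α) (hA : 1 ≤ A) :
    ∃ η : ℝ, 0 < η ∧ ∃ n₁ : ℕ, ∀ n : ℕ, n₁ ≤ n → ∀ (Ω β' : Type) [Fintype Ω] (P : FLaw Ω) (q : Ω → ℝ × ℝ) (t : Ω → ℝ)
      (Tg : Ω → β'), IcBd A q t → (∀ ω ω', Tg ω = Tg ω' → icS t n ω = icS t n ω') →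
      P.pr (fun ω => IcGood P (icQ q) (fun _ => ()) d η n ω ∧ IcGood P (icS t) (fun _ => ()) s η n ω ∧
          P.surC (icU q t n) (pair Tg (fun _ => ())) ω < (min d s - α) * n * Real.log 2)
        ≤ (P.mi (icQ q n) Tg + Real.log 2) / (η * n * Real.log 2) := by
  obtain ⟨ηF, hηF, ρ₁, hρ₁, HF⟩ := ex_K d s (α / 2) A hd.le hs.le (by positivity) hA
  have hη : 0 < ηF / 2 := by positivity
  obtain ⟨n1, hn1⟩ := ic_aux_large 1 (1 / ρ₁) one_pos
  obtain ⟨n2, hn2⟩ := ic_aux_large (ηF / 2) (3 * 2 ^ s) hη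
  obtain ⟨n3, hn3⟩ := ic_aux_large (ηF / 2) (9 * 2 ^ d) hη
  obtain ⟨n4, hn4⟩ := ic_aux_large (α / 2) (4 * A + 6 + 1) (by positivity)
  refine ⟨ηF / 2, hη, max (max (max n1 n2) (max n3 n4)) 1, fun n hn Ω β' _ P q t Tg hbd hTg => ?_⟩
  have g1 := hn1 n (by omega)
  have g2 := hn2 n (by omega)
  have g3 := hn3 n (by omega)
  have g4 := hn4 n (by omega)
  have hn0 : 0 < n := by omega
  have hn0' : (0 : ℝ) < n := by exact_mod_cast hn0
  have hl2 : 0 < Real.log 2 := Real.log_pos (by norm_num)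
  have hmi := ent_mi_nonneg P (icQ q n) Tg
  set η : ℝ := ηF / 2 with hηdef
  set m : ℝ := min d s with hm
  set E : Ω → Prop := fun ω => IcGood P (icQ q) (fun _ => ()) d η n ω ∧ IcGood P (icS t) (fun _ => ()) s η n ω ∧
          P.surC (icU q t n) (pair Tg (fun _ => ())) ω < (m - α) * n * Real.log 2 with hE
  have hrhs : 0 ≤ (P.mi (icQ q n) Tg + Real.log 2) / (η * n * Real.log 2) := by positivity
  -- the trivial range
  rcases le_or_gt (m - α) 0 with hneg | hpos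
  · have : P.pr E = 0 := by
      refine ent_pr_eq_zero P fun ω hω hEω => ?_
      have h1 := ent_surC_nonneg P (icU q t n) (pair Tg (fun _ => ())) hω
      have h2 : (m - α) * n * Real.log 2 ≤ 0 :=
        mul_nonpos_of_nonpos_of_nonneg (mul_nonpos_of_nonpos_of_nonneg hneg hn0'.le) hl2.le
      linarith [hEω.2.2]
    rw [this]
    exact hrhs
  by_contra hcon
  push Not at hcon
  have hmass : (P.mi (icQ q n) Tg + Real.log 2) / (2 * η * n * Real.log 2) < P.pr E := by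
    refine lt_of_le_of_lt ?_ hcon
    apply div_le_div_of_nonneg_left (by positivity) (by positivity)
    nlinarith [mul_pos (mul_pos hη hn0') hl2]
  obtain ⟨G, M, hM, hT⟩ := ic_extest P q t A s η (m - α) n hA hbd hs.le hη hn0 g2.le Tg hTg
    (fun ω => IcGood P (icQ q) (fun _ => ()) d η n ω) E
    (fun ω ω' h => ic_good_congr P (icQ q) (fun _ => ()) d η n (fun k hk ω ω' h' => ic_aux_Q_nest q hk ω ω' h') h rfl)
    (fun ω hω => hω) hmass
  have hρ0 : (0 : ℝ) < 2 ^ (-(n : ℝ)) := Real.rpow_pos_of_pos (by norm_num) _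
  have hρ1 : (2 : ℝ) ^ (-(n : ℝ)) < ρ₁ := by
    rw [Real.rpow_neg (by norm_num), inv_lt_comm₀ (by positivity) hρ₁, ← one_div]
    simpa using g1
  have e2η : 2 * η = ηF := by rw [hηdef]; ring
  rw [e2η] at hT
  have hFr : KfFrost (fun ω => if IcGood P (icQ q) (fun _ => ()) d η n ω then P.p ω else 0) q
      (((2 : ℝ) ^ (-(n : ℝ))) ^ (-ηF)) d (2 ^ (-(n : ℝ))) := by
    refine ic_aux_frost_mono hρ0 ?_ (ic_frost2 P q d η n hd.le)
    rw [ic_aux_rho]
    have e : (2 : ℝ) ^ (-(-ηF * n)) = 2 ^ (η * n) * 2 ^ (η * n) := by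
      rw [← Real.rpow_add (by norm_num)]
      congr 1
      rw [hηdef]
      ring
    rw [e]
    exact mul_le_mul_of_nonneg_right g3.le (Real.rpow_nonneg (by norm_num) _)
  have hfin := HF _ hρ0 hρ1 Ω Ω _ _ q t G M hT hFr
  rw [ic_aux_rho] at hfin
  refine ic_aux_absurd (4 * A + 6) (m - α) (α / 2) M n (by linarith) hpos.le g4 ?_ hM
  refine le_trans (le_of_eq ?_) hfin
  congr 1
  ring

/-- **Kaufman range.**  Point Frostman `d`, slope Frostman `s`: the intercept given the tag has score `≥ min d s - α`. -/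
theorem pj_coreK (d s α A : ℝ) (hd : 0 < d) (hs : 0 < s) (hα : 0 < α) (hA : 1 ≤ A) :
    ∃ η : ℝ, 0 < η ∧ ∃ n₁ : ℕ, ∀ n : ℕ, n₁ ≤ n → ∀ (Ω δ β' : Type) [Fintype Ω] (P : FLaw Ω) (q : Ω → ℝ × ℝ) (t : Ω → ℝ)
      (D : Ω → δ) (Tg : Ω → β'), IcBd A q t → (∀ ω ω', Tg ω = Tg ω' → icS t n ω = icS t n ω') →
      P.pr (fun ω => IcGood P (icQ q) D d η n ω ∧ IcGood P (icS t) D s η n ω ∧
          P.surC (icU q t n) (pair Tg D) ω < (min d s - α) * n * Real.log 2)
        ≤ (P.miC (icQ q n) Tg D + Real.log 2) / (η * n * Real.log 2) := by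
  obtain ⟨η, hη, n₁, H⟩ := pj_coreK0 d s α A hd hs hα hA
  refine ⟨η, hη, max n₁ 1, fun n hn Ω δ β' _ P q t D Tg hbd hTg => ?_⟩
  have hn0 : (0 : ℝ) < n := by
    have : 0 < n := by omega
    exact_mod_cast this
  have hl2 : 0 < Real.log 2 := Real.log_pos (by norm_num)
  refine ic_lift P D (icQ q n) Tg
    (fun Q ω => IcGood Q (icQ q) (fun _ => ()) d η n ω ∧ IcGood Q (icS t) (fun _ => ()) s η n ω ∧
          Q.surC (icU q t n) (pair Tg (fun _ => ())) ω < (min d s - α) * n * Real.log 2) _ _ (by positivity)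
    (fun ω₀ _ => H n (by omega) Ω β' (P.cfib D ω₀) q t Tg hbd hTg) ?_
  intro ω₀ ω _ hω hD hE
  obtain ⟨h1, h2, h3⟩ := hE
  refine ⟨fun k hk => ?_, fun k hk => ?_, ?_⟩
  · rw [ic_sur_fib0 P _ D hω hD]
    exact h1 k hk
  · rw [ic_sur_fib0 P _ D hω hD]
    exact h2 k hk
  · rw [ic_sur_fib P _ _ D hω hD]
    exact h3

end Claimed.Agent.R256
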