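import Claimed.Agent.R256.Prj.Defs

/-!
# Row 256, Prj, unit KL: information is bounded by the relative entropy to a conditionally independent law.      (chief helper186)
Exit X3 of `Prj/Contract.lean` = last display of Lemma names:parent-direction-transfer (04 l.1940, proof l.1996-2004).   Paper free: `R255/Base/Law.lean`, `R255/Ent/*`.

## LEAF L-256-PRJ-KL  (`pj_u_mi_le_kl`, ~200 lines)
For a name `Y` put `K(Y) = ∑ ω, P.p ω * log (P.fib Y ω / R.fib Y ω)` (= KL of the image laws; `ent_kl_map_le` / `ent_aux_kl_fin` in `R255/Ent/Basic.lean`, used by `lay_law_up` of `R256/Lay/Law.lean`, give `0 ≤ K(Y)`, `K(Y) ≤ P.kl R`,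
and `K(Y') ≤ K(Y)` when `Y'` is a function of `Y`).   On the support of `P` all fibres of `P` and (by `hac`) of `R` are positive.  Then, with `T = pair (pair X W) D`,
`P.miC X W D = ∑ P.p log (P.fib T * P.fib D / (P.fib (pair X D) * P.fib (pair W D)))`   (definition of `miC` through entropies, `ent` = expected `- log fib`),
`K(T) = ∑ P.p log (P.fib T * R.fib D / (R.fib (pair X D) * R.fib (pair W D)))`   by `hci`, hence
`K(T) - P.miC X W D = K(pair X D) + K(pair W D) - K(D) ≥ K(pair X D) ≥ 0`   because `D` is a function of `pair W D`.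
-/

set_option autoImplicit false

namespace Claimed.Agent.R256

open Finset Classical
open Claimed.Agent.R255 Claimed.Agent.R255.FLaw

theorem pj_u_mi_le_kl {Ω α β δ : Type} [Fintype Ω] (P R : FLaw Ω) (hac : ∀ ω, R.p ω = 0 → P.p ω = 0)
    (X : Ω → α) (W : Ω → β) (D : Ω → δ)
    (hci : ∀ ω, R.fib (pair (pair X W) D) ω * R.fib D ω = R.fib (pair X D) ω * R.fib (pair W D) ω) :
    P.miC X W D ≤ P.kl R := by
  -- domination by a finite constant
  have hdom : P.Dom (∑ ω, P.p ω / R.p ω) R := by
    intro ω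
    by_cases hr : R.p ω = 0
    · rw [hac ω hr, hr, mul_zero]
    · have h1 : P.p ω / R.p ω ≤ ∑ ω, P.p ω / R.p ω :=
        Finset.single_le_sum (f := fun ω => P.p ω / R.p ω) (fun i _ => div_nonneg (P.nonneg i) (R.nonneg i)) (Finset.mem_univ ω)
      have h2 := mul_le_mul_of_nonneg_right h1 (R.nonneg ω)
      rwa [div_mul_cancel₀ _ hr] at h2
  have k1 := (ent_kl_obs P R hdom (pair X D)).1
  have k2 := ent_kl_obs_mono P R hdom W D
  have k3 : P.ev (fun ω => Real.log (P.fib (pair (pair X W) D) ω / R.fib (pair (pair X W) D) ω)) ≤ P.kl R := by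
    obtain ⟨Ω', _, φ, v, -, e⟩ := ent_aux_kl_fin P R (pair (pair X W) D)
    rw [e]
    exact ent_kl_map_le P R hac φ
  have key : P.miC X W D = P.ev (fun ω => Real.log (P.fib (pair (pair X W) D) ω / R.fib (pair (pair X W) D) ω))
      - P.ev (fun ω => Real.log (P.fib (pair X D) ω / R.fib (pair X D) ω))
      - P.ev (fun ω => Real.log (P.fib (pair W D) ω / R.fib (pair W D) ω))
      + P.ev (fun ω => Real.log (P.fib D ω / R.fib D ω)) := by
    rw [ent_miC_eq_ev, ← ent_ev_sub, ← ent_ev_sub, ← ent_ev_add]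
    refine ent_ev_congr P fun ω hω => ?_
    have hr : R.p ω ≠ 0 := fun h => hω (hac ω h)
    have p1 := ent_fib_pos P (pair (pair X W) D) hω
    have p2 := ent_fib_pos P D hω
    have p3 := ent_fib_pos P (pair X D) hω
    have p4 := ent_fib_pos P (pair W D) hω
    have r1 := ent_fib_pos R (pair (pair X W) D) hr
    have r2 := ent_fib_pos R D hr
    have r3 := ent_fib_pos R (pair X D) hr
    have r4 := ent_fib_pos R (pair W D) hr
    have hl := congrArg Real.log (hci ω)
    rw [Real.log_mul r1.ne' r2.ne', Real.log_mul r3.ne' r4.ne'] at hl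
    rw [Real.log_div (mul_pos p1 p2).ne' (mul_pos p3 p4).ne', Real.log_mul p1.ne' p2.ne', Real.log_mul p3.ne' p4.ne',
      Real.log_div p1.ne' r1.ne', Real.log_div p3.ne' r3.ne', Real.log_div p4.ne' r4.ne', Real.log_div p2.ne' r2.ne']
    linarith
  rw [key]
  linarith

end Claimed.Agent.R256
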