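import Claimed.Agent.R256.Prj.LawParA

/-!
# Row 256, folder Prj, unit LAW, file LawPar: PARENT-CENTRED DIRECTIONS (exit X5 of `Prj/Contract.lean`).      (chief helper186, owner of this file helper288)

`pj_u_par_law` = `pj_law_thin` (chart-free thin cones off a small set of pairs) + `pj_pop`, `pj_pop_strip` + `pj_law_miss` + `pj_law_pair1b` + `pj_law_cone` + `pj_u_score0`.
The event `{Zs = z, b ∈ K}` is cut into the values `y` of `b`; for each of them the slope window seen from the corner of `K` lies in an angular window of double width seen from `y` (`2^-m ≤ ρ²`), of `lam_z`-mass `≤ ρ^(-χ) (2w)^u`.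
No factor `1/μ(K)`.   Constants: `χ = min (ε/4) (1/2)`, `C = 2 ρ^(-χ)`, `l = 2^(-χ n)`, `η = min (η'/2) (ε/8)`.
-/

set_option autoImplicit false

namespace Claimed.Agent.R256

open Claimed.Agent.R255 Claimed.Agent.R255.FLaw
open Finset Classical

/-- the hypothesis of `pj_u_score0`, from a bound for every value of `b` -/
theorem pj_law_par_key {Ω ζ : Type} [Fintype Ω] (P : FLaw Ω) (Zs : Ω → ζ) (a b : Ω → ℝ × ℝ) [Fintype (Set.range a)]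
    (hiid : PjIid P Zs a b) (kp : ζ → ℝ × ℝ → Prop) (G : ζ → ℝ × ℝ → ℝ × ℝ → Prop) (m n : ℕ) (C u : ℝ) (hC : 0 ≤ C)
    (h : ∀ (z : ζ) (y : ℝ × ℝ) (t₀ : ℝ) (k : ℕ), |t₀| ≤ 1 → k ≤ n →
      ∑ i : Set.range a with G z i.1 y ∧ PjHorP (pjCor m y) i.1 ∧ |pjDir (pjCor m y) i.1 - t₀| ≤ (1 / 2 : ℝ) ^ k,
        pjLam P Zs a kp z i.1 ≤ C * ((1 / 2 : ℝ) ^ k) ^ u)
    (ω : Ω) (hω : PjHorP (pjCor m (b ω)) (a ω)) (k : ℕ) (hk : k ≤ n) :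
    P.pr (fun ω' => ((kp (Zs ω') (a ω') ∧ kp (Zs ω') (b ω') ∧ G (Zs ω') (a ω') (b ω')) ∧
          PjHorP (pjCor m (b ω')) (a ω')) ∧ pair Zs (icQ b m) ω' = pair Zs (icQ b m) ω ∧
        |pjDir (pjCor m (b ω')) (a ω') - pjDir (pjCor m (b ω)) (a ω)| ≤ (1 / 2 : ℝ) ^ k)
      ≤ C * ((1 / 2 : ℝ) ^ k) ^ u * P.pr (fun ω' => pair Zs (icQ b m) ω' = pair Zs (icQ b m) ω) := by
  have hc0 : 0 ≤ C * ((1 / 2 : ℝ) ^ k) ^ u := by positivity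
  rw [ent_pr_sum_values P _ b (Finset.univ.image b) (fun ω' _ _ => Finset.mem_image_of_mem _ (Finset.mem_univ ω')),
    ent_pr_sum_values P (fun ω' => pair Zs (icQ b m) ω' = pair Zs (icQ b m) ω) b (Finset.univ.image b)
      (fun ω' _ _ => Finset.mem_image_of_mem _ (Finset.mem_univ ω')), Finset.mul_sum]
  refine Finset.sum_le_sum fun y _ => ?_
  by_cases hy : (icCell m y.1, icCell m y.2) = icQ b m ω
  · have hcor : pjCor m y = pjCor m (b ω) := by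
      unfold icQ at hy
      simp only [Prod.mk.injEq] at hy
      unfold pjCor
      rw [hy.1, hy.2]
    have l1 : P.pr (fun ω' => (((kp (Zs ω') (a ω') ∧ kp (Zs ω') (b ω') ∧ G (Zs ω') (a ω') (b ω')) ∧
          PjHorP (pjCor m (b ω')) (a ω')) ∧ pair Zs (icQ b m) ω' = pair Zs (icQ b m) ω ∧
        |pjDir (pjCor m (b ω')) (a ω') - pjDir (pjCor m (b ω)) (a ω)| ≤ (1 / 2 : ℝ) ^ k) ∧ b ω' = y)
        ≤ P.pr (fun ω' => Zs ω' = Zs ω ∧ b ω' = y ∧ kp (Zs ω) (a ω') ∧ (G (Zs ω) (a ω') y ∧ PjHorP (pjCor m y) (a ω') ∧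
          |pjDir (pjCor m y) (a ω') - pjDir (pjCor m (b ω)) (a ω)| ≤ (1 / 2 : ℝ) ^ k)) := by
      refine ent_pr_mono P fun ω' _ hh => ?_
      obtain ⟨⟨⟨⟨g1, _, g3⟩, g4⟩, g5, g6⟩, g7⟩ := hh
      have g8 : Zs ω' = Zs ω := congrArg Prod.fst g5
      rw [g8] at g1 g3
      rw [g7] at g3 g4 g6
      exact ⟨g8, g7, g1, g3, g4, g6⟩
    have l2 : P.pr (fun ω' => Zs ω' = Zs ω ∧ b ω' = y)
        ≤ P.pr (fun ω' => pair Zs (icQ b m) ω' = pair Zs (icQ b m) ω ∧ b ω' = y) := by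
      refine ent_pr_mono P fun ω' _ hh => ?_
      refine ⟨Prod.ext hh.1 ?_, hh.2⟩
      show icQ b m ω' = icQ b m ω
      rw [← hy]
      unfold icQ
      rw [hh.2]
    have e1 := pj_law_pair1b P Zs a b hiid kp (Zs ω) y (fun x => G (Zs ω) x y ∧ PjHorP (pjCor m y) x ∧
          |pjDir (pjCor m y) x - pjDir (pjCor m (b ω)) (a ω)| ≤ (1 / 2 : ℝ) ^ k)
    have h1 := h (Zs ω) y (pjDir (pjCor m (b ω)) (a ω)) k (pj_law_dir_le _ _ hω) hk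
    refine l1.trans ?_
    rw [e1]
    calc _ ≤ P.pr (fun ω' => Zs ω' = Zs ω ∧ b ω' = y) * (C * ((1 / 2 : ℝ) ^ k) ^ u) := by
          refine mul_le_mul_of_nonneg_left ?_ (ent_pr_nonneg _ _)
          exact le_trans (le_of_eq (pj_law_sum_congr _ _ _ _ _ _ fun _ _ => Iff.rfl)) h1
      _ = C * ((1 / 2 : ℝ) ^ k) ^ u * P.pr (fun ω' => Zs ω' = Zs ω ∧ b ω' = y) := by ring
      _ ≤ _ := mul_le_mul_of_nonneg_left l2 hc0
  · rw [ent_pr_eq_zero P (fun ω' _ hh => hy (by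
      obtain ⟨⟨_, g5, _⟩, g7⟩ := hh
      have g8 : icQ b m ω' = icQ b m ω := congrArg Prod.snd g5
      rw [← g8, ← g7]
      rfl))]
    exact mul_nonneg hc0 (ent_pr_nonneg _ _)

/-- the slope windows seen from the corners have small mass -/
theorem pj_law_par_cone {Ω : Type} [Fintype Ω] (a : Ω → ℝ × ℝ) [Fintype (Set.range a)] (lam : Set.range a → ℝ)
    (hlam0 : ∀ i, 0 ≤ lam i) (hlam1 : ∑ i, lam i ≤ 1) (𝒢 : Set.range a → Set.range a → Prop) (ρ χ u : ℝ) (n m : ℕ)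
    (hρdef : ρ = (1 / 2 : ℝ) ^ n) (hm : 2 * n ≤ m) (hχ0 : 0 < χ) (hχ2 : χ ≤ 1 / 2) (hu : u ≤ 1)
    (hρhalf : ρ ^ (1 / 2 : ℝ) ≤ 1 / 3) (hsep : ∀ i j : Set.range a, 𝒢 i j → ρ ^ χ ≤ dist i.1 j.1)
    (hthin : RtThin lam Subtype.val 𝒢 (ρ ^ (-χ)) u ρ) (y : ℝ × ℝ) (t₁ : ℝ) (k : ℕ) (ht₁ : |t₁| ≤ 1) (hk : k ≤ n) :
    ∑ i : Set.range a with pjLift 𝒢 y i.1 ∧ PjHorP (pjCor m y) i.1 ∧ |pjDir (pjCor m y) i.1 - t₁| ≤ (1 / 2 : ℝ) ^ k, lam i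
      ≤ 2 * ρ ^ (-χ) * ((1 / 2 : ℝ) ^ k) ^ u := by
  have hρ0 : 0 < ρ := by rw [hρdef]; positivity
  have hρ1 : ρ ≤ 1 := by rw [hρdef]; exact pow_le_one₀ (by norm_num) (by norm_num)
  have hC1 : 1 ≤ ρ ^ (-χ) := Real.one_le_rpow_of_pos_of_le_one_of_nonpos hρ0 hρ1 (by linarith)
  have hw0 : (0 : ℝ) < (1 / 2 : ℝ) ^ k := by positivity
  by_cases hy : y ∈ Set.range a
  · rcases Nat.eq_zero_or_pos k with rfl | hk0
    · rw [pow_zero, Real.one_rpow, mul_one]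
      refine le_trans (Finset.sum_le_sum_of_subset_of_nonneg (Finset.filter_subset _ _) fun i _ _ => hlam0 i) ?_
      linarith
    · have hwd1 : 2 * (1 / 2 : ℝ) ^ k ≤ 1 := by
        obtain ⟨j, rfl⟩ : ∃ j, k = j + 1 := ⟨k - 1, by omega⟩
        rw [pow_succ]
        have : (1 / 2 : ℝ) ^ j ≤ 1 := pow_le_one₀ (by norm_num) (by norm_num)
        linarith
      have hρw : ρ ≤ (1 / 2 : ℝ) ^ k := by
        rw [hρdef]
        exact pow_le_pow_of_le_one (by norm_num) (by norm_num) hk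
      have h1 := hthin ⟨y, hy⟩ (Real.arctan t₁) (2 * (1 / 2 : ℝ) ^ k) (by linarith) hwd1
      have h2 : (2 * (1 / 2 : ℝ) ^ k) ^ u ≤ 2 * ((1 / 2 : ℝ) ^ k) ^ u := by
        rw [Real.mul_rpow (by norm_num) hw0.le]
        refine mul_le_mul_of_nonneg_right ?_ (by positivity)
        calc (2 : ℝ) ^ u ≤ (2 : ℝ) ^ (1 : ℝ) := Real.rpow_le_rpow_of_exponent_le (by norm_num) hu
          _ = 2 := Real.rpow_one 2
      have h3 : ρ ^ (-χ) * (2 * (1 / 2 : ℝ) ^ k) ^ u ≤ 2 * ρ ^ (-χ) * ((1 / 2 : ℝ) ^ k) ^ u := by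
        have := mul_le_mul_of_nonneg_left h2 (show 0 ≤ ρ ^ (-χ) by positivity)
        linarith
      refine le_trans ?_ (h1.trans h3)
      have hem : (1 / 2 : ℝ) ^ m ≤ ρ * ρ := by
        rw [hρdef, ← pow_add]
        exact pow_le_pow_of_le_one (by norm_num) (by norm_num) (by omega)
      have hρχ : ρ ^ (1 / 2 : ℝ) ≤ ρ ^ χ := Real.rpow_le_rpow_of_exponent_ge hρ0 hρ1 hχ2
      have hρsq : ρ = ρ ^ (1 / 2 : ℝ) * ρ ^ (1 / 2 : ℝ) := by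
        rw [← Real.rpow_add hρ0]
        norm_num
      have hh0 : 0 < ρ ^ (1 / 2 : ℝ) := by positivity
      have he : 3 * (1 / 2 : ℝ) ^ m ≤ (1 / 2 : ℝ) ^ k * ρ ^ χ := by
        have s0 : 3 * ρ ≤ ρ ^ (1 / 2 : ℝ) := by
          calc 3 * ρ = 3 * ρ ^ (1 / 2 : ℝ) * ρ ^ (1 / 2 : ℝ) := by rw [mul_assoc, ← hρsq]
            _ ≤ 1 * ρ ^ (1 / 2 : ℝ) := mul_le_mul_of_nonneg_right (by linarith) hh0.le
            _ = ρ ^ (1 / 2 : ℝ) := one_mul _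
        have s1 : 3 * (ρ * ρ) ≤ ρ * ρ ^ (1 / 2 : ℝ) := by
          have := mul_le_mul_of_nonneg_left s0 hρ0.le
          linarith
        have s2 : ρ * ρ ^ (1 / 2 : ℝ) ≤ (1 / 2 : ℝ) ^ k * ρ ^ χ := mul_le_mul hρw hρχ hh0.le hw0.le
        linarith
      obtain ⟨c1, c2⟩ := pj_law_cor_near m y
      refine Finset.sum_le_sum_of_subset_of_nonneg ?_ fun i _ _ => hlam0 i
      intro i hi
      rw [Finset.mem_filter] at hi ⊢
      obtain ⟨-, g1, g2, g3⟩ := hi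
      have g4 : 𝒢 ⟨y, hy⟩ i := (pj_lift_iff 𝒢 ⟨y, hy⟩ i).1 g1
      refine ⟨Finset.mem_univ _, g4, ?_⟩
      have g5 : ρ ^ χ ≤ dist i.1 y := by
        rw [dist_comm]
        exact hsep _ _ g4
      have g6 := pj_law_cone i.1 y (pjCor m y) t₁ ((1 / 2 : ℝ) ^ k) ((1 / 2 : ℝ) ^ m) (ρ ^ χ) ht₁ hw0.le
        (pow_le_one₀ (by norm_num) (by norm_num)) c1 c2 g2 g3 g5 he
      show |ip (i.1 - y) (nrm (Real.arctan t₁))| ≤ 2 * (1 / 2 : ℝ) ^ k * dist i.1 y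
      exact g6
  · refine le_trans (le_of_eq ?_) (by positivity)
    refine Finset.sum_eq_zero fun i hi => ?_
    exfalso
    rw [Finset.mem_filter] at hi
    obtain ⟨-, ⟨hy', -, -⟩, -, -⟩ := hi
    exact hy hy'

theorem pj_law_par_hor (A d ε : ℝ) (hA : 1 ≤ A) (hd : 0 < d) (hd1 : d ≤ 1) (hε : 0 < ε) :
    ∃ t₀ : ℝ, 0 < t₀ ∧ t₀ ≤ 1 ∧ ∀ κ₀ : ℝ, 0 < κ₀ → ∃ η : ℝ, 0 < η ∧ ∃ n₁ : ℕ, ∀ n : ℕ, n₁ ≤ n → ∀ m : ℕ, 2 * n ≤ m →
      ∀ (Ω ζ : Type) [Fintype Ω] (P : FLaw Ω) (Zs : Ω → ζ) (a b : Ω → ℝ × ℝ),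
        PjIid P Zs a b → PjBd A a →
        P.pr (fun ω => ¬ PjGoodH P (icQ a) Zs d η n ω) ≤ η →
        PjNoStrip P Zs a ((2 : ℝ) ^ (-(t₀ * n))) ((2 : ℝ) ^ (-(κ₀ * n))) →
        P.pr (fun ω => PjHorP (pjCor m (b ω)) (a ω) ∧
          ¬ IcGood P (icS (fun ω => pjDir (pjCor m (b ω)) (a ω))) (pair Zs (icQ b m)) (d - ε) ε n ω) ≤ ε := by
  obtain ⟨χ, hχdef⟩ : ∃ χ : ℝ, χ = min (ε / 4) (1 / 2) := ⟨_, rfl⟩
  have hχ0 : 0 < χ := by rw [hχdef]; exact lt_min (by positivity) (by norm_num)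
  have hχ1 : χ ≤ ε / 4 := by rw [hχdef]; exact min_le_left _ _
  have hχ2 : χ ≤ 1 / 2 := by rw [hχdef]; exact min_le_right _ _
  obtain ⟨t₀, ht0, ht1, H⟩ := pj_law_thin A d ε χ hA hd hd1 hε hχ0
  refine ⟨t₀, ht0, ht1, fun κ₀ hκ => ?_⟩
  obtain ⟨c, η', ρ₁, hc, hη', hρ₁, H⟩ := H (κ₀ / 2) (by positivity)
  obtain ⟨N1, hN1⟩ := pj_law_small (η' / 2) (ε / 16) (by positivity) (by positivity)
  obtain ⟨N2, hN2⟩ := pj_law_small (κ₀ / 2) (ε / 8) (by positivity) (by positivity)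
  obtain ⟨N3, hN3⟩ := pj_law_small c (ε / 16) hc (by positivity)
  obtain ⟨N4, hN4⟩ := pj_law_small χ (ε / 8) hχ0 (by positivity)
  obtain ⟨N5, hN5⟩ := pj_law_small 1 (ρ₁ / 2) one_pos (by positivity)
  obtain ⟨N6, hN6⟩ := pj_law_small (1 / 2) (1 / 3) (by norm_num) (by norm_num)
  refine ⟨min (η' / 2) (ε / 8), lt_min (by positivity) (by positivity),
    max N1 (max N2 (max N3 (max N4 (max N5 (max N6 ⌈2 / ε⌉₊))))), ?_⟩
  intro n hn m hm Ω ζ _ P Zs a b hiid hbd hgood hstrip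
  have hn1 : N1 ≤ n := le_trans (le_max_left _ _) hn
  have hn' := le_trans (le_max_right _ _) hn
  have hn2 : N2 ≤ n := le_trans (le_max_left _ _) hn'
  replace hn' := le_trans (le_max_right _ _) hn'
  have hn3 : N3 ≤ n := le_trans (le_max_left _ _) hn'
  replace hn' := le_trans (le_max_right _ _) hn'
  have hn4 : N4 ≤ n := le_trans (le_max_left _ _) hn'
  replace hn' := le_trans (le_max_right _ _) hn'
  have hn5 : N5 ≤ n := le_trans (le_max_left _ _) hn'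
  replace hn' := le_trans (le_max_right _ _) hn'
  have hn6 : N6 ≤ n := le_trans (le_max_left _ _) hn'
  have hn7 : ⌈2 / ε⌉₊ ≤ n := le_trans (le_max_right _ _) hn'
  replace hN1 := hN1 n hn1
  replace hN2 := hN2 n hn2
  replace hN3 := hN3 n hn3
  replace hN4 := hN4 n hn4
  replace hN5 := hN5 n hn5
  replace hN6 := hN6 n hn6
  have hnε : 2 ≤ ε * n := by
    have h1 : 2 / ε ≤ (n : ℝ) := (Nat.le_ceil _).trans (Nat.cast_le.2 hn7)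
    rw [div_le_iff₀ hε] at h1
    linarith
  obtain ⟨η, hηdef⟩ : ∃ η : ℝ, η = min (η' / 2) (ε / 8) := ⟨_, rfl⟩
  rw [← hηdef] at hgood
  have hη1 : η ≤ η' / 2 := by rw [hηdef]; exact min_le_left _ _
  have hη2 : η ≤ ε / 8 := by rw [hηdef]; exact min_le_right _ _
  have hn0 : (0 : ℝ) ≤ (n : ℝ) := Nat.cast_nonneg n
  have hnn : (1 : ℝ) ≤ (n : ℝ) + 1 := by linarith
  have hle : ∀ x : ℝ, (2 : ℝ) ^ (-(x * n)) ≤ ((n : ℝ) + 1) * (2 : ℝ) ^ (-(x * n)) := fun x =>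
    le_mul_of_one_le_left (by positivity) hnn
  obtain ⟨ρ, hρdef⟩ : ∃ ρ : ℝ, ρ = (1 / 2 : ℝ) ^ n := ⟨_, rfl⟩
  have hρ0 : 0 < ρ := by rw [hρdef]; positivity
  have hρ1 : ρ ≤ 1 := by rw [hρdef]; exact pow_le_one₀ (by norm_num) (by norm_num)
  have hρpow : ∀ x : ℝ, ρ ^ x = (2 : ℝ) ^ (-(x * n)) := fun x => by rw [hρdef]; exact pj_law_pow x n
  have hρlt : ρ < ρ₁ := by
    have h1 : ρ = (2 : ℝ) ^ (-(1 * (n : ℝ))) := by rw [← hρpow 1, Real.rpow_one]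
    have h2 := hle 1
    rw [h1]
    linarith
  have hρhalf : ρ ^ (1 / 2 : ℝ) ≤ 1 / 3 := by
    rw [hρpow]
    exact (hle _).trans hN6
  have : Fintype (Set.range a) := Fintype.ofFinite _
  obtain ⟨th, hthdef⟩ : ∃ th : ℝ, th = (2 : ℝ) ^ (-(η' / 2 * n)) := ⟨_, rfl⟩
  have hth : 0 < th := by rw [hthdef]; positivity
  obtain ⟨kp, -, hkp1, hkp2⟩ := pj_pop P Zs a A d η th η n hth hbd hgood
  obtain ⟨bb, hbbdef⟩ : ∃ bb : ℝ, bb = (2 : ℝ) ^ (-(κ₀ / 2 * n)) := ⟨_, rfl⟩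
  have hbb : 0 < bb := by rw [hbbdef]; positivity
  have hst := pj_pop_strip P Zs a kp _ _ bb hbb hstrip
  have hκb : (2 : ℝ) ^ (-(κ₀ * n)) / bb = (2 : ℝ) ^ (-(κ₀ / 2 * n)) := by
    rw [hbbdef, ← Real.rpow_sub (by norm_num)]
    congr 1
    ring
  rw [hκb] at hst
  have hconst : (2 : ℝ) ^ (η * n) / th ≤ ρ ^ (-η') := by
    rw [hρpow, hthdef, ← Real.rpow_sub (by norm_num)]
    refine Real.rpow_le_rpow_of_exponent_le (by norm_num) ?_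
    nlinarith
  -- the graphs
  obtain ⟨Bz, hBz⟩ : ∃ Bz : ζ → Prop, Bz = fun z =>
      ¬ RtNoStrip (fun i : Set.range a => pjLam P Zs a kp z i.1) Subtype.val ((2 : ℝ) ^ (-(t₀ * n))) bb := ⟨_, rfl⟩
  have hex : ∀ z, ∃ 𝒢 : Set.range a → Set.range a → Prop, ¬ Bz z →
      ((∀ i j, 𝒢 i j → 𝒢 j i) ∧
        ∑ i : Set.range a, ∑ j : Set.range a with ¬ 𝒢 i j, pjLam P Zs a kp z i.1 * pjLam P Zs a kp z j.1 ≤ 2 * ρ ^ c ∧
        (∀ i j : Set.range a, 𝒢 i j → ρ ^ χ ≤ dist i.1 j.1) ∧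
        RtThin (fun i : Set.range a => pjLam P Zs a kp z i.1) Subtype.val 𝒢 (ρ ^ (-χ)) (d - ε) ρ) := by
    intro z
    by_cases hz : Bz z
    · exact ⟨fun _ _ => False, fun h => absurd hz h⟩
    · obtain ⟨hpop, htree⟩ := hkp2 z
      rw [← hρdef] at htree
      have h2 : RtNoStrip (fun i : Set.range a => pjLam P Zs a kp z i.1) Subtype.val (ρ ^ t₀) (ρ ^ (κ₀ / 2)) := by
        rw [hρpow, hρpow, ← hbbdef]
        rw [hBz] at hz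
        exact not_not.1 hz
      obtain ⟨𝒢, h𝒢⟩ := H ρ hρ0 hρlt (Set.range a) _ _ hpop (pj_law_tree_mono _ _ d _ hpop.lam0 hconst htree) h2
      exact ⟨𝒢, fun _ => h𝒢⟩
  choose 𝒢 h𝒢 using hex
  obtain ⟨G, hG⟩ : ∃ G : ζ → ℝ × ℝ → ℝ × ℝ → Prop, G = fun z x y => ¬ Bz z ∧ pjLift (𝒢 z) y x := ⟨_, rfl⟩
  have hlam0 : ∀ z (i : Set.range a), 0 ≤ pjLam P Zs a kp z i.1 := fun z i => pj_law_lam_nonneg P Zs a kp z i.1
  -- missed pairs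
  have hmiss := pj_law_miss P Zs a b hiid kp G (fun _ _ => True) Bz (2 * ρ ^ c) (by positivity) (by
    intro z hz
    obtain ⟨hsy, h1, -, -⟩ := h𝒢 z hz
    refine le_trans (le_of_eq ?_) h1
    refine Finset.sum_congr rfl fun i _ => ?_
    refine pj_law_sum_congr _ _ _ _ _ _ fun j _ => ?_
    rw [hG]
    simp only [pj_lift_iff, true_and]
    constructor
    · intro g1 g2
      exact g1 ⟨hz, hsy _ _ g2⟩
    · intro g1 g2
      exact g1 (hsy _ _ g2.2))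
  -- the cones
  have hcone : ∀ (z : ζ) (y : ℝ × ℝ) (t₁ : ℝ) (k : ℕ), |t₁| ≤ 1 → k ≤ n →
      ∑ i : Set.range a with G z i.1 y ∧ PjHorP (pjCor m y) i.1 ∧ |pjDir (pjCor m y) i.1 - t₁| ≤ (1 / 2 : ℝ) ^ k,
        pjLam P Zs a kp z i.1 ≤ 2 * ρ ^ (-χ) * ((1 / 2 : ℝ) ^ k) ^ (d - ε) := by
    intro z y t₁ k ht₁ hk
    by_cases hz : Bz z
    · refine le_trans (le_of_eq ?_) (by positivity)
      refine Finset.sum_eq_zero fun i hi => ?_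
      exfalso
      rw [Finset.mem_filter] at hi
      obtain ⟨-, g1, -, -⟩ := hi
      rw [hG] at g1
      exact g1.1 hz
    · obtain ⟨-, -, hsep, hthin⟩ := h𝒢 z hz
      refine le_trans (le_of_eq ?_) (pj_law_par_cone a _ (hlam0 z) (hkp2 z).1.lam1 (𝒢 z) ρ χ (d - ε) n m hρdef hm hχ0 hχ2
        (by linarith) hρhalf hsep hthin y t₁ k ht₁ hk)
      refine pj_law_sum_congr _ _ _ _ _ _ fun i _ => ?_
      rw [hG]
      exact ⟨fun g => ⟨g.1.2, g.2⟩, fun g => ⟨⟨hz, g.1⟩, g.2⟩⟩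
  -- scores
  obtain ⟨l, hldef⟩ : ∃ l : ℝ, l = (2 : ℝ) ^ (-(χ * n)) := ⟨_, rfl⟩
  have hl : 0 < l := by rw [hldef]; positivity
  have hlog2 : 0 < Real.log 2 := Real.log_pos (by norm_num)
  have hlog : Real.log (2 * ρ ^ (-χ) / l) ≤ ε * n * Real.log 2 := by
    rw [hρpow, hldef, Real.log_div (by positivity) (by positivity), Real.log_mul (by norm_num) (by positivity),
      Real.log_rpow (by norm_num), Real.log_rpow (by norm_num)]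
    have h5 : 1 + 2 * (χ * n) ≤ ε * n := by nlinarith
    have h6 := mul_le_mul_of_nonneg_right h5 hlog2.le
    linarith
  have hscore := pj_u_score0 P (pair Zs (icQ b m)) (fun ω => pjDir (pjCor m (b ω)) (a ω))
    (fun ω => (kp (Zs ω) (a ω) ∧ kp (Zs ω) (b ω) ∧ G (Zs ω) (a ω) (b ω)) ∧ PjHorP (pjCor m (b ω)) (a ω))
    (2 * ρ ^ (-χ)) (d - ε) l n (by positivity) hl (fun ω hE k hk =>
      pj_law_par_key P Zs a b hiid kp G m n _ _ (by positivity) hcone ω hE.2 k hk)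
  -- assembly
  have hsplit : P.pr (fun ω => PjHorP (pjCor m (b ω)) (a ω) ∧
      ¬ IcGood P (icS (fun ω => pjDir (pjCor m (b ω)) (a ω))) (pair Zs (icQ b m)) (d - ε) ε n ω)
      ≤ P.pr (fun ω => (True ∧ ¬ (kp (Zs ω) (a ω) ∧ kp (Zs ω) (b ω) ∧ G (Zs ω) (a ω) (b ω))) ∨
        (((kp (Zs ω) (a ω) ∧ kp (Zs ω) (b ω) ∧ G (Zs ω) (a ω) (b ω)) ∧ PjHorP (pjCor m (b ω)) (a ω)) ∧
          ∃ k : ℕ, k ≤ n ∧ P.surC (icS (fun ω => pjDir (pjCor m (b ω)) (a ω)) k) (pair Zs (icQ b m)) ω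
            < (d - ε) * k * Real.log 2 - Real.log (2 * ρ ^ (-χ) / l))) := by
    refine ent_pr_mono P fun ω _ hh => ?_
    by_cases hE : kp (Zs ω) (a ω) ∧ kp (Zs ω) (b ω) ∧ G (Zs ω) (a ω) (b ω)
    · refine Or.inr ⟨⟨hE, hh.1⟩, ?_⟩
      have hb := hh.2
      unfold IcGood at hb
      push Not at hb
      obtain ⟨k, hk, hs⟩ := hb
      refine ⟨k, hk, lt_of_lt_of_le hs ?_⟩
      have : ((d - ε) * (k : ℝ) - ε * n) * Real.log 2 = (d - ε) * k * Real.log 2 - ε * n * Real.log 2 := by ring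
      rw [this]
      linarith
    · exact Or.inl ⟨trivial, hE⟩
  have hor := ent_pr_or_le P
    (fun ω => True ∧ ¬ (kp (Zs ω) (a ω) ∧ kp (Zs ω) (b ω) ∧ G (Zs ω) (a ω) (b ω)))
    (fun ω => ((kp (Zs ω) (a ω) ∧ kp (Zs ω) (b ω) ∧ G (Zs ω) (a ω) (b ω)) ∧ PjHorP (pjCor m (b ω)) (a ω)) ∧
          ∃ k : ℕ, k ≤ n ∧ P.surC (icS (fun ω => pjDir (pjCor m (b ω)) (a ω)) k) (pair Zs (icQ b m)) ω
            < (d - ε) * k * Real.log 2 - Real.log (2 * ρ ^ (-χ) / l))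
  have hbz : P.pr (fun ω => Bz (Zs ω)) ≤ (2 : ℝ) ^ (-(κ₀ / 2 * n)) := by
    rw [hBz]
    exact hst
  have hc' : ρ ^ c ≤ ε / 16 := by
    rw [hρpow]
    exact (hle c).trans hN3
  have h2' := (hle (κ₀ / 2)).trans hN2
  rw [← hthdef] at hN1
  rw [← hldef] at hN4
  linarith

theorem pj_law_sw_icgood {Ω ζ α : Type} [Fintype Ω] (P : FLaw Ω) (Zs : Ω → ζ) (b : Ω → ℝ × ℝ) (m : ℕ) (X : ℕ → Ω → α)
    (u e : ℝ) (n : ℕ) (ω : Ω) :
    IcGood P X (pair Zs (icQ (fun ω => (b ω).swap) m)) u e n ω ↔ IcGood P X (pair Zs (icQ b m)) u e n ω := by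
  have hq : ∀ ω' : Ω, icQ (fun ω => (b ω).swap) m ω' = icQ (fun ω => (b ω).swap) m ω ↔ icQ b m ω' = icQ b m ω := by
    intro ω'
    unfold icQ
    simp only [Prod.mk.injEq, Prod.fst_swap, Prod.snd_swap]
    exact and_comm
  have hs : ∀ k : ℕ, P.surC (X k) (pair Zs (icQ (fun ω => (b ω).swap) m)) ω = P.surC (X k) (pair Zs (icQ b m)) ω := by
    intro k
    refine ent_surC_congr P _ _ _ _ ω (fun ω' _ => ?_) (fun ω' _ _ => Iff.rfl)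
    simp only [FLaw.pair, Prod.mk.injEq]
    rw [hq ω']
  unfold IcGood
  simp only [hs]

theorem pj_law_sw_cor (m : ℕ) (y : ℝ × ℝ) : pjCor m y.swap = (pjCor m y).swap := rfl

/-- **X5.  Parent-centred directions**: verbatim `pj_par_law` of `Prj/Contract.lean`. -/
theorem pj_u_par_law (A d ε : ℝ) (hA : 1 ≤ A) (hd : 0 < d) (hd1 : d ≤ 1) (hε : 0 < ε) :
    ∃ t₀ : ℝ, 0 < t₀ ∧ t₀ ≤ 1 ∧ ∀ κ₀ : ℝ, 0 < κ₀ → ∃ η : ℝ, 0 < η ∧ ∃ n₁ : ℕ, ∀ n : ℕ, n₁ ≤ n → ∀ m : ℕ, 2 * n ≤ m →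
      ∀ (Ω ζ : Type) [Fintype Ω] (P : FLaw Ω) (Zs : Ω → ζ) (a b : Ω → ℝ × ℝ),
        PjIid P Zs a b → PjBd A a → PjBd A b →
        P.pr (fun ω => ¬ PjGoodH P (icQ a) Zs d η n ω) ≤ η →
        PjNoStrip P Zs a ((2 : ℝ) ^ (-(t₀ * n))) ((2 : ℝ) ^ (-(κ₀ * n))) →
        P.pr (fun ω => PjHorP (pjCor m (b ω)) (a ω) ∧
          ¬ IcGood P (icS (fun ω => pjDir (pjCor m (b ω)) (a ω))) (pair Zs (icQ b m)) (d - ε) ε n ω) ≤ ε ∧
        P.pr (fun ω => PjHorP (pjCor m (b ω)).swap (a ω).swap ∧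
          ¬ IcGood P (icS (fun ω => pjDir (pjCor m (b ω)).swap (a ω).swap)) (pair Zs (icQ b m)) (d - ε) ε n ω) ≤ ε := by
  obtain ⟨t₀, ht0, ht1, H⟩ := pj_law_par_hor A d ε hA hd hd1 hε
  refine ⟨t₀, ht0, ht1, fun κ₀ hκ => ?_⟩
  obtain ⟨η, hη, n₁, H⟩ := H κ₀ hκ
  refine ⟨η, hη, n₁, fun n hn m hm Ω ζ _ P Zs a b hiid hba _ hgood hstrip =>
    ⟨H n hn m hm Ω ζ P Zs a b hiid hba hgood hstrip, ?_⟩⟩
  have h1 := H n hn m hm Ω ζ P Zs (fun ω => (a ω).swap) (fun ω => (b ω).swap) (pj_law_sw_iid P Zs a b hiid)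
    (pj_law_sw_bd A a hba) (by simp only [pj_law_sw_goodQ]; exact hgood) (pj_law_sw_strip P Zs a _ _ hstrip)
  simp only [pj_law_sw_icgood, pj_law_sw_cor] at h1
  exact h1

end Claimed.Agent.R256
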