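import Claimed.Agent.R256.Prj.PinDefs

/-!
# Row 256, Prj, unit PIN.  File 2: the refined graph for an arbitrary reading `F` (finite sums only).      (helper186)
Copies of `R255/Rate/RpRefMass.lean`, `RpTele.lean` (architect helper69) with the slope `rpSl pos` replaced by an arbitrary reading `F : ι → ι → ℝ`.
* `pj_ref_gr`: `PjRef` is symmetric, contained in `𝒢`;  `pj_ref_mass`: union bound over the levels;  `pj_chain`: `pjM i₀ i (W n) ≤ ∏_{m<n} l m` on refined pairs;  `pj_tele`: Frostman bound of the reading.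
-/

set_option autoImplicit false

namespace Claimed.Agent.R256

open Finset Classical
open Claimed.Agent.R255 (RpPop RpGr)

variable {ι : Type} [Fintype ι]


theorem pj_ref_gr {lam : ι → ℝ} {pos : ι → ℝ × ℝ} {F : ι → ι → ℝ} {𝒢 : ι → ι → Prop} {σ₀ : ℝ} (hg : RpGr pos 𝒢 σ₀) (L : ℕ) (W l : ℕ → ℝ) :
    RpGr pos (PjRef lam F 𝒢 L W l) σ₀ := by
  exact ⟨fun i j h => ⟨hg.symm i j h.1, fun n hn => ⟨(h.2 n hn).2, (h.2 n hn).1⟩⟩,
    fun i j h => hg.sub i j h.1⟩

theorem pj_ref_mass {lam : ι → ℝ} {pos : ι → ℝ × ℝ} {F : ι → ι → ℝ} {𝒢 : ι → ι → Prop} (hlam : ∀ i, 0 ≤ lam i) (L : ℕ) (W l : ℕ → ℝ) (β : ℝ)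
    (hbad : ∀ n < L, ∑ i, ∑ j with PjBad lam F 𝒢 (W n) (W (n + 1)) (l n) i j, lam i * lam j ≤ β) :
    ∑ i, ∑ j with 𝒢 i j ∧ ¬ PjRef lam F 𝒢 L W l i j, lam i * lam j ≤ 2 * L * β := by
  have hnn : ∀ i j, 0 ≤ lam i * lam j := fun i j => mul_nonneg (hlam i) (hlam j)
  have key : ∀ i j, (if 𝒢 i j ∧ ¬ PjRef lam F 𝒢 L W l i j then lam i * lam j else 0)
      ≤ ∑ n ∈ range L, ((if PjBad lam F 𝒢 (W n) (W (n + 1)) (l n) i j then lam i * lam j else 0)
        + (if PjBad lam F 𝒢 (W n) (W (n + 1)) (l n) j i then lam j * lam i else 0)) := by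
    intro i j
    have hterm : ∀ n ∈ range L, 0 ≤ (if PjBad lam F 𝒢 (W n) (W (n + 1)) (l n) i j then lam i * lam j else 0)
        + (if PjBad lam F 𝒢 (W n) (W (n + 1)) (l n) j i then lam j * lam i else 0) := by
      intro n _
      refine add_nonneg ?_ ?_
      · split_ifs
        exacts [hnn i j, le_rfl]
      · split_ifs
        exacts [hnn j i, le_rfl]
    by_cases h : 𝒢 i j ∧ ¬ PjRef lam F 𝒢 L W l i j
    · rw [if_pos h]
      obtain ⟨hG, hnr⟩ := h
      have hex : ∃ n < L, PjBad lam F 𝒢 (W n) (W (n + 1)) (l n) i j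
          ∨ PjBad lam F 𝒢 (W n) (W (n + 1)) (l n) j i := by
        by_contra hcon
        push Not at hcon
        exact hnr ⟨hG, fun n hn => hcon n hn⟩
      obtain ⟨n, hn, hb⟩ := hex
      refine le_trans ?_ (Finset.single_le_sum hterm (Finset.mem_range.2 hn))
      rcases hb with hb | hb
      · rw [if_pos hb]
        have : 0 ≤ (if PjBad lam F 𝒢 (W n) (W (n + 1)) (l n) j i then lam j * lam i else 0) := by
          split_ifs
          exacts [hnn j i, le_rfl]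
        linarith
      · rw [if_pos hb, mul_comm (lam j)]
        have : 0 ≤ (if PjBad lam F 𝒢 (W n) (W (n + 1)) (l n) i j then lam i * lam j else 0) := by
          split_ifs
          exacts [hnn i j, le_rfl]
        linarith
    · rw [if_neg h]
      exact Finset.sum_nonneg hterm
  simp only [Finset.sum_filter] at hbad ⊢
  calc ∑ i, ∑ j, (if 𝒢 i j ∧ ¬ PjRef lam F 𝒢 L W l i j then lam i * lam j else 0)
      ≤ ∑ i, ∑ j, ∑ n ∈ range L,
          ((if PjBad lam F 𝒢 (W n) (W (n + 1)) (l n) i j then lam i * lam j else 0)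
        + (if PjBad lam F 𝒢 (W n) (W (n + 1)) (l n) j i then lam j * lam i else 0)) :=
        Finset.sum_le_sum fun i _ => Finset.sum_le_sum fun j _ => key i j
    _ = ∑ n ∈ range L, ((∑ i, ∑ j, if PjBad lam F 𝒢 (W n) (W (n + 1)) (l n) i j then lam i * lam j else 0)
        + ∑ i, ∑ j, if PjBad lam F 𝒢 (W n) (W (n + 1)) (l n) j i then lam j * lam i else 0) := by
        simp only [Finset.sum_comm (s := (univ : Finset ι)) (t := range L)]
        simp only [Finset.sum_add_distrib]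
    _ ≤ ∑ n ∈ range L, (β + β) := by
        refine Finset.sum_le_sum fun n hn => add_le_add (hbad n (Finset.mem_range.1 hn)) ?_
        rw [Finset.sum_comm]
        exact hbad n (Finset.mem_range.1 hn)
    _ = 2 * L * β := by
        rw [Finset.sum_const, Finset.card_range, nsmul_eq_mul]
        ring



theorem pj_chain {lam : ι → ℝ} {pos : ι → ℝ × ℝ} {F : ι → ι → ℝ} {𝒢 : ι → ι → Prop} {A : ℝ} (hp : RpPop lam pos A) (L : ℕ) (W l : ℕ → ℝ)
    (hl : ∀ n, 0 ≤ l n) (i₀ i : ι) (h : PjRef lam F 𝒢 L W l i₀ i) (n : ℕ) (hn : n ≤ L) :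
    pjM lam F 𝒢 i₀ i (W n) ≤ ∏ m ∈ range n, l m := by
  induction n with
  | zero =>
    simp only [range_zero, prod_empty]
    refine le_trans ?_ hp.lam1
    unfold pjM
    exact Finset.sum_le_sum_of_subset_of_nonneg (Finset.filter_subset _ _) (fun i _ _ => hp.lam0 i)
  | succ n ih =>
    have h1 := (h.2 n (by omega)).1
    have h2 : pjM lam F 𝒢 i₀ i (W (n + 1)) ≤ l n * pjM lam F 𝒢 i₀ i (W n) := by
      by_contra hc
      exact h1 ⟨h.1, not_le.1 hc⟩
    rw [Finset.prod_range_succ, mul_comm]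
    exact h2.trans (mul_le_mul_of_nonneg_left (ih (by omega)) (hl n))

/-- a set of refined neighbours of `i₀` whose slopes have diameter `≤ W n` has mass `≤ ∏_{m<n} l m` -/
theorem pj_tele_half {lam : ι → ℝ} {pos : ι → ℝ × ℝ} {F : ι → ι → ℝ} {𝒢 : ι → ι → Prop} {A : ℝ} (hp : RpPop lam pos A) (L : ℕ) (W l : ℕ → ℝ)
    (hl : ∀ n, 0 ≤ l n) (i₀ : ι) (n : ℕ) (hn : n ≤ L) (S : Finset ι)
    (hS : ∀ i ∈ S, PjRef lam F 𝒢 L W l i₀ i)
    (hSS : ∀ i ∈ S, ∀ j ∈ S, |F i₀ i - F i₀ j| ≤ W n) :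
    ∑ i ∈ S, lam i ≤ ∏ m ∈ range n, l m := by
  rcases S.eq_empty_or_nonempty with rfl | ⟨j, hj⟩
  · rw [Finset.sum_empty]
    exact Finset.prod_nonneg (fun m _ => hl m)
  · refine le_trans ?_ (pj_chain hp L W l hl i₀ j (hS j hj) n hn)
    unfold pjM
    refine Finset.sum_le_sum_of_subset_of_nonneg ?_ (fun i _ _ => hp.lam0 i)
    intro i hi
    simp only [mem_filter, mem_univ, true_and]
    exact ⟨(hS i hi).1, hSS i hi j hj⟩

theorem pj_tele {lam : ι → ℝ} {pos : ι → ℝ × ℝ} {F : ι → ι → ℝ} {𝒢 : ι → ι → Prop} {A : ℝ} (hp : RpPop lam pos A) (L : ℕ) (W l : ℕ → ℝ)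
    (hl : ∀ n, 0 ≤ l n) (ρ C u' : ℝ) (hWL : W L ≤ ρ)
    (hW0 : ∀ w, W 0 ≤ w → w ≤ 1 → 1 ≤ C * w ^ u')
    (hprod : ∀ n < L, ∀ w, W (n + 1) ≤ w → w ≤ W n → 2 * ∏ m ∈ range n, l m ≤ C * w ^ u') :
    PjFr lam F (PjRef lam F 𝒢 L W l) C u' ρ := by
  intro i₀ z w hρw hw1
  by_cases h0 : W 0 ≤ w
  · refine le_trans ?_ (hW0 w h0 hw1)
    refine le_trans ?_ hp.lam1
    exact Finset.sum_le_sum_of_subset_of_nonneg (Finset.filter_subset _ _) (fun i _ _ => hp.lam0 i)
  · have hex : ∃ n, W n ≤ w := ⟨L, hWL.trans hρw⟩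
    have hNs : W (Nat.find hex) ≤ w := Nat.find_spec hex
    have hNL : Nat.find hex ≤ L := Nat.find_min' hex (hWL.trans hρw)
    have hN0 : Nat.find hex ≠ 0 := by
      intro h
      rw [h] at hNs
      exact h0 hNs
    obtain ⟨n, hn⟩ := Nat.exists_eq_succ_of_ne_zero hN0
    have hnw : w < W n := by
      have := Nat.find_min hex (m := n) (by omega)
      exact not_le.1 this
    have hfin := hprod n (by omega) w (by rw [← Nat.succ_eq_add_one, ← hn]; exact hNs) hnw.le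
    refine le_trans ?_ hfin
    have hsub : (univ.filter (fun i => PjRef lam F 𝒢 L W l i₀ i ∧ |F i₀ i - z| ≤ w)) ⊆
        (univ.filter (fun i => PjRef lam F 𝒢 L W l i₀ i ∧ |F i₀ i - z| ≤ w ∧ F i₀ i ≤ z)) ∪
        (univ.filter (fun i => PjRef lam F 𝒢 L W l i₀ i ∧ |F i₀ i - z| ≤ w ∧ z ≤ F i₀ i)) := by
      intro i hi
      simp only [mem_filter, mem_univ, true_and, mem_union] at hi ⊢
      rcases le_total (F i₀ i) z with h | h
      · exact Or.inl ⟨hi.1, hi.2, h⟩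
      · exact Or.inr ⟨hi.1, hi.2, h⟩
    have h1 := pj_tele_half hp L W l hl i₀ n (by omega)
      (univ.filter (fun i => PjRef lam F 𝒢 L W l i₀ i ∧ |F i₀ i - z| ≤ w ∧ F i₀ i ≤ z))
      (fun i hi => (mem_filter.1 hi).2.1) (fun i hi j hj => by
        have hi' := (mem_filter.1 hi).2.2
        have hj' := (mem_filter.1 hj).2.2
        have a1 := abs_le.1 hi'.1
        have a2 := abs_le.1 hj'.1
        rw [abs_le]
        constructor <;> linarith [hi'.2, hj'.2])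
    have h2 := pj_tele_half hp L W l hl i₀ n (by omega)
      (univ.filter (fun i => PjRef lam F 𝒢 L W l i₀ i ∧ |F i₀ i - z| ≤ w ∧ z ≤ F i₀ i))
      (fun i hi => (mem_filter.1 hi).2.1) (fun i hi j hj => by
        have hi' := (mem_filter.1 hi).2.2
        have hj' := (mem_filter.1 hj).2.2
        have a1 := abs_le.1 hi'.1
        have a2 := abs_le.1 hj'.1
        rw [abs_le]
        constructor <;> linarith [hi'.2, hj'.2])
    have h3 := Finset.sum_le_sum_of_subset_of_nonneg hsub (f := lam) (fun i _ _ => hp.lam0 i)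
    have h4 := Finset.sum_union_inter (f := lam)
      (s₁ := univ.filter (fun i => PjRef lam F 𝒢 L W l i₀ i ∧ |F i₀ i - z| ≤ w ∧ F i₀ i ≤ z))
      (s₂ := univ.filter (fun i => PjRef lam F 𝒢 L W l i₀ i ∧ |F i₀ i - z| ≤ w ∧ z ≤ F i₀ i))
    have h5 : 0 ≤ ∑ i ∈ (univ.filter (fun i => PjRef lam F 𝒢 L W l i₀ i ∧ |F i₀ i - z| ≤ w ∧ F i₀ i ≤ z)) ∩
        (univ.filter (fun i => PjRef lam F 𝒢 L W l i₀ i ∧ |F i₀ i - z| ≤ w ∧ z ≤ F i₀ i)), lam i :=
      Finset.sum_nonneg (fun i _ => hp.lam0 i)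
    linarith

end Claimed.Agent.R256
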