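import Claimed.Agent.R256.Prj.Defs
import Claimed.Agent.R256.Prj.PinRef

/-!
# Row 256, Prj, unit HER: from ratios on a mesh to hereditary bounds at all scales.      (chief helper186)
Paper free, elementary (finite sums, monotonicity of `pjM` in the width and in the graph, `Real.rpow`).

## PROVED (helper186).  Plan of `pj_her_of_ref`:
`𝒢 = PjRef lam F 𝒢₀ L W l`: for `(i,j) ∈ 𝒢` and `n < L`: `pjM 𝒢₀ i j (W (n+1)) ≤ l n * pjM 𝒢₀ i j (W n)` (negation of `PjBad`, `𝒢₀ i j` holds).  By induction `pjM 𝒢₀ i j (W m) ≤ (∏ t ∈ Ico n m, l t) * pjM 𝒢₀ i j (W n)`, `n ≤ m ≤ L`.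
Let `ρ ≤ w' ≤ w ≤ 1`.  `pjM 𝒢 ≤ pjM 𝒢₀` (subgraph) and `pjM` is monotone in the width.
* `n` := the least index `≤ L` with `W n ≤ w` (exists: `W L = ρ ≤ w`).  Then `w ≤ Q * W n`  (`n = 0`: `w ≤ 1 ≤ Q W 0`; `n > 0`: `w < W (n-1) ≤ Q W n`).
* If `W 0 < w'`: TRIVIAL bound `pjM 𝒢 i j w' ≤ pjM 𝒢₀ i j w` and `w'/w ≥ W 0 ≥ 1/Q`.
* Otherwise `m` := the largest index `≤ L` with `w' ≤ W m`.  Then `W m ≤ Q * w'`  (`m = L`: `W L = ρ ≤ w'`; `m < L`: `W m ≤ Q W (m+1) < Q w'`).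
  - `n ≤ m`:  `pjM 𝒢₀ i j w' ≤ pjM 𝒢₀ i j (W m) ≤ C₁ (W m / W n)^u pjM 𝒢₀ i j (W n) ≤ C₁ (Q² w'/w)^u pjM 𝒢₀ i j w`.
  - `m < n`:  `W n ≤ W (m+1) < w'`, so `w ≤ Q W n < Q w'`: TRIVIAL bound with `w'/w > 1/Q`.
-/

set_option autoImplicit false

namespace Claimed.Agent.R256

open Finset Classical

variable {ι : Type} [Fintype ι]

theorem pj_M_nonneg {lam : ι → ℝ} (h0 : ∀ i, 0 ≤ lam i) (F : ι → ι → ℝ) (𝒢 : ι → ι → Prop) (i j : ι) (w : ℝ) :
    0 ≤ pjM lam F 𝒢 i j w := Finset.sum_nonneg fun k _ => h0 k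

theorem pj_M_mono {lam : ι → ℝ} (h0 : ∀ i, 0 ≤ lam i) (F : ι → ι → ℝ) {𝒢 𝒢' : ι → ι → Prop} (i j : ι) {w w' : ℝ}
    (hg : ∀ k, 𝒢 i k → 𝒢' i k) (hw : w ≤ w') : pjM lam F 𝒢 i j w ≤ pjM lam F 𝒢' i j w' := by
  unfold pjM
  refine Finset.sum_le_sum_of_subset_of_nonneg ?_ fun k _ _ => h0 k
  intro k hk
  rw [Finset.mem_filter] at hk ⊢
  exact ⟨hk.1, hg k hk.2.1, hk.2.2.trans hw⟩

/-- monotonicity of `PjHrd` in all parameters -/
theorem pj_her_mono {lam : ι → ℝ} {F : ι → ι → ℝ} {𝒢w 𝒢w' 𝒢 : ι → ι → Prop} {C C' u u' ρ ρ' : ℝ} (h0 : ∀ i, 0 ≤ lam i)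
    (hρ : 0 < ρ) (hρρ : ρ ≤ ρ') (hC0 : 0 ≤ C) (hC : C ≤ C') (hu : u' ≤ u) (hw : ∀ i j, 𝒢w i j → 𝒢w' i j)
    (h : PjHrd lam F 𝒢w 𝒢 C u ρ) : PjHrd lam F 𝒢w' 𝒢 C' u' ρ' := by
  intro i j hij w' w hw' hww hw1
  refine (h i j hij w' w (hρρ.trans hw') hww hw1).trans ?_
  have hw'0 : 0 < w' := lt_of_lt_of_le hρ (hρρ.trans hw')
  have hw0 : 0 < w := lt_of_lt_of_le hw'0 hww
  have hr0 : 0 < w' / w := div_pos hw'0 hw0
  have hr1 : w' / w ≤ 1 := (div_le_one hw0).2 hww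
  exact mul_le_mul (mul_le_mul hC (Real.rpow_le_rpow_of_exponent_ge hr0 hr1 hu) (Real.rpow_nonneg hr0.le _) (hC0.trans hC))
    (pj_M_mono h0 F i j (fun k hk => hw i k hk) le_rfl) (pj_M_nonneg h0 F _ i j w)
    (mul_nonneg (hC0.trans hC) (Real.rpow_nonneg hr0.le _))

/-- **mesh ratios give hereditary bounds** -/
theorem pj_her_of_ref {lam : ι → ℝ} {F : ι → ι → ℝ} {𝒢₀ : ι → ι → Prop} (h0 : ∀ i, 0 ≤ lam i) (L : ℕ) (W l : ℕ → ℝ)
    (ρ u C₁ Q : ℝ) (hu : 0 ≤ u) (hQ : 1 ≤ Q) (hC₁ : 1 ≤ C₁) (hρ : 0 < ρ) (hWL : W L = ρ) (hW0 : 1 ≤ Q * W 0)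
    (hmono : ∀ n < L, W (n + 1) ≤ W n) (hrat : ∀ n < L, W n ≤ Q * W (n + 1)) (hl : ∀ n, 0 ≤ l n)
    (hprod : ∀ n m : ℕ, n ≤ m → m ≤ L → ∏ t ∈ Finset.Ico n m, l t ≤ C₁ * (W m / W n) ^ u) :
    PjHrd lam F 𝒢₀ (PjRef lam F 𝒢₀ L W l) (C₁ * Q ^ (2 * u)) u ρ := by
  intro i j hij w' w hw' hww hw1
  have hQ0 : 0 < Q := by linarith
  have hw'0 : 0 < w' := lt_of_lt_of_le hρ hw'
  have hw0 : 0 < w := lt_of_lt_of_le hw'0 hww
  have hr0 : 0 < w' / w := div_pos hw'0 hw0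
  have hM0 : ∀ x, 0 ≤ pjM lam F 𝒢₀ i j x := fun x => pj_M_nonneg h0 F 𝒢₀ i j x
  have hsubM : ∀ x y, x ≤ y → pjM lam F (PjRef lam F 𝒢₀ L W l) i j x ≤ pjM lam F 𝒢₀ i j y := fun x y hxy =>
    pj_M_mono h0 F i j (fun k hk => hk.1) hxy
  -- the mesh is decreasing
  have hanti : ∀ n m : ℕ, n ≤ m → m ≤ L → W m ≤ W n := by
    intro n m hnm
    induction m, hnm using Nat.le_induction with
    | base => intro _; exact le_rfl
    | succ m _ ih => intro hm; exact (hmono m (by omega)).trans (ih (by omega))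
  have hWpos : ∀ n ≤ L, 0 < W n := fun n hn => lt_of_lt_of_le hρ (hWL ▸ hanti n L hn le_rfl)
  -- the chain
  have hchain : ∀ n m : ℕ, n ≤ m → m ≤ L →
      pjM lam F 𝒢₀ i j (W m) ≤ (∏ t ∈ Finset.Ico n m, l t) * pjM lam F 𝒢₀ i j (W n) := by
    intro n m hnm
    induction m, hnm using Nat.le_induction with
    | base => intro _; simp
    | succ m hm ih =>
      intro hmL
      have h1 := (hij.2 m (by omega)).1
      unfold PjBad at h1
      have h2 : pjM lam F 𝒢₀ i j (W (m + 1)) ≤ l m * pjM lam F 𝒢₀ i j (W m) := by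
        by_contra hc
        exact h1 ⟨hij.1, not_le.1 hc⟩
      rw [Finset.prod_Ico_succ_top hm]
      calc pjM lam F 𝒢₀ i j (W (m + 1)) ≤ l m * pjM lam F 𝒢₀ i j (W m) := h2
        _ ≤ l m * ((∏ t ∈ Finset.Ico n m, l t) * pjM lam F 𝒢₀ i j (W n)) :=
          mul_le_mul_of_nonneg_left (ih (by omega)) (hl m)
        _ = _ := by ring
  -- the trivial range
  have htriv : w ≤ Q * w' → pjM lam F (PjRef lam F 𝒢₀ L W l) i j w'
      ≤ C₁ * Q ^ (2 * u) * (w' / w) ^ u * pjM lam F 𝒢₀ i j w := by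
    intro hwQ
    have h1 : 1 / Q ≤ w' / w := by
      rw [div_le_div_iff₀ hQ0 hw0]
      linarith
    have h2 : (1 / Q) ^ u ≤ (w' / w) ^ u := Real.rpow_le_rpow (by positivity) h1 hu
    have h3 : Q ^ (2 * u) * (1 / Q) ^ u = Q ^ u := by
      rw [one_div, Real.inv_rpow hQ0.le, ← Real.rpow_neg hQ0.le, ← Real.rpow_add hQ0]
      congr 1
      ring
    have h4 : 1 ≤ Q ^ u := Real.one_le_rpow hQ hu
    have h5 : 0 < Q ^ (2 * u) := Real.rpow_pos_of_pos hQ0 _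
    have h6 : 1 ≤ C₁ * Q ^ (2 * u) * (w' / w) ^ u := by
      calc (1 : ℝ) ≤ 1 * Q ^ u := by linarith
        _ ≤ C₁ * Q ^ u := mul_le_mul_of_nonneg_right hC₁ (by linarith)
        _ = C₁ * (Q ^ (2 * u) * (1 / Q) ^ u) := by rw [h3]
        _ ≤ C₁ * (Q ^ (2 * u) * (w' / w) ^ u) :=
          mul_le_mul_of_nonneg_left (mul_le_mul_of_nonneg_left h2 h5.le) (by linarith)
        _ = _ := by ring
    calc pjM lam F (PjRef lam F 𝒢₀ L W l) i j w' ≤ pjM lam F 𝒢₀ i j w := hsubM _ _ hww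
      _ = 1 * pjM lam F 𝒢₀ i j w := (one_mul _).symm
      _ ≤ _ := mul_le_mul_of_nonneg_right h6 (hM0 w)
  -- the index of `w`
  have hex : ∃ n, W n ≤ w := ⟨L, by rw [hWL]; exact hw'.trans hww⟩
  obtain ⟨n, hn⟩ : ∃ n, n = Nat.find hex := ⟨_, rfl⟩
  have hnW : W n ≤ w := by rw [hn]; exact Nat.find_spec hex
  have hnL : n ≤ L := by rw [hn]; exact Nat.find_min' hex (by rw [hWL]; exact hw'.trans hww)
  have hwn : w ≤ Q * W n := by
    rcases Nat.eq_zero_or_pos n with h | h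
    · rw [h]; exact hw1.trans hW0
    · have h1 : ¬ W (n - 1) ≤ w := Nat.find_min hex (by rw [← hn]; omega)
      have h2 := hrat (n - 1) (by omega)
      rw [Nat.sub_add_cancel h] at h2
      linarith [not_le.1 h1]
  by_cases hw'0' : w' ≤ W 0
  · obtain ⟨m, hm⟩ : ∃ m, m = Nat.findGreatest (fun t => w' ≤ W t) L := ⟨_, rfl⟩
    have hmW : w' ≤ W m := by
      rw [hm]; exact Nat.findGreatest_spec (P := fun t => w' ≤ W t) (Nat.zero_le L) hw'0'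
    have hmL : m ≤ L := by rw [hm]; exact Nat.findGreatest_le L
    have hnext : m < L → W (m + 1) < w' := by
      intro h
      have := Nat.findGreatest_is_greatest (P := fun t => w' ≤ W t) (n := L) (k := m + 1) (by rw [← hm]; omega) (by omega)
      exact not_le.1 this
    have hWm : W m ≤ Q * w' := by
      rcases Nat.lt_or_ge m L with h | h
      · have h2 := hrat m h
        have h3 := hnext h
        nlinarith
      · have : m = L := le_antisymm hmL h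
        rw [this, hWL]
        nlinarith
    rcases Nat.lt_or_ge m n with hmn | hnm
    · -- trivial
      apply htriv
      have h1 : W n ≤ W (m + 1) := hanti (m + 1) n hmn hnL
      have h2 := hnext (by omega)
      nlinarith
    · have hWn0 := hWpos n hnL
      have hWm0 := hWpos m hmL
      have h1 : W m / W n ≤ Q ^ 2 * (w' / w) := by
        rw [div_le_iff₀ hWn0]
        have e : Q ^ 2 * (w' / w) * W n = (Q * w') * (Q * W n) / w := by field_simp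
        rw [e, le_div_iff₀ hw0]
        have : W m * w ≤ (Q * w') * (Q * W n) := mul_le_mul hWm hwn hw0.le (by positivity)
        exact this
      have h2 : (W m / W n) ^ u ≤ Q ^ (2 * u) * (w' / w) ^ u := by
        calc (W m / W n) ^ u ≤ (Q ^ 2 * (w' / w)) ^ u := Real.rpow_le_rpow (div_pos hWm0 hWn0).le h1 hu
          _ = (Q ^ 2) ^ u * (w' / w) ^ u := Real.mul_rpow (by positivity) hr0.le
          _ = _ := by
            congr 1
            rw [← Real.rpow_natCast Q 2, ← Real.rpow_mul hQ0.le]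
            norm_num
      calc pjM lam F (PjRef lam F 𝒢₀ L W l) i j w' ≤ pjM lam F 𝒢₀ i j (W m) := hsubM _ _ hmW
        _ ≤ (∏ t ∈ Finset.Ico n m, l t) * pjM lam F 𝒢₀ i j (W n) := hchain n m hnm hmL
        _ ≤ (C₁ * (W m / W n) ^ u) * pjM lam F 𝒢₀ i j (W n) :=
          mul_le_mul_of_nonneg_right (hprod n m hnm hmL) (hM0 _)
        _ ≤ (C₁ * (Q ^ (2 * u) * (w' / w) ^ u)) * pjM lam F 𝒢₀ i j w :=
          mul_le_mul (mul_le_mul_of_nonneg_left h2 (by linarith)) (pj_M_mono h0 F i j (fun _ h => h) hnW) (hM0 _)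
            (mul_nonneg (by linarith) (mul_nonneg (Real.rpow_pos_of_pos hQ0 _).le (Real.rpow_nonneg hr0.le _)))
        _ = _ := by ring
  · apply htriv
    have h1 := not_le.1 hw'0'
    nlinarith

/-- a hereditary reading is Frostman -/
theorem pj_fr_of_her {lam : ι → ℝ} {F : ι → ι → ℝ} {𝒢w 𝒢 : ι → ι → Prop} {C u ρ : ℝ} (h0 : ∀ i, 0 ≤ lam i)
    (h1 : ∑ i, lam i ≤ 1) (hC : 1 ≤ C) (hu : 0 ≤ u) (hρ : 0 < ρ) (h : PjHrd lam F 𝒢w 𝒢 C u ρ) :
    PjFr lam F 𝒢 (C * 2 ^ u) u ρ := by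
  intro i₀ z w hρw hw1
  have hw0 : 0 < w := lt_of_lt_of_le hρ hρw
  have e2 : (2 * w) ^ u = 2 ^ u * w ^ u := Real.mul_rpow (by norm_num) hw0.le
  have hall : ∀ (𝒢' : ι → ι → Prop) (j : ι) (x : ℝ), pjM lam F 𝒢' i₀ j x ≤ 1 := fun 𝒢' j x =>
    (Finset.sum_le_sum_of_subset_of_nonneg (Finset.filter_subset _ _) fun k _ _ => h0 k).trans h1
  by_cases hne : ∃ j0, 𝒢 i₀ j0 ∧ |F i₀ j0 - z| ≤ w
  · obtain ⟨j0, hj1, hj2⟩ := hne
    have hsub : ∑ i with 𝒢 i₀ i ∧ |F i₀ i - z| ≤ w, lam i ≤ pjM lam F 𝒢 i₀ j0 (2 * w) := by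
      unfold pjM
      refine Finset.sum_le_sum_of_subset_of_nonneg ?_ fun k _ _ => h0 k
      intro k hk
      rw [Finset.mem_filter] at hk ⊢
      refine ⟨hk.1, hk.2.1, ?_⟩
      have e : F i₀ k - F i₀ j0 = (F i₀ k - z) - (F i₀ j0 - z) := by ring
      rw [e]
      refine (abs_sub _ _).trans ?_
      linarith [hk.2.2]
    refine hsub.trans ?_
    by_cases h2 : 2 * w ≤ 1
    · have h3 := h i₀ j0 hj1 (2 * w) 1 (by linarith) h2 le_rfl
      rw [div_one, e2] at h3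
      refine h3.trans ?_
      have h4 : 0 ≤ C * (2 ^ u * w ^ u) := by positivity
      calc C * (2 ^ u * w ^ u) * pjM lam F 𝒢w i₀ j0 1 ≤ C * (2 ^ u * w ^ u) * 1 :=
            mul_le_mul_of_nonneg_left (hall _ _ _) h4
        _ = _ := by ring
    · refine (hall _ _ _).trans ?_
      have h3 : 1 ≤ (2 * w) ^ u := Real.one_le_rpow (by linarith) hu
      rw [e2] at h3
      calc (1 : ℝ) ≤ 1 * (2 ^ u * w ^ u) := by linarith
        _ ≤ C * (2 ^ u * w ^ u) := mul_le_mul_of_nonneg_right hC (by positivity)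
        _ = _ := by ring
  · rw [Finset.filter_false_of_mem (fun k _ hk => hne ⟨k, hk⟩), Finset.sum_empty]
    positivity

end Claimed.Agent.R256
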