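import Claimed.Agent.R256.Prj.PinLowH
import Claimed.Agent.R256.Prj.Her
import Claimed.Agent.R256.Inc.CoreA

/-!
# Row 256, Prj, unit PIN, file LO: the fat pairs at ONE scale (choice of the constants).      (chief helper186)
## LEAF L-256-PRJ-FR1  (`pj_tree1_mono`, `pj_frost_of_tree1`): PROVED (helper186)
`pj_frost_of_tree1`: let `ρ ≤ r ≤ 1`, `k'` := the level with `(1/2)^(k'+1) < r ≤ (1/2)^k'`.  The interval `{|x - z| ≤ r}` meets at most 3 dyadic cells of level `k'` (`icCell k' x ∈ {c-1, c, c+1}`, `c = icCell k' z`).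
A cell that contains a point `i₀` has mass `≤ C ((1/2)^k')^s ∑_{cell of level 0} lam ≤ C (2r)^s ≤ 2 C r^s` (`h` with `k = 0`, `∑ lam ≤ 1`, `s ≤ 1`).
## LEAF L-256-PRJ-LOS  (`pj_lo_scale`): PROVED (helper186)
`a₀ = ε/(2(9+2/d))`, `K = Δ^(-a₀)`, `κ = K^(-3) = Δ^(3a₀)`, `Lo = PjLow lam pos K Δ ∧ PjDense lam pos κ (pjD2 A K d Δ) Δ`.
Hypotheses of `pj_low_miss`, `pj_low_her` for small `Δ`:  `1 ≤ K`;  `PjTree1` with the constant `Δ^(-a₀/2) ≤ K` (`pj_tree1_mono`);  `KfFrost` with `6 Δ^(-a₀/2) ≤ K` (`pj_frost_of_tree1`);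
 `Δ ≤ (4K²)^(-1/d) = 4^(-1/d) Δ^(2a₀/d)` because `2a₀/d = ε/(9d+2) ≤ 1/2`.
MISS: `Lv` := the least `Lv` with `(1/2)^(Lv+1) < Δ`; then `Lv + 1 ≤ 1 + log₂(1/Δ) ≤ Δ^(-a₀)/2`-like for small `Δ` (`Real.add_one_le_exp`, or `Real.log_le_rpow_div`);  `2K(Lv+1)κ = 2(Lv+1)Δ^(2a₀) ≤ Δ^(a₀/2)`.
HER: `pjGam A K d ≤ 34 A⁴ 4^(1/d) K^(3+2/d)`, so the constant is `≤ 1536·34·4^(1/d) A⁶ K^(9+2/d) = c_A Δ^(-ε/2) ≤ Δ^(-ε)`; exponent `d - ε ≤ d` (`pj_her_mono`).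
-/

set_option autoImplicit false

namespace Claimed.Agent.R256

open Finset Classical
open Claimed.Agent.R255
open Claimed.Agent.RW (KfFrost)

variable {ι : Type} [Fintype ι]

theorem pj_tree1_mono {lam : ι → ℝ} {x : ι → ℝ} {C C' s ρ ρ' : ℝ} (h0 : ∀ i, 0 ≤ lam i) (hC : C ≤ C') (hρ : ρ ≤ ρ')
    (h : PjTree1 lam x C s ρ) : PjTree1 lam x C' s ρ' := by
  intro k k' hk hρ' i₀
  refine (h k k' hk (hρ.trans hρ') i₀).trans ?_
  have h1 : 0 ≤ ((1 / 2 : ℝ) ^ (k' - k)) ^ s := Real.rpow_nonneg (by positivity) _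
  have h2 : 0 ≤ ∑ i with icCell k (x i) = icCell k (x i₀), lam i := Finset.sum_nonneg fun i _ => h0 i
  gcongr

theorem pj_frost_of_tree1 {lam : ι → ℝ} {x : ι → ℝ} {C s ρ : ℝ} (h0 : ∀ i, 0 ≤ lam i) (h1 : ∑ i, lam i ≤ 1) (hC : 0 ≤ C)
    (hs0 : 0 ≤ s) (hs1 : s ≤ 1) (hρ : 0 < ρ) (h : PjTree1 lam x C s ρ) : KfFrost lam x (6 * C) s ρ := by
  intro z r hρr hr1
  have hr0 : 0 < r := lt_of_lt_of_le hρ hρr
  obtain ⟨n, hn1, hn2⟩ := exists_nat_pow_near_of_lt_one hr0 hr1 (by norm_num : (0 : ℝ) < 1 / 2) (by norm_num : (1 / 2 : ℝ) < 1)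
  -- one cell
  have hcell : ∀ c : ℤ, ∑ i with icCell n (x i) = c, lam i ≤ 2 * C * r ^ s := by
    intro c
    have hrs : 0 ≤ r ^ s := Real.rpow_nonneg hr0.le _
    by_cases hne : ∃ i₀, icCell n (x i₀) = c
    · obtain ⟨i₀, rfl⟩ := hne
      have h2 := h 0 n (Nat.zero_le _) (hρr.trans hn2) i₀
      rw [Nat.sub_zero] at h2
      have h3 : ∑ i with icCell 0 (x i) = icCell 0 (x i₀), lam i ≤ 1 :=
        (Finset.sum_le_sum_of_subset_of_nonneg (Finset.filter_subset _ _) fun k _ _ => h0 k).trans h1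
      have h4 : ((1 / 2 : ℝ) ^ n) ^ s ≤ 2 * r ^ s := by
        have h5 : (1 / 2 : ℝ) ^ n ≤ 2 * r := by
          rw [pow_succ] at hn1; linarith
        calc ((1 / 2 : ℝ) ^ n) ^ s ≤ (2 * r) ^ s := Real.rpow_le_rpow (by positivity) h5 hs0
          _ = 2 ^ s * r ^ s := Real.mul_rpow (by norm_num) hr0.le
          _ ≤ 2 * r ^ s := by
            refine mul_le_mul_of_nonneg_right ?_ hrs
            calc (2 : ℝ) ^ s ≤ 2 ^ (1 : ℝ) := Real.rpow_le_rpow_of_exponent_le (by norm_num) hs1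
              _ = 2 := Real.rpow_one _
      have h6 : 0 ≤ ((1 / 2 : ℝ) ^ n) ^ s := Real.rpow_nonneg (by positivity) _
      calc ∑ i with icCell n (x i) = icCell n (x i₀), lam i
          ≤ C * ((1 / 2 : ℝ) ^ n) ^ s * ∑ i with icCell 0 (x i) = icCell 0 (x i₀), lam i := h2
        _ ≤ C * ((1 / 2 : ℝ) ^ n) ^ s * 1 := mul_le_mul_of_nonneg_left h3 (by positivity)
        _ ≤ C * (2 * r ^ s) * 1 := by gcongr
        _ = 2 * C * r ^ s := by ring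
    · rw [Finset.sum_eq_zero]
      · positivity
      · intro i hi
        exact absurd ⟨i, (Finset.mem_filter.1 hi).2⟩ hne
  obtain ⟨c, hc⟩ : ∃ c : ℤ, c = icCell n z := ⟨_, rfl⟩
  have hsub : ∑ i with dist (x i) z ≤ r, lam i
      ≤ ∑ i with icCell n (x i) = c - 1, lam i + ∑ i with icCell n (x i) = c, lam i + ∑ i with icCell n (x i) = c + 1, lam i := by
    rw [Finset.sum_filter, Finset.sum_filter, Finset.sum_filter, Finset.sum_filter, ← Finset.sum_add_distrib,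
      ← Finset.sum_add_distrib]
    refine Finset.sum_le_sum fun i _ => ?_
    have hl := h0 i
    by_cases hi : dist (x i) z ≤ r
    · rw [if_pos hi]
      have h2 : |x i - z| ≤ ((1 : ℕ) : ℝ) / 2 ^ n := by
        rw [Real.dist_eq] at hi
        refine hi.trans (hn2.trans (le_of_eq ?_))
        rw [one_div, inv_pow]; simp
      have h3 := ic_cell_near 1 h2
      rw [← hc, abs_le] at h3
      obtain ⟨h4, h5⟩ := h3
      push_cast at h4 h5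
      have h6 : icCell n (x i) = c - 1 ∨ icCell n (x i) = c ∨ icCell n (x i) = c + 1 := by omega
      rcases h6 with h6 | h6 | h6
      · rw [if_pos h6]; split_ifs <;> linarith
      · rw [if_pos h6]; split_ifs <;> linarith
      · rw [if_pos h6]; split_ifs <;> linarith
    · rw [if_neg hi]; split_ifs <;> linarith
  have := hcell (c - 1)
  have := hcell c
  have := hcell (c + 1)
  linarith

/-- smallness: `c ≤ Δ^(-b)` for small `Δ` -/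
theorem pj_aux_small (c b : ℝ) (hc : 0 < c) (hb : 0 < b) :
    ∃ Δ₁ : ℝ, 0 < Δ₁ ∧ Δ₁ ≤ 1 ∧ ∀ Δ : ℝ, 0 < Δ → Δ < Δ₁ → c ≤ Δ ^ (-b) := by
  refine ⟨min 1 (c ^ (-(1 / b))), lt_min one_pos (Real.rpow_pos_of_pos hc _), min_le_left _ _, ?_⟩
  intro Δ h0 h1
  have h2 : Δ ≤ c ^ (-(1 / b)) := (h1.trans_le (min_le_right _ _)).le
  have h3 : (c ^ (-(1 / b))) ^ (-b) ≤ Δ ^ (-b) := Real.rpow_le_rpow_of_nonpos h0 h2 (by linarith)
  rw [← Real.rpow_mul hc.le] at h3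
  have : -(1 / b) * -b = 1 := by field_simp
  rwa [this, Real.rpow_one] at h3

set_option maxHeartbeats 1000000 in
theorem pj_lo_scale (A d ε : ℝ) (hA : 1 ≤ A) (hd : 0 < d) (hd1 : d ≤ 1) (hε : 0 < ε) (hε1 : ε ≤ 1) :
    ∃ Δ₁ : ℝ, 0 < Δ₁ ∧ Δ₁ ≤ 1 ∧ ∀ Δ : ℝ, 0 < Δ → Δ < Δ₁ → ∀ (ι : Type) [Fintype ι] (lam : ι → ℝ) (pos : ι → ℝ × ℝ),
      RpPop lam pos A → PjTree1 lam (fun i => (pos i).1) (Δ ^ (-(ε / (2 * (9 + 2 / d)) / 2))) d Δ →
      ∃ Lo : ι → ι → Prop,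
        pjMiss lam (PjLow lam pos (Δ ^ (-(ε / (2 * (9 + 2 / d))))) Δ) Lo ≤ Δ ^ (ε / (2 * (9 + 2 / d)) / 2) ∧
        PjHrd lam (pjF pos) (fun _ _ => True) Lo (Δ ^ (-ε)) (d - ε) Δ := by
  obtain ⟨a₀, ha₀⟩ : ∃ a₀ : ℝ, a₀ = ε / (2 * (9 + 2 / d)) := ⟨_, rfl⟩
  rw [← ha₀]
  have hD : 0 < 9 + 2 / d := by positivity
  have ha0 : 0 < a₀ := by rw [ha₀]; positivity
  have haD : a₀ * (9 + 2 / d) = ε / 2 := by rw [ha₀]; field_simp
  have had : 2 * a₀ / d ≤ 1 / 2 := by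
    have e : 2 * a₀ / d = ε / (9 * d + 2) := by rw [ha₀]; field_simp
    rw [e, div_le_div_iff₀ (by positivity) (by norm_num)]
    nlinarith
  have hlog2 : 0 < Real.log 2 := Real.log_pos (by norm_num)
  have h4d : 0 < (4 : ℝ) ^ (1 / d) := Real.rpow_pos_of_pos (by norm_num) _
  obtain ⟨Δa, a1, a2, a3⟩ := pj_aux_small ((4 : ℝ) ^ (1 / d)) (1 / 2) h4d (by norm_num)
  obtain ⟨Δb, b1, b2, b3⟩ := pj_aux_small 6 (a₀ / 2) (by norm_num) (by positivity)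
  obtain ⟨Δc, c1, c2, c3⟩ := pj_aux_small (2 / (a₀ * Real.log 2) + 2) (a₀ / 2) (by positivity) (by positivity)
  obtain ⟨Δd, d1, d2, d3⟩ := pj_aux_small (52224 * A ^ 6 * (4 : ℝ) ^ (1 / d)) (ε / 2) (by positivity) (by positivity)
  refine ⟨min (min Δa Δb) (min Δc Δd), lt_min (lt_min a1 b1) (lt_min c1 d1), (min_le_left _ _).trans ((min_le_left _ _).trans a2), ?_⟩
  intro Δ hΔ0 hΔlt ι _ lam pos hp htree
  have la : Δ < Δa := hΔlt.trans_le ((min_le_left _ _).trans (min_le_left _ _))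
  have lb : Δ < Δb := hΔlt.trans_le ((min_le_left _ _).trans (min_le_right _ _))
  have lc : Δ < Δc := hΔlt.trans_le ((min_le_right _ _).trans (min_le_left _ _))
  have ld : Δ < Δd := hΔlt.trans_le ((min_le_right _ _).trans (min_le_right _ _))
  have hΔ1 : Δ < 1 := la.trans_le a2
  replace a3 := a3 Δ hΔ0 la
  replace b3 := b3 Δ hΔ0 lb
  replace c3 := c3 Δ hΔ0 lc
  replace d3 := d3 Δ hΔ0 ld
  obtain ⟨t, ht⟩ : ∃ t : ℝ, t = Δ ^ (-(a₀ / 2)) := ⟨_, rfl⟩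
  obtain ⟨K, hK⟩ : ∃ K : ℝ, K = Δ ^ (-a₀) := ⟨_, rfl⟩
  rw [← ht] at htree b3 c3
  rw [← hK]
  have ht0 : 0 < t := by linarith
  have hKt : K = t ^ 2 := by
    rw [hK, ht, ← Real.rpow_natCast, ← Real.rpow_mul hΔ0.le]
    congr 1; push_cast; ring
  have htinv : Δ ^ (a₀ / 2) = t⁻¹ := by
    rw [ht, Real.rpow_neg hΔ0.le, inv_inv]
  have hK1 : 1 ≤ K := by rw [hKt]; nlinarith
  have hK0 : 0 < K := by linarith
  have htK : t ≤ K := by rw [hKt]; nlinarith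
  have h6tK : 6 * t ≤ K := by rw [hKt]; nlinarith
  -- the quantity `Q`
  obtain ⟨Q, hQ⟩ : ∃ Q : ℝ, Q = (4 * K ^ 2) ^ (1 / d) := ⟨_, rfl⟩
  have hQinv : (4 * K ^ 2) ^ (-(1 / d)) = Q⁻¹ := by rw [hQ, Real.rpow_neg (by positivity)]
  have hQe : Q = (4 : ℝ) ^ (1 / d) * Δ ^ (-(2 * a₀ / d)) := by
    rw [hQ, Real.mul_rpow (by norm_num) (by positivity), hK, ← Real.rpow_natCast, ← Real.rpow_mul hΔ0.le,
      ← Real.rpow_mul hΔ0.le]
    congr 2; push_cast; field_simp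
  have hQ0 : 0 < Q := by rw [hQ]; positivity
  have hQ1 : 1 ≤ Q := by
    rw [hQ]; exact Real.one_le_rpow (by nlinarith) (by positivity)
  have hQΔ : Q ≤ Δ⁻¹ := by
    rw [hQe]
    have h1 : Δ ^ (-(2 * a₀ / d)) ≤ Δ ^ (-(1 / 2 : ℝ)) :=
      Real.rpow_le_rpow_of_exponent_ge hΔ0 hΔ1.le (by linarith)
    have h2 : Δ ^ (-(1 / 2 : ℝ)) * Δ ^ (-(1 / 2 : ℝ)) = Δ⁻¹ := by
      rw [← Real.rpow_add hΔ0, ← Real.rpow_neg_one]; norm_num
    rw [← h2]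
    exact mul_le_mul a3 h1 (Real.rpow_nonneg hΔ0.le _) (Real.rpow_nonneg hΔ0.le _)
  have hΔa : Δ ≤ (4 * K ^ 2) ^ (-(1 / d)) := by
    rw [hQinv]
    rw [le_inv_comm₀ hΔ0 hQ0]
    exact hQΔ
  have htree' : PjTree1 lam (fun i => (pos i).1) K d Δ := pj_tree1_mono hp.lam0 htK le_rfl htree
  have hfr : KfFrost lam (fun i => (pos i).1) K d Δ := by
    have h1 := pj_frost_of_tree1 hp.lam0 hp.lam1 ht0.le hd.le hd1 hΔ0 htree
    intro z r hr hr1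
    exact (h1 z r hr hr1).trans (mul_le_mul_of_nonneg_right h6tK (Real.rpow_nonneg (hΔ0.le.trans hr) _))
  obtain ⟨κ, hκ⟩ : ∃ κ : ℝ, κ = (K ^ 3)⁻¹ := ⟨_, rfl⟩
  have hκ0 : 0 < κ := by rw [hκ]; positivity
  have hκ1 : κ ≤ 1 := by
    rw [hκ]; exact inv_le_one_of_one_le₀ (one_le_pow₀ hK1)
  refine ⟨fun i j => PjLow lam pos K Δ i j ∧ PjDense lam pos κ (pjD2 A K d Δ) Δ i j, ?_, ?_⟩
  · obtain ⟨Lv, hL1, hL2⟩ := exists_nat_pow_near_of_lt_one hΔ0 hΔ1.le (by norm_num : (0 : ℝ) < 1 / 2) (by norm_num : (1 / 2 : ℝ) < 1)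
    refine (pj_low_miss hp hA hK1 hd hΔ0 hΔa hfr hκ0.le Lv hL1).trans ?_
    have h1 : (Lv : ℝ) * Real.log 2 ≤ K / a₀ := by
      have h2 : (2 : ℝ) ^ Lv ≤ Δ⁻¹ := by
        rw [le_inv_comm₀ (by positivity) hΔ0]
        rwa [one_div, inv_pow] at hL2
      have h3 := Real.log_le_log (by positivity) h2
      rw [Real.log_pow] at h3
      have h4 := Real.log_le_rpow_div (inv_nonneg.2 hΔ0.le) ha0
      rw [Real.inv_rpow hΔ0.le, ← Real.rpow_neg hΔ0.le, ← hK] at h4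
      linarith
    have h2 : (Lv : ℝ) ≤ K / (a₀ * Real.log 2) := by
      rw [le_div_iff₀ (by positivity)]
      rw [le_div_iff₀ ha0] at h1
      have e0 : (Lv : ℝ) * (a₀ * Real.log 2) = (Lv : ℝ) * Real.log 2 * a₀ := by ring
      rw [e0]; exact h1
    have h3 : 2 * ((Lv : ℝ) + 1) ≤ t * K := by
      have h4 : (2 / (a₀ * Real.log 2) + 2) * K ≤ t * K := mul_le_mul_of_nonneg_right c3 hK0.le
      have h5 : (2 / (a₀ * Real.log 2) + 2) * K = 2 * (K / (a₀ * Real.log 2)) + 2 * K := by ring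
      linarith
    rw [htinv, hκ]
    have e : 2 * K * ((Lv : ℝ) + 1) * (K ^ 3)⁻¹ = 2 * ((Lv : ℝ) + 1) / K ^ 2 := by field_simp
    rw [e, div_le_iff₀ (by positivity)]
    have e2 : t⁻¹ * K ^ 2 = t * K := by rw [hKt]; field_simp
    rw [e2]
    exact h3
  · have h1 := pj_low_her hp hA hK1 hd hd1 hΔ0 hΔa hfr htree' hκ0 hκ1
    have hG0 : 0 ≤ pjGam A K d := by unfold pjGam; rw [hQinv]; positivity
    refine pj_her_mono hp.lam0 hΔ0 le_rfl (by positivity) ?_ (by linarith) (fun _ _ h => h) h1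
    have e1 : 12 * K ^ 2 * (128 * A ^ 2 * K * pjGam A K d) / κ = 1536 * A ^ 3 * K ^ 8 * (2 + 32 * A ^ 3 * K * Q) := by
      unfold pjGam
      rw [hQinv, hκ]
      field_simp
      ring
    have h2 : (2 : ℝ) ≤ 2 * (A ^ 3 * K * Q) := by
      have : 1 ≤ A ^ 3 * K * Q := by
        have hA3 : 1 ≤ A ^ 3 := one_le_pow₀ hA
        calc (1 : ℝ) = 1 * 1 * 1 := by norm_num
          _ ≤ A ^ 3 * K * Q := by gcongr
      linarith
    have h3 : 1536 * A ^ 3 * K ^ 8 * (2 + 32 * A ^ 3 * K * Q) ≤ 1536 * A ^ 3 * K ^ 8 * (34 * (A ^ 3 * K * Q)) :=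
      mul_le_mul_of_nonneg_left (by linarith) (by positivity)
    have e2 : K ^ 9 * Q = (4 : ℝ) ^ (1 / d) * Δ ^ (-(ε / 2)) := by
      rw [hQe, hK, ← Real.rpow_natCast, ← Real.rpow_mul hΔ0.le]
      have : Δ ^ (-(ε / 2)) = Δ ^ (-a₀ * ((9 : ℕ) : ℝ)) * Δ ^ (-(2 * a₀ / d)) := by
        rw [← Real.rpow_add hΔ0, ← haD]
        congr 1; push_cast; ring
      rw [this]; ring
    have e3 : 1536 * A ^ 3 * K ^ 8 * (34 * (A ^ 3 * K * Q)) = 52224 * A ^ 6 * (K ^ 9 * Q) := by ring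
    have e4 : Δ ^ (-ε) = Δ ^ (-(ε / 2)) * Δ ^ (-(ε / 2)) := by
      rw [← Real.rpow_add hΔ0]; congr 1; ring
    rw [e1]
    refine h3.trans ?_
    rw [e3, e2, e4, ← mul_assoc]
    exact mul_le_mul_of_nonneg_right d3 (Real.rpow_nonneg hΔ0.le _)

end Claimed.Agent.R256
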