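import Claimed.Agent.R256.Prj.PinHi
import Claimed.Agent.R256.Prj.PinLo

/-!
# Row 256, Prj, unit PIN: the exit X8 (`pj_u_pin`).      (chief helper186)
Every `Δ^η`-separated pair is lean (never fat on the grid `Δ_k = Δ^(2^-k)`, `k ≤ N`) and horizontal, lean and vertical, or fat at some `Δ_k`:
`pj_hi_chart` for `pos`, `pj_hi_chart` for the swapped population, `pj_lo_scale` at the scale `Δ_k`.
-/

set_option autoImplicit false

namespace Claimed.Agent.R256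

open Finset Classical
open Claimed.Agent.R255

/-- the mass of a relation covered by finitely many relations -/
theorem pj_aux_split_sum {ι : Type} [Fintype ι] {lam : ι → ℝ} (hlam : ∀ i, 0 ≤ lam i) (P : ι → ι → Prop) (n : ℕ)
    (R : ℕ → ι → ι → Prop) (h : ∀ i j, P i j → ∃ k < n, R k i j) :
    ∑ i, ∑ j with P i j, lam i * lam j ≤ ∑ k ∈ range n, ∑ i, ∑ j with R k i j, lam i * lam j := by
  rw [Finset.sum_comm]
  refine Finset.sum_le_sum fun i _ => ?_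
  simp only [Finset.sum_filter]
  rw [Finset.sum_comm]
  refine Finset.sum_le_sum fun j _ => ?_
  have hnn : 0 ≤ lam i * lam j := mul_nonneg (hlam i) (hlam j)
  by_cases hP : P i j
  · obtain ⟨k, hk, hR⟩ := h i j hP
    rw [if_pos hP]
    calc lam i * lam j = if R k i j then lam i * lam j else 0 := by rw [if_pos hR]
      _ ≤ ∑ k ∈ range n, if R k i j then lam i * lam j else 0 :=
        Finset.single_le_sum (f := fun k => if R k i j then lam i * lam j else 0)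
          (fun k _ => by split_ifs; exacts [hnn, le_rfl]) (Finset.mem_range.2 hk)
  · rw [if_neg hP]
    exact Finset.sum_nonneg fun k _ => by split_ifs; exacts [hnn, le_rfl]

theorem pj_aux_miss_iff {ι : Type} [Fintype ι] (lam : ι → ℝ) (P 𝒢b 𝒢 : ι → ι → Prop) (h : ∀ i j, P i j ↔ (𝒢b i j ∧ ¬ 𝒢 i j)) :
    ∑ i, ∑ j with P i j, lam i * lam j = pjMiss lam 𝒢b 𝒢 := by
  unfold pjMiss
  refine Finset.sum_congr rfl fun i _ => Finset.sum_congr ?_ fun _ _ => rfl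
  ext j
  simp only [Finset.mem_filter, Finset.mem_univ, true_and]
  exact h i j

/-- **X8** -/
theorem pj_u_pin (A d ε : ℝ) (hA : 1 ≤ A) (hd : 0 < d) (hd1 : d ≤ 1) (hε : 0 < ε) :
    ∃ η c : ℝ, 0 < η ∧ 0 < c ∧ ∃ N : ℕ, ∃ Δ₀ : ℝ, 0 < Δ₀ ∧
      ∀ Δ : ℝ, 0 < Δ → Δ < Δ₀ → ∀ (ι : Type) [Fintype ι] (lam : ι → ℝ) (pos : ι → ℝ × ℝ),
        RpPop lam pos A → RtTreeHer lam pos (Δ ^ (-η)) d Δ → PjTree1 lam (fun i => (pos i).1) (Δ ^ (-η)) d Δ →
        ∃ (Hi : Bool → ι → ι → Prop) (Lo : ℕ → ι → ι → Prop),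
          pjMiss lam (PjSep pos (Δ ^ η)) (fun i j => (∃ v, Hi v i j) ∨ ∃ k ≤ N, Lo k i j) ≤ Δ ^ c ∧
          (∀ v, PjHrd lam (pjF pos) (fun _ _ => True) (Hi v) (Δ ^ (-ε)) (d - ε) Δ) ∧
          ∀ k ≤ N, PjHrd lam (pjF pos) (fun _ _ => True) (Lo k)
            ((Δ ^ ((1 / 2 : ℝ) ^ k)) ^ (-ε)) (d - ε) (Δ ^ ((1 / 2 : ℝ) ^ k)) := by
  obtain ⟨e, he⟩ : ∃ e, e = min ε 1 := ⟨_, rfl⟩
  have he0 : 0 < e := by rw [he]; exact lt_min hε one_pos
  have heε : e ≤ ε := by rw [he]; exact min_le_left _ _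
  have he1 : e ≤ 1 := by rw [he]; exact min_le_right _ _
  obtain ⟨a₀, ha₀⟩ : ∃ a₀, a₀ = e / (2 * (9 + 2 / d)) := ⟨_, rfl⟩
  have hden : (18 : ℝ) ≤ 2 * (9 + 2 / d) := by
    have : 0 < 2 / d := by positivity
    linarith
  have ha0 : 0 < a₀ := by rw [ha₀]; positivity
  have ha1 : a₀ ≤ 1 := by
    rw [ha₀, div_le_one (by linarith)]
    linarith
  obtain ⟨ch, ηc, hch, hηc, N, Δh, hΔh0, hΔh1, Hhi⟩ := pj_hi_chart A d e a₀ hA hd hd1 he0 ha0 ha1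
  obtain ⟨Δl, hΔl0, hΔl1, Hlo⟩ := pj_lo_scale A d e hA hd hd1 he0 he1
  rw [← ha₀] at Hlo
  obtain ⟨b, hb⟩ : ∃ b : ℝ, b = (1 / 2 : ℝ) ^ N * a₀ / 2 := ⟨_, rfl⟩
  have hb0 : 0 < b := by rw [hb]; positivity
  obtain ⟨m, hm⟩ : ∃ m, m = min ch b := ⟨_, rfl⟩
  have hm0 : 0 < m := by rw [hm]; exact lt_min hch hb0
  obtain ⟨ρs, hρs0, hρs1, hsm⟩ := rp_small ((N : ℝ) + 3) (m / 2) (by positivity)
  have hΔlN : 0 < Δl ^ (2 ^ N : ℝ) := Real.rpow_pos_of_pos hΔl0 _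
  refine ⟨min ηc b, m / 2, lt_min hηc hb0, by positivity, N, min (min Δh ρs) (Δl ^ (2 ^ N : ℝ)),
    lt_min (lt_min hΔh0 hρs0) hΔlN, ?_⟩
  intro Δ hΔ0 hΔlt ι _ lam pos hp her htree
  have hΔ_h : Δ < Δh := lt_of_lt_of_le hΔlt ((min_le_left _ _).trans (min_le_left _ _))
  have hΔ_s : Δ < ρs := lt_of_lt_of_le hΔlt ((min_le_left _ _).trans (min_le_right _ _))
  have hΔ_l : Δ < Δl ^ (2 ^ N : ℝ) := lt_of_lt_of_le hΔlt (min_le_right _ _)
  have hΔ1 : Δ < 1 := lt_of_lt_of_le hΔ_s hρs1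
  obtain ⟨η, hη⟩ : ∃ η, η = min ηc b := ⟨_, rfl⟩
  rw [← hη] at her htree ⊢
  have hηηc : η ≤ ηc := by rw [hη]; exact min_le_left _ _
  have hηb : η ≤ b := by rw [hη]; exact min_le_right _ _
  -- the grid
  have hpk : ∀ k ≤ N, (1 / 2 : ℝ) ^ N ≤ (1 / 2 : ℝ) ^ k := fun k hk =>
    pow_le_pow_of_le_one (by norm_num) (by norm_num) hk
  have hpk1 : ∀ k : ℕ, (1 / 2 : ℝ) ^ k ≤ 1 := fun k => pow_le_one₀ (by norm_num) (by norm_num)
  have hpk0 : ∀ k : ℕ, (0 : ℝ) < (1 / 2 : ℝ) ^ k := fun k => by positivity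
  have hD0 : ∀ k : ℕ, 0 < Δ ^ ((1 / 2 : ℝ) ^ k) := fun k => Real.rpow_pos_of_pos hΔ0 _
  have hDge : ∀ k : ℕ, Δ ≤ Δ ^ ((1 / 2 : ℝ) ^ k) := fun k => by
    calc Δ = Δ ^ (1 : ℝ) := (Real.rpow_one Δ).symm
      _ ≤ _ := Real.rpow_le_rpow_of_exponent_ge hΔ0 hΔ1.le (hpk1 k)
  have hDl : ∀ k ≤ N, Δ ^ ((1 / 2 : ℝ) ^ k) < Δl := by
    intro k hk
    have h1 : Δ ^ ((1 / 2 : ℝ) ^ k) ≤ Δ ^ ((1 / 2 : ℝ) ^ N) := Real.rpow_le_rpow_of_exponent_ge hΔ0 hΔ1.le (hpk k hk)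
    have h2 : Δ ^ ((1 / 2 : ℝ) ^ N) < (Δl ^ (2 ^ N : ℝ)) ^ ((1 / 2 : ℝ) ^ N) :=
      Real.rpow_lt_rpow hΔ0.le hΔ_l (hpk0 N)
    have h3 : (Δl ^ (2 ^ N : ℝ)) ^ ((1 / 2 : ℝ) ^ N) = Δl := by
      rw [← Real.rpow_mul hΔl0.le]
      have : (2 ^ N : ℝ) * (1 / 2 : ℝ) ^ N = 1 := by
        rw [← mul_pow]; norm_num
      rw [this, Real.rpow_one]
    linarith
  -- the two charts
  have her' : RtTreeHer lam pos (Δ ^ (-ηc)) d Δ :=
    rt_treeher_mono hp.lam0 (Real.rpow_le_rpow_of_exponent_ge hΔ0 hΔ1.le (by linarith)) her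
  obtain ⟨H0, hH0m, hH0h⟩ := Hhi Δ hΔ0 hΔ_h ι lam pos hp her'
  obtain ⟨H1, hH1m, hH1h⟩ := Hhi Δ hΔ0 hΔ_h ι lam (fun i => (pos i).swap) (rp_swap_pop hp) (rp_swap_her her')
  have hFs : pjF (fun i => (pos i).swap) = pjF pos := by
    funext i j; exact pj_swap_F pos i j
  rw [hFs] at hH1h
  -- the fat scales
  have hlo : ∀ k : ℕ, ∃ Lo : ι → ι → Prop, k ≤ N →
      pjMiss lam (PjLow lam pos ((Δ ^ ((1 / 2 : ℝ) ^ k)) ^ (-a₀)) (Δ ^ ((1 / 2 : ℝ) ^ k))) Lo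
        ≤ (Δ ^ ((1 / 2 : ℝ) ^ k)) ^ (a₀ / 2) ∧
      PjHrd lam (pjF pos) (fun _ _ => True) Lo ((Δ ^ ((1 / 2 : ℝ) ^ k)) ^ (-e)) (d - e) (Δ ^ ((1 / 2 : ℝ) ^ k)) := by
    intro k
    by_cases hk : k ≤ N
    · have ht : PjTree1 lam (fun i => (pos i).1) ((Δ ^ ((1 / 2 : ℝ) ^ k)) ^ (-(a₀ / 2))) d (Δ ^ ((1 / 2 : ℝ) ^ k)) := by
        refine pj_tree1_mono hp.lam0 ?_ (hDge k) htree
        rw [← Real.rpow_mul hΔ0.le]
        refine Real.rpow_le_rpow_of_exponent_ge hΔ0 hΔ1.le ?_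
        have := hpk k hk
        rw [hb] at hηb
        nlinarith
      obtain ⟨Lo, h1, h2⟩ := Hlo _ (hD0 k) (hDl k hk) ι lam pos hp ht
      exact ⟨Lo, fun _ => ⟨h1, h2⟩⟩
    · exact ⟨fun _ _ => False, fun h => absurd h hk⟩
  choose Lo hLo using hlo
  refine ⟨fun v => if v then H1 else H0, Lo, ?_, ?_, ?_⟩
  · -- the missing mass
    obtain ⟨R, hR⟩ : ∃ R : ℕ → ι → ι → Prop, R = fun t i j =>
        if t = 0 then (RpH pos (Δ ^ ηc) i j ∧ PjLean lam pos a₀ Δ N i j) ∧ ¬ H0 i j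
        else if t = 1 then (RpH (fun i => (pos i).swap) (Δ ^ ηc) i j ∧ PjLean lam (fun i => (pos i).swap) a₀ Δ N i j) ∧ ¬ H1 i j
        else PjLow lam pos ((Δ ^ ((1 / 2 : ℝ) ^ (t - 2))) ^ (-a₀)) (Δ ^ ((1 / 2 : ℝ) ^ (t - 2))) i j ∧ ¬ Lo (t - 2) i j := ⟨_, rfl⟩
    have hσ : Δ ^ ηc ≤ Δ ^ η := Real.rpow_le_rpow_of_exponent_ge hΔ0 hΔ1.le hηηc
    have hcov : ∀ i j, (PjSep pos (Δ ^ η) i j ∧ ¬ ((∃ v : Bool, (if v then H1 else H0) i j) ∨ ∃ k ≤ N, Lo k i j)) →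
        ∃ t < N + 3, R t i j := by
      rintro i j ⟨hS, hU⟩
      push Not at hU
      obtain ⟨hU1, hU2⟩ := hU
      by_cases hlean : PjLean lam pos a₀ Δ N i j
      · by_cases hhor : RpHor pos i j
        · refine ⟨0, by omega, ?_⟩
          rw [hR]
          simp only [if_true]
          exact ⟨⟨⟨hhor, hσ.trans hS.1⟩, hlean⟩, by simpa using hU1 false⟩
        · refine ⟨1, by omega, ?_⟩
          rw [hR]
          simp only [one_ne_zero, if_false, if_true]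
          refine ⟨⟨⟨?_, ?_⟩, (pj_swap_lean lam pos a₀ Δ N i j).2 hlean⟩, by simpa using hU1 true⟩
          · unfold RpHor at hhor ⊢
            simp only [Prod.fst_swap, Prod.snd_swap]
            exact (not_le.1 hhor).le
          · simp only [Prod.fst_swap]
            exact hσ.trans hS.2
      · unfold PjLean at hlean
        push Not at hlean
        obtain ⟨k, hk, hfat⟩ := hlean
        refine ⟨k + 2, by omega, ?_⟩
        rw [hR]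
        have h1 : k + 2 ≠ 0 := by omega
        have h2 : k + 2 ≠ 1 := by omega
        simp only [h1, h2, if_false, Nat.add_sub_cancel]
        have hinv : ((Δ ^ ((1 / 2 : ℝ) ^ k)) ^ (-a₀))⁻¹ = (Δ ^ ((1 / 2 : ℝ) ^ k)) ^ a₀ := by
          rw [Real.rpow_neg (hD0 k).le, inv_inv]
        have hle : (Δ ^ ((1 / 2 : ℝ) ^ k)) ^ a₀ ≤ Δ ^ η := by
          rw [← Real.rpow_mul hΔ0.le]
          refine Real.rpow_le_rpow_of_exponent_ge hΔ0 hΔ1.le ?_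
          have := hpk k hk
          rw [hb] at hηb
          nlinarith
        refine ⟨⟨⟨?_, ?_⟩, ?_⟩, hU2 k hk⟩
        · rw [hinv]; exact hle.trans hS.1
        · rw [hinv]; exact hle.trans hS.2
        · rw [hinv]; exact hfat
    have hsplit := pj_aux_split_sum hp.lam0 _ (N + 3) R hcov
    have hterm : ∀ t ∈ range (N + 3), ∑ i, ∑ j with R t i j, lam i * lam j ≤ Δ ^ m := by
      intro t ht
      have htN : t < N + 3 := Finset.mem_range.1 ht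
      have hmch : Δ ^ ch ≤ Δ ^ m := Real.rpow_le_rpow_of_exponent_ge hΔ0 hΔ1.le (by rw [hm]; exact min_le_left _ _)
      by_cases h0 : t = 0
      · subst h0
        refine le_trans (le_of_eq (pj_aux_miss_iff lam _ _ _ fun i j => ?_)) (hH0m.trans hmch)
        rw [hR]; simp only [if_true]
      · by_cases h1 : t = 1
        · subst h1
          refine le_trans (le_of_eq (pj_aux_miss_iff lam _ _ _ fun i j => ?_)) (hH1m.trans hmch)
          rw [hR]; simp only [one_ne_zero, if_false, if_true]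
        · have hk : t - 2 ≤ N := by omega
          refine le_trans (le_of_eq (pj_aux_miss_iff lam _ _ _ fun i j => ?_)) (((hLo (t - 2) hk).1).trans ?_)
          · rw [hR]; simp only [h0, h1, if_false]
          · rw [← Real.rpow_mul hΔ0.le]
            refine Real.rpow_le_rpow_of_exponent_ge hΔ0 hΔ1.le ?_
            have h3 := hpk (t - 2) hk
            have h4 : m ≤ b := by rw [hm]; exact min_le_right _ _
            rw [hb] at h4
            nlinarith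
    have hsum : ∑ t ∈ range (N + 3), ∑ i, ∑ j with R t i j, lam i * lam j ≤ ((N : ℝ) + 3) * Δ ^ m := by
      refine (Finset.sum_le_sum hterm).trans (le_of_eq ?_)
      rw [Finset.sum_const, Finset.card_range, nsmul_eq_mul]
      push_cast
      ring
    have h4 : Δ ^ m = Δ ^ (m / 2) * Δ ^ (m / 2) := by
      rw [← Real.rpow_add hΔ0]; congr 1; ring
    have h5 := hsm Δ hΔ0 hΔ_s
    have h6 : 0 < Δ ^ (m / 2) := Real.rpow_pos_of_pos hΔ0 _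
    have h7 : pjMiss lam (PjSep pos (Δ ^ η)) (fun i j => (∃ v : Bool, (if v then H1 else H0) i j) ∨ ∃ k ≤ N, Lo k i j)
        ≤ ((N : ℝ) + 3) * Δ ^ m := by
      rw [← pj_aux_miss_iff lam _ _ _ fun i j => Iff.rfl]
      exact le_trans hsplit hsum
    calc _ ≤ ((N : ℝ) + 3) * Δ ^ m := h7
      _ = (((N : ℝ) + 3) * Δ ^ (m / 2)) * Δ ^ (m / 2) := by rw [h4]; ring
      _ ≤ 1 * Δ ^ (m / 2) := mul_le_mul_of_nonneg_right h5 h6.le
      _ = _ := one_mul _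
  · intro v
    have hc : Δ ^ (-e) ≤ Δ ^ (-ε) := Real.rpow_le_rpow_of_exponent_ge hΔ0 hΔ1.le (by linarith)
    cases v
    · simpa using pj_her_mono hp.lam0 hΔ0 le_rfl (Real.rpow_pos_of_pos hΔ0 _).le hc (by linarith) (fun _ _ h => h) hH0h
    · simpa using pj_her_mono hp.lam0 hΔ0 le_rfl (Real.rpow_pos_of_pos hΔ0 _).le hc (by linarith) (fun _ _ h => h) hH1h
  · intro k hk
    have hD1 : Δ ^ ((1 / 2 : ℝ) ^ k) ≤ 1 := Real.rpow_le_one hΔ0.le hΔ1.le (hpk0 k).le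
    have hc : (Δ ^ ((1 / 2 : ℝ) ^ k)) ^ (-e) ≤ (Δ ^ ((1 / 2 : ℝ) ^ k)) ^ (-ε) :=
      Real.rpow_le_rpow_of_exponent_ge (hD0 k) hD1 (by linarith)
    exact pj_her_mono hp.lam0 (hD0 k) le_rfl (Real.rpow_pos_of_pos (hD0 k) _).le hc (by linarith) (fun _ _ h => h)
      (hLo k hk).2

end Claimed.Agent.R256
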