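import Claimed.Agent.R256.Prj.LawRad
import Claimed.Agent.R256.Prj.Pin

/-!
# Row 256, folder Prj, unit LAW, file LawPin: PIN PRODUCTS, hereditary score form (exit X6 of `Prj/Contract.lean`).      (chief helper186, owner of this file helper288)

`pj_u_pin_law` = `pj_u_pin` (population level, `Prj/Pin.lean`) + `pj_pop2` + `pj_law_miss`, `pj_law_score` (`Prj/LawKit.lean`), one score per graph `Hi v`, `Lo k`.
Constants: `ε₁ = ε/4`, `(η₈, c, N, Δ₀)` from `pj_u_pin A d ε₁`; `η = min (η₈/2) (ε/32)`; floor `th = 2^(-(η₈/2) n)`; `Δ = 2^-n`; graph `Lo k`: levels `≤ m = n / 2^k`, `l = 2^(-ε₁ m)`, `log (C/l²) ≤ (ε₁ (m+1) + 2 ε₁ m) log 2`.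
Tools: `pj_law_goodH_mono`, `pj_law_hrd` (`PjHrd` of a graph on the population in the format of `pj_law_score`).
-/

set_option autoImplicit false

namespace Claimed.Agent.R256

open Claimed.Agent.R255 Claimed.Agent.R255.FLaw
open Finset Classical

/-- monotonicity of hereditary points -/
theorem pj_law_goodH_mono {Ω α δ : Type} [Fintype Ω] (P : FLaw Ω) (X : ℕ → Ω → α) (D : Ω → δ) {u u' e e' : ℝ} (n : ℕ) (ω : Ω)
    (hu : u' ≤ u) (he : e ≤ e') (h : PjGoodH P X D u e n ω) : PjGoodH P X D u' e' n ω := by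
  intro k k' hk hk'
  refine le_trans ?_ (h k k' hk hk')
  have h2 : 0 < Real.log 2 := Real.log_pos (by norm_num)
  have h3 : (0 : ℝ) ≤ (k' : ℝ) - k := sub_nonneg.2 (Nat.cast_le.2 hk)
  have h4 : (0 : ℝ) ≤ (n : ℝ) := Nat.cast_nonneg n
  refine mul_le_mul_of_nonneg_right ?_ h2.le
  have h5 := mul_le_mul_of_nonneg_right hu h3
  have h6 := mul_le_mul_of_nonneg_right he h4
  linarith

/-- sums over filters, any decidability instances (explicit arguments: solved by unification) -/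
theorem pj_law_sum_congr {ι : Type} (s : Finset ι) (p q : ι → Prop) (ip : DecidablePred p) (iq : DecidablePred q) (f : ι → ℝ)
    (h : ∀ i ∈ s, p i ↔ q i) : ∑ i ∈ @Finset.filter ι p ip s, f i = ∑ i ∈ @Finset.filter ι q iq s, f i := by
  rw [@Finset.filter_congr ι p q ip iq s h]

/-- hereditary thin readings of a graph on the population, in the format of `pj_law_score` -/
theorem pj_law_hrd {Ω : Type} [Fintype Ω] (a : Ω → ℝ × ℝ) [Fintype (Set.range a)] (lam : Set.range a → ℝ) (hlam : ∀ i, 0 ≤ lam i)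
    (F : Set.range a → Set.range a → ℝ) (Fv : ℝ × ℝ → ℝ × ℝ → ℝ) (𝒢w 𝒢 : Set.range a → Set.range a → Prop)
    (C u ρ : ℝ) (n : ℕ) (hC : 0 ≤ C) (hF : ∀ i j, 𝒢w i j → F i j = Fv i.1 j.1) (hsub : ∀ i j, 𝒢 i j → 𝒢w i j)
    (hρ : ρ ≤ (1 / 2 : ℝ) ^ n) (h : PjHrd lam F 𝒢w 𝒢 C u ρ) (x y : ℝ × ℝ) (hg : pjLift 𝒢 x y) (k k' : ℕ) (hk : k ≤ k')
    (hk' : k' ≤ n) :
    ∑ j : Set.range a with pjLift 𝒢 x j.1 ∧ |Fv x j.1 - Fv x y| ≤ (1 / 2 : ℝ) ^ k', lam j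
      ≤ C * ((1 / 2 : ℝ) ^ (k' - k)) ^ u * ∑ j : Set.range a with |Fv x j.1 - Fv x y| ≤ (1 / 2 : ℝ) ^ k, lam j := by
  obtain ⟨hx, hy, hg⟩ := hg
  have hw1 : ρ ≤ (1 / 2 : ℝ) ^ k' := hρ.trans (pow_le_pow_of_le_one (by norm_num) (by norm_num) hk')
  have hw2 : (1 / 2 : ℝ) ^ k' ≤ (1 / 2 : ℝ) ^ k := pow_le_pow_of_le_one (by norm_num) (by norm_num) hk
  have hw3 : (1 / 2 : ℝ) ^ k ≤ 1 := pow_le_one₀ (by norm_num) (by norm_num)
  have h1 := h ⟨x, hx⟩ ⟨y, hy⟩ hg _ _ hw1 hw2 hw3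
  have hy' : F ⟨x, hx⟩ ⟨y, hy⟩ = Fv x y := hF _ _ (hsub _ _ hg)
  have hratio : (1 / 2 : ℝ) ^ k' / (1 / 2 : ℝ) ^ k = (1 / 2 : ℝ) ^ (k' - k) := by
    rw [pow_sub₀ _ (by norm_num) hk, div_eq_mul_inv]
  rw [hratio] at h1
  unfold pjM at h1
  have e1 : ∑ j : Set.range a with pjLift 𝒢 x j.1 ∧ |Fv x j.1 - Fv x y| ≤ (1 / 2 : ℝ) ^ k', lam j
      = ∑ i' : Set.range a with 𝒢 ⟨x, hx⟩ i' ∧ |F ⟨x, hx⟩ i' - F ⟨x, hx⟩ ⟨y, hy⟩| ≤ (1 / 2 : ℝ) ^ k', lam i' := by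
    refine pj_law_sum_congr _ _ _ _ _ _ fun j _ => ?_
    have hl' : pjLift 𝒢 x j.1 ↔ 𝒢 ⟨x, hx⟩ j := pj_lift_iff 𝒢 ⟨x, hx⟩ j
    constructor
    · rintro ⟨g1, g2⟩
      have g3 := hl'.1 g1
      rw [hF _ _ (hsub _ _ g3), hy']
      exact ⟨g3, g2⟩
    · rintro ⟨g1, g2⟩
      rw [hF _ _ (hsub _ _ g1), hy'] at g2
      exact ⟨hl'.2 g1, g2⟩
  have e2 : ∑ i' : Set.range a with 𝒢w ⟨x, hx⟩ i' ∧ |F ⟨x, hx⟩ i' - F ⟨x, hx⟩ ⟨y, hy⟩| ≤ (1 / 2 : ℝ) ^ k, lam i'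
      ≤ ∑ j : Set.range a with |Fv x j.1 - Fv x y| ≤ (1 / 2 : ℝ) ^ k, lam j := by
    refine Finset.sum_le_sum_of_subset_of_nonneg ?_ fun j _ _ => hlam j
    intro j hj
    rw [Finset.mem_filter] at hj ⊢
    refine ⟨hj.1, ?_⟩
    have g2 := hj.2.2
    rw [hF _ _ hj.2.1, hy'] at g2
    exact g2
  rw [e1]
  refine le_trans ?_ (mul_le_mul_of_nonneg_left e2 (by positivity))
  convert h1

/-- `n 2^-k < n / 2^k + 1` -/
theorem pj_law_div (n k : ℕ) : ((n / 2 ^ k : ℕ) : ℝ) ≤ (1 / 2 : ℝ) ^ k * n ∧ (1 / 2 : ℝ) ^ k * n ≤ ((n / 2 ^ k : ℕ) : ℝ) + 1 := by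
  have h2 : (0 : ℝ) < 2 ^ k := by positivity
  have e : (1 / 2 : ℝ) ^ k * n = (n : ℝ) / 2 ^ k := by
    rw [one_div, inv_pow, div_eq_inv_mul]
  rw [e]
  constructor
  · have := (Nat.cast_div_le : ((n / 2 ^ k : ℕ) : ℝ) ≤ (n : ℝ) / ((2 ^ k : ℕ) : ℝ))
    push_cast at this
    exact this
  · rw [div_le_iff₀ h2]
    have h3 : n < (n / 2 ^ k + 1) * 2 ^ k := by
      have h4 := Nat.div_add_mod n (2 ^ k)
      have h5 := Nat.mod_lt n (show 0 < 2 ^ k by positivity)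
      nlinarith
    have h6 : ((n : ℕ) : ℝ) ≤ (((n / 2 ^ k + 1) * 2 ^ k : ℕ) : ℝ) := Nat.cast_le.2 h3.le
    push_cast at h6
    exact h6

/-- **X6.  Pin products**: verbatim `pj_pin_law` of `Prj/Contract.lean`. -/
theorem pj_u_pin_law (A d ε : ℝ) (hA : 1 ≤ A) (hd : 0 < d) (hd1 : d ≤ 1) (hε : 0 < ε) :
    ∃ η : ℝ, 0 < η ∧ ∃ N n₁ : ℕ, ∀ n : ℕ, n₁ ≤ n →
      ∀ (Ω ζ : Type) [Fintype Ω] (P : FLaw Ω) (Zs : Ω → ζ) (a b : Ω → ℝ × ℝ),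
        PjIid P Zs a b → PjBd A a → PjBd A b →
        P.pr (fun ω => ¬ PjGoodH P (icQ a) Zs d η n ω) ≤ η →
        P.pr (fun ω => ¬ PjGoodH P (icX a) Zs d η n ω) ≤ η →
        P.pr (fun ω => (2 : ℝ) ^ (-(η * n)) ≤ |(b ω).1 - (a ω).1| ∧ (2 : ℝ) ^ (-(η * n)) ≤ |(b ω).2 - (a ω).2| ∧
          ∀ k ≤ N, ¬ PjGoodH P (icS (fun ω => pjPin (a ω) (b ω))) (pair Zs a) (d - ε) ε (n / 2 ^ k) ω) ≤ ε := by
  obtain ⟨η₈, c, hη₈, hc, N, Δ₀, hΔ₀, H⟩ := pj_u_pin A d (ε / 4) hA hd hd1 (by positivity)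
  have hN3 : (0 : ℝ) < (N : ℝ) + 3 := by positivity
  obtain ⟨N1, hN1⟩ := pj_law_small (η₈ / 2) (ε / 32) (by positivity) (by positivity)
  obtain ⟨N3, hN3'⟩ := pj_law_small c (ε / 8) hc (by positivity)
  obtain ⟨M₀, hM₀⟩ := pj_law_small (ε / 4) (ε / (16 * ((N : ℝ) + 3))) (by positivity) (by positivity)
  obtain ⟨N5, hN5⟩ := pj_law_small 1 (Δ₀ / 2) one_pos (by positivity)
  refine ⟨min (η₈ / 2) (ε / 32), lt_min (by positivity) (by positivity), N,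
    max N1 (max N3 (max N5 (max M₀ 1 * 2 ^ N))), ?_⟩
  intro n hn Ω ζ _ P Zs a b hiid hbd _ hgood hgood1
  have hn1 : N1 ≤ n := le_trans (le_max_left _ _) hn
  have hn3 : N3 ≤ n := le_trans ((le_max_left _ _).trans (le_max_right _ _)) hn
  have hn5 : N5 ≤ n := le_trans ((le_max_left _ _).trans ((le_max_right _ _).trans (le_max_right _ _))) hn
  have hn4 : max M₀ 1 * 2 ^ N ≤ n :=
    le_trans ((le_max_right _ _).trans ((le_max_right _ _).trans (le_max_right _ _))) hn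
  replace hN1 := hN1 n hn1
  replace hN3' := hN3' n hn3
  replace hN5 := hN5 n hn5
  -- the levels
  have hlev : ∀ k ≤ N, M₀ ≤ n / 2 ^ k ∧ 1 ≤ n / 2 ^ k := by
    intro k hk
    have h1 : max M₀ 1 * 2 ^ k ≤ n :=
      le_trans (Nat.mul_le_mul_left _ (Nat.pow_le_pow_right (by norm_num) hk)) hn4
    have h2 : max M₀ 1 ≤ n / 2 ^ k := (Nat.le_div_iff_mul_le (by positivity)).2 h1
    exact ⟨(le_max_left _ _).trans h2, (le_max_right _ _).trans h2⟩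
  obtain ⟨η, hηdef⟩ : ∃ η : ℝ, η = min (η₈ / 2) (ε / 32) := ⟨_, rfl⟩
  rw [← hηdef] at hgood hgood1 ⊢
  have hη1 : η ≤ η₈ / 2 := by rw [hηdef]; exact min_le_left _ _
  have hη2 : η ≤ ε / 32 := by rw [hηdef]; exact min_le_right _ _
  have hn0 : (0 : ℝ) ≤ (n : ℝ) := Nat.cast_nonneg n
  have hnn : (1 : ℝ) ≤ (n : ℝ) + 1 := by linarith
  have hle : ∀ x : ℝ, (2 : ℝ) ^ (-(x * n)) ≤ ((n : ℝ) + 1) * (2 : ℝ) ^ (-(x * n)) := fun x =>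
    le_mul_of_one_le_left (by positivity) hnn
  obtain ⟨ρ, hρdef⟩ : ∃ ρ : ℝ, ρ = (1 / 2 : ℝ) ^ n := ⟨_, rfl⟩
  have hρ0 : 0 < ρ := by rw [hρdef]; positivity
  have hρpow : ∀ x : ℝ, ρ ^ x = (2 : ℝ) ^ (-(x * n)) := fun x => by rw [hρdef]; exact pj_law_pow x n
  have hρlt : ρ < Δ₀ := by
    have h1 : ρ = (2 : ℝ) ^ (-(1 * (n : ℝ))) := by rw [← hρpow 1, Real.rpow_one]
    have h2 := hle 1
    rw [h1]
    linarith
  have : Fintype (Set.range a) := Fintype.ofFinite _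
  obtain ⟨th, hthdef⟩ : ∃ th : ℝ, th = (2 : ℝ) ^ (-(η₈ / 2 * n)) := ⟨_, rfl⟩
  have hth : 0 < th := by rw [hthdef]; positivity
  obtain ⟨kp, -, hkp1, hkp2⟩ := pj_pop2 P Zs a A d η th η η n hth hbd hgood hgood1
  have hconst : (2 : ℝ) ^ (η * n) / th ≤ ρ ^ (-η₈) := by
    rw [hρpow, hthdef, ← Real.rpow_sub (by norm_num)]
    refine Real.rpow_le_rpow_of_exponent_le (by norm_num) ?_
    nlinarith
  -- the graphs
  have hex : ∀ z, ∃ (Hi : Bool → Set.range a → Set.range a → Prop) (Lo : ℕ → Set.range a → Set.range a → Prop),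
      pjMiss (fun i : Set.range a => pjLam P Zs a kp z i.1) (PjSep Subtype.val (ρ ^ η₈))
        (fun i j => (∃ v, Hi v i j) ∨ ∃ k ≤ N, Lo k i j) ≤ ρ ^ c ∧
      (∀ v, PjHrd (fun i : Set.range a => pjLam P Zs a kp z i.1) (pjF Subtype.val) (fun _ _ => True) (Hi v)
        (ρ ^ (-(ε / 4))) (d - ε / 4) ρ) ∧
      ∀ k ≤ N, PjHrd (fun i : Set.range a => pjLam P Zs a kp z i.1) (pjF Subtype.val) (fun _ _ => True) (Lo k)
        ((ρ ^ ((1 / 2 : ℝ) ^ k)) ^ (-(ε / 4))) (d - ε / 4) (ρ ^ ((1 / 2 : ℝ) ^ k)) := by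
    intro z
    obtain ⟨hpop, htree, htree1⟩ := hkp2 z
    rw [← hρdef] at htree htree1
    exact H ρ hρ0 hρlt (Set.range a) _ _ hpop (pj_law_tree_mono _ _ d _ hpop.lam0 hconst htree)
      (pj_law_tree1_mono _ _ d _ hpop.lam0 hconst htree1)
  choose Hi Lo hmz hHi hLo using hex
  obtain ⟨G, hG⟩ : ∃ G : ζ → ℝ × ℝ → ℝ × ℝ → Prop,
      G = fun z x y => (∃ v, pjLift (Hi z v) x y) ∨ ∃ k ≤ N, pjLift (Lo z k) x y := ⟨_, rfl⟩
  obtain ⟨Wd, hWd⟩ : ∃ Wd : ℝ × ℝ → ℝ × ℝ → Prop,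
      Wd = fun x y => ρ ^ η₈ ≤ |y.1 - x.1| ∧ ρ ^ η₈ ≤ |y.2 - x.2| := ⟨_, rfl⟩
  have hmiss := pj_law_miss P Zs a b hiid kp G Wd (fun _ => False) (ρ ^ c) (by positivity) (by
    intro z _
    have h1 := hmz z
    unfold pjMiss at h1
    refine le_trans (le_of_eq ?_) h1
    refine Finset.sum_congr rfl fun i _ => ?_
    refine pj_law_sum_congr _ _ _ _ _ _ fun j _ => ?_
    rw [hG, hWd]
    simp only [pj_lift_iff]
    exact Iff.rfl)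
  rw [ent_pr_false] at hmiss
  have hlam0 : ∀ z (i : Set.range a), 0 ≤ pjLam P Zs a kp z i.1 := fun z i => pj_law_lam_nonneg P Zs a kp z i.1
  have hlog2 : 0 < Real.log 2 := Real.log_pos (by norm_num)
  -- scores of the high graphs
  have hsHi : ∀ v : Bool, P.pr (fun ω => (kp (Zs ω) (a ω) ∧ kp (Zs ω) (b ω) ∧ pjLift (Hi (Zs ω) v) (a ω) (b ω)) ∧
      ¬ PjGoodH P (icS (fun ω => pjPin (a ω) (b ω))) (pair Zs a) (d - ε / 4) ε n ω) ≤ ε / (4 * ((N : ℝ) + 3)) := by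
    intro v
    have hlog : Real.log (ρ ^ (-(ε / 4)) / ((2 : ℝ) ^ (-(ε / 4 * n))) ^ 2) ≤ ε * n * Real.log 2 := by
      rw [hρpow, Real.log_div (by positivity) (by positivity), Real.log_pow, Real.log_rpow (by norm_num),
        Real.log_rpow (by norm_num)]
      have h4 : 0 ≤ ε * n * Real.log 2 := by positivity
      push_cast
      nlinarith
    have h1 := pj_law_score P Zs a b hiid kp (fun z => pjLift (Hi z v)) pjPin (ρ ^ (-(ε / 4))) (d - ε / 4)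
      ((2 : ℝ) ^ (-(ε / 4 * n))) ε n (by positivity) (by positivity) hlog (by
        intro z x y _ _ hg k k' hk hk'
        exact pj_law_hrd a _ (hlam0 z) (pjF Subtype.val) pjPin (fun _ _ => True) (Hi z v) _ _ ρ n (by positivity)
          (fun _ _ _ => rfl) (fun _ _ _ => trivial) (le_of_eq hρdef) (hHi z v) x y hg k k' hk hk')
    refine h1.trans ?_
    have h2 := hM₀ n (by
      have := (hlev 0 (Nat.zero_le _)).1
      simpa using this)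
    have h3 : ε / (4 * ((N : ℝ) + 3)) = 4 * (ε / (16 * ((N : ℝ) + 3))) := by
      field_simp
      ring
    rw [h3]
    linarith
  -- scores of the low graphs
  have hsLo : ∀ k ≤ N, P.pr (fun ω => (kp (Zs ω) (a ω) ∧ kp (Zs ω) (b ω) ∧ pjLift (Lo (Zs ω) k) (a ω) (b ω)) ∧
      ¬ PjGoodH P (icS (fun ω => pjPin (a ω) (b ω))) (pair Zs a) (d - ε / 4) ε (n / 2 ^ k) ω)
      ≤ ε / (4 * ((N : ℝ) + 3)) := by
    intro k hk
    obtain ⟨hm0, hm1⟩ := hlev k hk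
    obtain ⟨hd1', hd2'⟩ := pj_law_div n k
    obtain ⟨m, hm⟩ : ∃ m : ℕ, m = n / 2 ^ k := ⟨_, rfl⟩
    rw [← hm] at hm0 hm1 hd1' hd2' ⊢
    have hm1' : (1 : ℝ) ≤ (m : ℝ) := by exact_mod_cast hm1
    have hCk : (ρ ^ ((1 / 2 : ℝ) ^ k)) ^ (-(ε / 4)) = (2 : ℝ) ^ (ε / 4 * ((1 / 2 : ℝ) ^ k * n)) := by
      rw [hρpow, ← Real.rpow_mul (by norm_num)]
      congr 1
      ring
    have hlog : Real.log ((ρ ^ ((1 / 2 : ℝ) ^ k)) ^ (-(ε / 4)) / ((2 : ℝ) ^ (-(ε / 4 * m))) ^ 2) ≤ ε * m * Real.log 2 := by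
      rw [hCk, Real.log_div (by positivity) (by positivity), Real.log_pow, Real.log_rpow (by norm_num),
        Real.log_rpow (by norm_num)]
      push_cast
      have h5 : ε / 4 * ((1 / 2 : ℝ) ^ k * n) + 2 * (ε / 4 * m) ≤ ε * m := by nlinarith
      have h6 := mul_le_mul_of_nonneg_right h5 hlog2.le
      linarith
    have hρk : ρ ^ ((1 / 2 : ℝ) ^ k) ≤ (1 / 2 : ℝ) ^ m := by
      have e1 : (1 / 2 : ℝ) ^ m = (2 : ℝ) ^ (-(m : ℝ)) := by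
        rw [Real.rpow_neg (by norm_num), Real.rpow_natCast, one_div, inv_pow]
      rw [hρpow, e1]
      refine Real.rpow_le_rpow_of_exponent_le (by norm_num) ?_
      linarith
    have h1 := pj_law_score P Zs a b hiid kp (fun z => pjLift (Lo z k)) pjPin ((ρ ^ ((1 / 2 : ℝ) ^ k)) ^ (-(ε / 4)))
      (d - ε / 4) ((2 : ℝ) ^ (-(ε / 4 * m))) ε m (by positivity) (by positivity) hlog (by
        intro z x y _ _ hg k₁ k₂ hk₁ hk₂
        exact pj_law_hrd a _ (hlam0 z) (pjF Subtype.val) pjPin (fun _ _ => True) (Lo z k) _ _ _ m (by positivity)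
          (fun _ _ _ => rfl) (fun _ _ _ => trivial) hρk (hLo z k hk) x y hg k₁ k₂ hk₁ hk₂)
    refine h1.trans ?_
    have h2 := hM₀ m hm0
    have h3 : ε / (4 * ((N : ℝ) + 3)) = 4 * (ε / (16 * ((N : ℝ) + 3))) := by
      field_simp
      ring
    rw [h3]
    linarith
  -- assembly
  have hsplit : P.pr (fun ω => (2 : ℝ) ^ (-(η * n)) ≤ |(b ω).1 - (a ω).1| ∧ (2 : ℝ) ^ (-(η * n)) ≤ |(b ω).2 - (a ω).2| ∧
      ∀ k ≤ N, ¬ PjGoodH P (icS (fun ω => pjPin (a ω) (b ω))) (pair Zs a) (d - ε) ε (n / 2 ^ k) ω)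
      ≤ P.pr (fun ω => ((Wd (a ω) (b ω) ∧ ¬ (kp (Zs ω) (a ω) ∧ kp (Zs ω) (b ω) ∧ G (Zs ω) (a ω) (b ω))) ∨
        (∃ v ∈ (Finset.univ : Finset Bool), (kp (Zs ω) (a ω) ∧ kp (Zs ω) (b ω) ∧ pjLift (Hi (Zs ω) v) (a ω) (b ω)) ∧
          ¬ PjGoodH P (icS (fun ω => pjPin (a ω) (b ω))) (pair Zs a) (d - ε / 4) ε n ω)) ∨
        (∃ k ∈ Finset.range (N + 1), (kp (Zs ω) (a ω) ∧ kp (Zs ω) (b ω) ∧ pjLift (Lo (Zs ω) k) (a ω) (b ω)) ∧
          ¬ PjGoodH P (icS (fun ω => pjPin (a ω) (b ω))) (pair Zs a) (d - ε / 4) ε (n / 2 ^ k) ω)) := by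
    refine ent_pr_mono P fun ω _ hh => ?_
    obtain ⟨h1, h2, h3⟩ := hh
    have hmono : ∀ k, ¬ PjGoodH P (icS (fun ω => pjPin (a ω) (b ω))) (pair Zs a) (d - ε) ε (n / 2 ^ k) ω →
        ¬ PjGoodH P (icS (fun ω => pjPin (a ω) (b ω))) (pair Zs a) (d - ε / 4) ε (n / 2 ^ k) ω := fun k hk hg =>
      hk (pj_law_goodH_mono P _ _ _ ω (by linarith) le_rfl hg)
    by_cases hE : kp (Zs ω) (a ω) ∧ kp (Zs ω) (b ω) ∧ G (Zs ω) (a ω) (b ω)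
    · obtain ⟨g1, g2, g3⟩ := hE
      rw [hG] at g3
      rcases g3 with ⟨v, hv⟩ | ⟨k, hk, hv⟩
      · refine Or.inl (Or.inr ⟨v, Finset.mem_univ v, ⟨g1, g2, hv⟩, ?_⟩)
        have := hmono 0 (h3 0 (Nat.zero_le _))
        simpa using this
      · exact Or.inr ⟨k, Finset.mem_range.2 (Nat.lt_succ_of_le hk), ⟨g1, g2, hv⟩, hmono k (h3 k hk)⟩
    · refine Or.inl (Or.inl ⟨?_, hE⟩)
      have hσ : ρ ^ η₈ ≤ (2 : ℝ) ^ (-(η * n)) := by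
        rw [hρpow]
        refine Real.rpow_le_rpow_of_exponent_le (by norm_num) ?_
        nlinarith
      rw [hWd]
      exact ⟨hσ.trans h1, hσ.trans h2⟩
  have hor1 := ent_pr_or_le P
    (fun ω => (Wd (a ω) (b ω) ∧ ¬ (kp (Zs ω) (a ω) ∧ kp (Zs ω) (b ω) ∧ G (Zs ω) (a ω) (b ω))) ∨
        (∃ v ∈ (Finset.univ : Finset Bool), (kp (Zs ω) (a ω) ∧ kp (Zs ω) (b ω) ∧ pjLift (Hi (Zs ω) v) (a ω) (b ω)) ∧
          ¬ PjGoodH P (icS (fun ω => pjPin (a ω) (b ω))) (pair Zs a) (d - ε / 4) ε n ω))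
    (fun ω => ∃ k ∈ Finset.range (N + 1), (kp (Zs ω) (a ω) ∧ kp (Zs ω) (b ω) ∧ pjLift (Lo (Zs ω) k) (a ω) (b ω)) ∧
          ¬ PjGoodH P (icS (fun ω => pjPin (a ω) (b ω))) (pair Zs a) (d - ε / 4) ε (n / 2 ^ k) ω)
  have hor2 := ent_pr_or_le P
    (fun ω => Wd (a ω) (b ω) ∧ ¬ (kp (Zs ω) (a ω) ∧ kp (Zs ω) (b ω) ∧ G (Zs ω) (a ω) (b ω)))
    (fun ω => ∃ v ∈ (Finset.univ : Finset Bool), (kp (Zs ω) (a ω) ∧ kp (Zs ω) (b ω) ∧ pjLift (Hi (Zs ω) v) (a ω) (b ω)) ∧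
          ¬ PjGoodH P (icS (fun ω => pjPin (a ω) (b ω))) (pair Zs a) (d - ε / 4) ε n ω)
  have hu1 := ent_pr_exists_le P (Finset.univ : Finset Bool)
    (fun v ω => (kp (Zs ω) (a ω) ∧ kp (Zs ω) (b ω) ∧ pjLift (Hi (Zs ω) v) (a ω) (b ω)) ∧
          ¬ PjGoodH P (icS (fun ω => pjPin (a ω) (b ω))) (pair Zs a) (d - ε / 4) ε n ω)
  have hu2 := ent_pr_exists_le P (Finset.range (N + 1))
    (fun k ω => (kp (Zs ω) (a ω) ∧ kp (Zs ω) (b ω) ∧ pjLift (Lo (Zs ω) k) (a ω) (b ω)) ∧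
          ¬ PjGoodH P (icS (fun ω => pjPin (a ω) (b ω))) (pair Zs a) (d - ε / 4) ε (n / 2 ^ k) ω)
  have hs1 : ∑ v ∈ (Finset.univ : Finset Bool), P.pr (fun ω => (kp (Zs ω) (a ω) ∧ kp (Zs ω) (b ω) ∧
      pjLift (Hi (Zs ω) v) (a ω) (b ω)) ∧ ¬ PjGoodH P (icS (fun ω => pjPin (a ω) (b ω))) (pair Zs a) (d - ε / 4) ε n ω)
      ≤ 2 * (ε / (4 * ((N : ℝ) + 3))) := by
    refine (Finset.sum_le_sum fun v _ => hsHi v).trans (le_of_eq ?_)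
    rw [Finset.sum_const, Finset.card_univ, Fintype.card_bool, nsmul_eq_mul]
    norm_num
  have hs2 : ∑ k ∈ Finset.range (N + 1), P.pr (fun ω => (kp (Zs ω) (a ω) ∧ kp (Zs ω) (b ω) ∧
      pjLift (Lo (Zs ω) k) (a ω) (b ω)) ∧
        ¬ PjGoodH P (icS (fun ω => pjPin (a ω) (b ω))) (pair Zs a) (d - ε / 4) ε (n / 2 ^ k) ω)
      ≤ ((N : ℝ) + 1) * (ε / (4 * ((N : ℝ) + 3))) := by
    refine (Finset.sum_le_sum fun k hk => hsLo k (Nat.lt_succ_iff.1 (Finset.mem_range.1 hk))).trans (le_of_eq ?_)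
    rw [Finset.sum_const, Finset.card_range, nsmul_eq_mul]
    push_cast
    ring
  have htot : 2 * (ε / (4 * ((N : ℝ) + 3))) + ((N : ℝ) + 1) * (ε / (4 * ((N : ℝ) + 3))) = ε / 4 := by
    field_simp
    ring
  have hc' : ρ ^ c ≤ ε / 8 := by
    rw [hρpow]
    exact (hle c).trans hN3'
  rw [← hthdef] at hN1
  linarith

end Claimed.Agent.R256
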