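import Claimed.Agent.R256.Prj.Pass

/-!
# Row 256, Prj, unit RADH: hereditary radial spreading (population level).      (chief helper186)
`pj_her_pass`: ONE more refinement of a graph that is thin with the exponent `u < s` (free mesh `θ ≤ χ/8`) makes the slopes HEREDITARILY thin with the exponent `u`; copy of `pj_stage_step` with `pj_pass` instead of `rp_tele`.
`pj_u_rad_her` = exit X7 of `Prj/Contract.lean`: `R255.rp_stage_top` + `pj_her_pass`.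
-/

set_option autoImplicit false

namespace Claimed.Agent.R256

open Finset Classical
open Claimed.Agent.R255

theorem pj_her_pass (A s ε ηW ρW u χ : ℝ) (hA : 1 ≤ A) (hs : 0 < s) (hs1 : s ≤ 1) (hε : 0 < ε) (hηW : 0 < ηW)
    (hρW : 0 < ρW) (hu0 : 0 < u) (hu1 : u ≤ 1) (hχ : 0 < χ)
    (hW2 : ∀ δ : ℝ, 0 < δ → δ < ρW → RpW2 s u ε ηW δ) :
    ∃ c η ρ₁ : ℝ, 0 < c ∧ 0 < η ∧ 0 < ρ₁ ∧
      ∀ ρ : ℝ, 0 < ρ → ρ < ρ₁ → ∀ (ι : Type) [Fintype ι] (lam : ι → ℝ) (pos : ι → ℝ × ℝ) (𝒢₀ : ι → ι → Prop),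
        RpPop lam pos A → RtTreeHer lam pos (ρ ^ (-η)) s ρ → RpGr pos 𝒢₀ (ρ ^ η) → RpThin lam pos 𝒢₀ (ρ ^ (-η)) u ρ →
        ∃ 𝒢 : ι → ι → Prop, RpGr pos 𝒢 (ρ ^ η) ∧ (∀ i j, 𝒢 i j → 𝒢₀ i j) ∧ pjMiss lam 𝒢₀ 𝒢 ≤ ρ ^ c ∧
          PjHrd lam (rpSl pos) 𝒢₀ 𝒢 (ρ ^ (-χ)) u ρ := by
  obtain ⟨θ, hθdef⟩ : ∃ θ : ℝ, θ = min (1 / 3) (χ / 8) := ⟨_, rfl⟩
  have hθ : 0 < θ := by rw [hθdef]; exact lt_min (by norm_num) (by positivity)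
  have hθ1 : θ ≤ 1 / 3 := by rw [hθdef]; exact min_le_left _ _
  have hθχ : θ ≤ χ / 8 := by rw [hθdef]; exact min_le_right _ _
  obtain ⟨L, hL⟩ := rp_E_small θ (χ / 8) hθ (by positivity)
  have hj₁ : 0 < rpE θ L 0 := rp_E_pos θ hθ L 0
  obtain ⟨a, hadef⟩ : ∃ a : ℝ, a = θ * rpE θ L 0 / 2 := ⟨_, rfl⟩
  have ha : 0 < a := by rw [hadef]; positivity
  obtain ⟨ηin, hηdef⟩ : ∃ ηin : ℝ, ηin = min (min (θ * rpE θ L 0 / 8) (a * ηW / 4)) (χ / (8 * ((L : ℝ) + 1))) := ⟨_, rfl⟩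
  have hL1 : (0 : ℝ) < 8 * ((L : ℝ) + 1) := by positivity
  have hηin0 : 0 < ηin := by
    rw [hηdef]
    exact lt_min (lt_min (by positivity) (by positivity)) (by positivity)
  have hηin1 : ηin ≤ θ * rpE θ L 0 / 8 := by
    rw [hηdef]; exact (min_le_left _ _).trans (min_le_left _ _)
  have hηin2 : ηin ≤ a * ηW / 4 := by
    rw [hηdef]; exact (min_le_left _ _).trans (min_le_right _ _)
  have hηin3' : ηin ≤ χ / (8 * ((L : ℝ) + 1)) := by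
    rw [hηdef]; exact min_le_right _ _
  have hηin5 : ηin * (8 * ((L : ℝ) + 1)) ≤ χ := (le_div_iff₀ hL1).1 hηin3'
  have hηL : ηin * ((L : ℝ) + 1) ≤ χ / 8 := by linarith
  obtain ⟨ρa, hρa0, hρa1, hlev⟩ := rp_lev_exists A θ ηin L hA hθ hθ1 hηin0 hηin1
  obtain ⟨ρc, hρc0, hρc1, hpar⟩ := rp_par_step a ηW ηin ρW 1 L ha hηW hηin0 hηin2 hρW one_pos
  obtain ⟨ρd, hρd0, hρd1, hsm⟩ := rp_small ((512 * A) ^ L) (3 * χ / 8) (by positivity)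
  refine ⟨min 1 (a * ηW / 4) / 2, ηin, min ρa (min ρc ρd), ?_, hηin0, lt_min hρa0 (lt_min hρc0 hρd0), ?_⟩
  · have : 0 < min 1 (a * ηW / 4) := lt_min one_pos (by positivity)
    positivity
  intro ρ hρ0 hρlt ι _ lam pos 𝒢₀ hp herin hg₀ hthin₀
  have hρ_a : ρ < ρa := lt_of_lt_of_le hρlt (min_le_left _ _)
  have hρ_c : ρ < ρc := lt_of_lt_of_le hρlt ((min_le_right _ _).trans (min_le_left _ _))
  have hρ_d : ρ < ρd := lt_of_lt_of_le hρlt ((min_le_right _ _).trans (min_le_right _ _))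
  have hρ1 : ρ < 1 := lt_of_lt_of_le hρ_a hρa1
  obtain ⟨k, δ, hδpos, hlev⟩ := hlev ρ hρ0 hρ_a
  obtain ⟨hsum, hpar⟩ := hpar ρ hρ0 hρ_c
  have hK1 : 1 ≤ ρ ^ (-ηin) := Real.one_le_rpow_of_pos_of_le_one_of_nonpos hρ0 hρ1.le (by linarith)
  obtain ⟨W, hW⟩ : ∃ W : ℕ → ℝ, W = fun n => 1 * ρ ^ rpE θ L n := ⟨_, rfl⟩
  obtain ⟨l, hl⟩ : ∃ l : ℕ → ℝ, l = fun n => δ n ^ (u + ε) := ⟨_, rfl⟩
  have hWn : ∀ n, W n = ρ ^ rpE θ L n := fun n => by rw [hW]; simp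
  have hln : ∀ n, l n = δ n ^ (u + ε) := fun n => by rw [hl]
  have hr := rp_ref_gr (lam := lam) hg₀ L W l
  have hbad : ∀ n < L, ∑ i, ∑ j with RpBad lam pos 𝒢₀ (W n) (W (n + 1)) (l n) i j, lam i * lam j
      ≤ 2 * ρ ^ (a * ηW / 2) := by
    intro n hn
    obtain ⟨hlv, -, hδa⟩ := hlev n hn
    rw [← hadef] at hδa
    obtain ⟨p1, p2, p3, p4⟩ := hpar (δ n) (hδpos n) hδa
    have hd1 : 0 < δ n ^ ηW := Real.rpow_pos_of_pos (hδpos n) _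
    have hd2 : 0 < δ n ^ (ηW / 2) := Real.rpow_pos_of_pos (hδpos n) _
    rw [hWn n, hWn (n + 1), hln n]
    refine (rp_level_of_cells hp (k n) _ (δ n ^ ηW + δ n ^ (ηW / 2)) (by positivity) (fun q => ?_)).trans p4
    exact rp_cell_w2 hp hg₀ hlv s u ε ηW (ρ ^ (-ηin)) (ρ ^ (-ηin)) (δ n ^ (ηW / 2)) hs.le hs1 hK1 (by positivity)
      hthin₀ herin (hW2 _ (hδpos n) p1) hd2 p2 p3 q
  have hm := rp_ref_mass hp.lam0 L W l _ hbad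
  refine ⟨RpRef lam pos 𝒢₀ L W l, hr, fun i j hij => hij.1, ?_, ?_⟩
  · refine le_trans ?_ hsum
    have h2 : pjMiss lam 𝒢₀ (RpRef lam pos 𝒢₀ L W l) ≤ 2 * L * (2 * ρ ^ (a * ηW / 2)) := hm
    exact h2.trans (le_add_of_nonneg_left (Real.rpow_pos_of_pos hρ0 _).le)
  · have hpass := pj_pass (F := rpSl pos) (𝒢₀ := 𝒢₀) hp.lam0 A θ ηin χ u (u + ε) ρ 1 L δ hA hθ hθχ hηin0 hηL hL hu0.le hu1
      (by linarith) hρ0 hρ1 (Real.rpow_le_one hρ0.le hρ1.le hηin0.le)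
      (fun n hn => ⟨hδpos n, (hlev n hn).1.hδ1, (hlev n hn).2.1⟩) hδpos (hsm ρ hρ0 hρ_d)
    rw [one_mul, ← hW, ← hl] at hpass
    exact hpass

/-- **X7** -/
theorem pj_u_rad_her (A s τ χ : ℝ) (hA : 1 ≤ A) (hs : 0 < s) (hs1 : s ≤ 1) (hτ : 0 < τ) (hχ : 0 < χ) :
    ∃ t₀ : ℝ, 0 < t₀ ∧ t₀ ≤ 1 ∧ ∀ κ₀ : ℝ, 0 < κ₀ → ∃ c η ρ₁ : ℝ, 0 < c ∧ 0 < η ∧ 0 < ρ₁ ∧
      ∀ ρ : ℝ, 0 < ρ → ρ < ρ₁ → ∀ (ι : Type) [Fintype ι] (lam : ι → ℝ) (pos : ι → ℝ × ℝ),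
        RpPop lam pos A → RtTreeHer lam pos (ρ ^ (-η)) s ρ → RtNoStrip lam pos (ρ ^ t₀) (ρ ^ κ₀) →
        ∃ 𝒢 : ι → ι → Prop, RpGr pos 𝒢 (ρ ^ χ) ∧ pjMiss lam (RpHor pos) 𝒢 ≤ ρ ^ c ∧
          PjHrd lam (rpSl pos) (RpHor pos) 𝒢 (ρ ^ (-χ)) (s - τ) ρ := by
  obtain ⟨τ', hτ'⟩ : ∃ τ', τ' = min τ (s / 2) := ⟨_, rfl⟩
  have hτ'0 : 0 < τ' := by rw [hτ']; exact lt_min hτ (by positivity)
  have hτ'1 : τ' ≤ τ := by rw [hτ']; exact min_le_left _ _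
  have hτ'2 : τ' ≤ s / 2 := by rw [hτ']; exact min_le_right _ _
  obtain ⟨ε, hε, ηW, hηW, ρW, hρW, hW⟩ := RW.ex_W2 s τ' 2 hτ'0 hs1 (by norm_num)
  have hW2 : ∀ δ : ℝ, 0 < δ → δ < ρW → RpW2 s (s - τ') ε ηW δ := by
    intro δ hδ0 hδ1 X T _ _ μ ν pt sl G M h1 h2
    exact hW (s - τ') (by linarith) le_rfl δ hδ0 hδ1 X T μ ν pt sl G M h1 h2
  obtain ⟨cp, ηp, ρp, hcp, hηp, hρp, Hp⟩ := pj_her_pass A s ε ηW ρW (s - τ') χ hA hs hs1 hε hηW hρW (by linarith)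
    (by linarith) hχ hW2
  obtain ⟨η₁, hη₁⟩ : ∃ η₁, η₁ = min ηp χ := ⟨_, rfl⟩
  have hη₁0 : 0 < η₁ := by rw [hη₁]; exact lt_min hηp hχ
  have hη₁p : η₁ ≤ ηp := by rw [hη₁]; exact min_le_left _ _
  have hη₁χ : η₁ ≤ χ := by rw [hη₁]; exact min_le_right _ _
  obtain ⟨t₀, ht₀, ht₁, Hs⟩ := rp_stage_top A s τ' hA hs hs1 hτ'0 η₁ hη₁0
  refine ⟨t₀, ht₀, ht₁, fun κ₀ hκ₀ => ?_⟩
  obtain ⟨c, η, ρ₁, hc, hη, hρ₁, Hs⟩ := Hs κ₀ hκ₀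
  obtain ⟨m, hm⟩ : ∃ m, m = min c cp := ⟨_, rfl⟩
  have hm0 : 0 < m := by rw [hm]; exact lt_min hc hcp
  obtain ⟨ρs, hρs0, hρs1, hsm⟩ := rp_small 2 (m / 2) (by positivity)
  refine ⟨m / 2, min η ηp, min (min ρ₁ ρp) ρs, by positivity, lt_min hη hηp, lt_min (lt_min hρ₁ hρp) hρs0, ?_⟩
  intro ρ hρ0 hρlt ι _ lam pos hp her hns
  have hρ_1 : ρ < ρ₁ := lt_of_lt_of_le hρlt ((min_le_left _ _).trans (min_le_left _ _))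
  have hρ_p : ρ < ρp := lt_of_lt_of_le hρlt ((min_le_left _ _).trans (min_le_right _ _))
  have hρ_s : ρ < ρs := lt_of_lt_of_le hρlt (min_le_right _ _)
  have hρ1 : ρ < 1 := lt_of_lt_of_le hρ_s hρs1
  have her1 : RtTreeHer lam pos (ρ ^ (-η)) s ρ :=
    rt_treeher_mono hp.lam0 (Real.rpow_le_rpow_of_exponent_ge hρ0 hρ1.le (by linarith [min_le_left η ηp])) her
  have her2 : RtTreeHer lam pos (ρ ^ (-ηp)) s ρ :=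
    rt_treeher_mono hp.lam0 (Real.rpow_le_rpow_of_exponent_ge hρ0 hρ1.le (by linarith [min_le_right η ηp])) her
  obtain ⟨𝒢b, hgb, hmb, hthb⟩ := Hs ρ hρ0 hρ_1 ι lam pos hp her1 hns
  have hgb' : RpGr pos 𝒢b (ρ ^ ηp) :=
    ⟨hgb.symm, fun i j hij => ⟨(hgb.sub i j hij).1,
      (Real.rpow_le_rpow_of_exponent_ge hρ0 hρ1.le hη₁p).trans (hgb.sub i j hij).2⟩⟩
  have hthb' : RpThin lam pos 𝒢b (ρ ^ (-ηp)) (s - τ') ρ := fun i₀ z w hw hw1 =>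
    (hthb i₀ z w hw hw1).trans (mul_le_mul_of_nonneg_right
      (Real.rpow_le_rpow_of_exponent_ge hρ0 hρ1.le (by linarith))
      (Real.rpow_nonneg (hρ0.le.trans hw) _))
  obtain ⟨𝒢, hg, hsub, hmiss, hher⟩ := Hp ρ hρ0 hρ_p ι lam pos 𝒢b hp her2 hgb' hthb'
  refine ⟨𝒢, ⟨hg.symm, fun i j hij => ⟨(hgb.sub i j (hsub i j hij)).1,
    (Real.rpow_le_rpow_of_exponent_ge hρ0 hρ1.le hη₁χ).trans (hgb.sub i j (hsub i j hij)).2⟩⟩, ?_, ?_⟩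
  · have hsplit := rp_split_mass hp.lam0 (fun i j => RpHor pos i j ∧ ¬ 𝒢 i j)
      (fun i j => RpHor pos i j ∧ ¬ 𝒢b i j) (fun i j => 𝒢b i j ∧ ¬ 𝒢 i j) (by
        intro i j hij
        by_cases h0 : 𝒢b i j
        · exact Or.inr ⟨h0, hij.2⟩
        · exact Or.inl ⟨hij.1, h0⟩)
    have h1 : pjMiss lam (RpHor pos) 𝒢 ≤ ρ ^ c + ρ ^ cp := by
      unfold pjMiss at hmiss ⊢
      refine le_trans ?_ (add_le_add hmb hmiss)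
      convert hsplit
      rfl
    have h2 : ρ ^ c ≤ ρ ^ m := Real.rpow_le_rpow_of_exponent_ge hρ0 hρ1.le (by rw [hm]; exact min_le_left _ _)
    have h3 : ρ ^ cp ≤ ρ ^ m := Real.rpow_le_rpow_of_exponent_ge hρ0 hρ1.le (by rw [hm]; exact min_le_right _ _)
    have h4 : ρ ^ m = ρ ^ (m / 2) * ρ ^ (m / 2) := by
      rw [← Real.rpow_add hρ0]; congr 1; ring
    have h5 := hsm ρ hρ0 hρ_s
    have h6 : 0 < ρ ^ (m / 2) := Real.rpow_pos_of_pos hρ0 _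
    nlinarith
  · exact pj_her_mono hp.lam0 hρ0 le_rfl (Real.rpow_pos_of_pos hρ0 _).le le_rfl (by linarith)
      (fun i j hij => (hgb.sub i j hij).1) hher

end Claimed.Agent.R256
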