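import Claimed.Agent.R256.Prj.LawKit
import Claimed.Agent.R256.Prj.RadHer

/-!
# Row 256, folder Prj, unit LAW, file LawRad: RADIAL SPREADING, hereditary score form (exit X4 of `Prj/Contract.lean`).      (chief helper186, owner of this file helper288)

`pj_u_rad_law` = `pj_u_rad_her` (population level) + `pj_pop`, `pj_pop_strip` (populations of the side values) + `pj_law_miss`, `pj_law_score` (`Prj/LawKit.lean`).
Constants: `χ = ε/4`, `(c, η', ρ₁)` from `pj_u_rad_her A d ε χ` at `κ₀/2`; `η = min (η'/2) (ε/8)`; floor `th = 2^(-(η'/2) n)`; strip level `2^(-(κ₀/2) n)`; `l = 2^(-χ n)`; `ρ = 2^-n`.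
The vertical chart is the horizontal chart of the swapped marks.
-/

set_option autoImplicit false

namespace Claimed.Agent.R256

open Claimed.Agent.R255 Claimed.Agent.R255.FLaw
open Finset Classical

/-- powers of `ρ = 2^-n` -/
theorem pj_law_pow (x : ℝ) (n : ℕ) : ((1 / 2 : ℝ) ^ n) ^ x = (2 : ℝ) ^ (-(x * n)) := by
  have h1 : ((1 / 2 : ℝ) ^ n) = (2 : ℝ) ^ (-(n : ℝ)) := by
    rw [Real.rpow_neg (by norm_num), Real.rpow_natCast, one_div, inv_pow]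
  rw [h1, ← Real.rpow_mul (by norm_num)]
  congr 1
  ring

theorem pj_law_rad_hor (A d ε : ℝ) (hA : 1 ≤ A) (hd : 0 < d) (hd1 : d ≤ 1) (hε : 0 < ε) :
    ∃ t₀ : ℝ, 0 < t₀ ∧ t₀ ≤ 1 ∧ ∀ κ₀ : ℝ, 0 < κ₀ → ∃ η : ℝ, 0 < η ∧ ∃ n₁ : ℕ, ∀ n : ℕ, n₁ ≤ n →
      ∀ (Ω ζ : Type) [Fintype Ω] (P : FLaw Ω) (Zs : Ω → ζ) (a b : Ω → ℝ × ℝ),
        PjIid P Zs a b → PjBd A a →
        P.pr (fun ω => ¬ PjGoodH P (icQ a) Zs d η n ω) ≤ η →
        PjNoStrip P Zs a ((2 : ℝ) ^ (-(t₀ * n))) ((2 : ℝ) ^ (-(κ₀ * n))) →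
        P.pr (fun ω => PjHorP (a ω) (b ω) ∧
          ¬ PjGoodH P (icS (fun ω => pjDir (a ω) (b ω))) (pair Zs a) (d - ε) ε n ω) ≤ ε := by
  obtain ⟨t₀, ht0, ht1, H⟩ := pj_u_rad_her A d ε (ε / 4) hA hd hd1 hε (by positivity)
  refine ⟨t₀, ht0, ht1, fun κ₀ hκ => ?_⟩
  obtain ⟨c, η', ρ₁, hc, hη', hρ₁, H⟩ := H (κ₀ / 2) (by positivity)
  obtain ⟨N1, hN1⟩ := pj_law_small (η' / 2) (ε / 16) (by positivity) (by positivity)
  obtain ⟨N2, hN2⟩ := pj_law_small (κ₀ / 2) (ε / 8) (by positivity) (by positivity)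
  obtain ⟨N3, hN3⟩ := pj_law_small c (ε / 8) hc (by positivity)
  obtain ⟨N4, hN4⟩ := pj_law_small (ε / 4) (ε / 32) (by positivity) (by positivity)
  obtain ⟨N5, hN5⟩ := pj_law_small 1 (ρ₁ / 2) one_pos (by positivity)
  refine ⟨min (η' / 2) (ε / 8), lt_min (by positivity) (by positivity), max N1 (max N2 (max N3 (max N4 N5))), ?_⟩
  intro n hn Ω ζ _ P Zs a b hiid hbd hgood hstrip
  have hn1 : N1 ≤ n := le_trans (le_max_left _ _) hn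
  have hn2 : N2 ≤ n := le_trans ((le_max_left _ _).trans (le_max_right _ _)) hn
  have hn3 : N3 ≤ n := le_trans ((le_max_left _ _).trans ((le_max_right _ _).trans (le_max_right _ _))) hn
  have hn4 : N4 ≤ n :=
    le_trans ((le_max_left _ _).trans ((le_max_right _ _).trans ((le_max_right _ _).trans (le_max_right _ _)))) hn
  have hn5 : N5 ≤ n :=
    le_trans ((le_max_right _ _).trans ((le_max_right _ _).trans ((le_max_right _ _).trans (le_max_right _ _)))) hn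
  replace hN1 := hN1 n hn1
  replace hN2 := hN2 n hn2
  replace hN3 := hN3 n hn3
  replace hN4 := hN4 n hn4
  replace hN5 := hN5 n hn5
  obtain ⟨η, hηdef⟩ : ∃ η : ℝ, η = min (η' / 2) (ε / 8) := ⟨_, rfl⟩
  rw [← hηdef] at hgood
  have hη1 : η ≤ η' / 2 := by rw [hηdef]; exact min_le_left _ _
  have hη2 : η ≤ ε / 8 := by rw [hηdef]; exact min_le_right _ _
  have hnn : (1 : ℝ) ≤ (n : ℝ) + 1 := by
    have : (0 : ℝ) ≤ (n : ℝ) := Nat.cast_nonneg n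
    linarith
  have hle : ∀ x : ℝ, (2 : ℝ) ^ (-(x * n)) ≤ ((n : ℝ) + 1) * (2 : ℝ) ^ (-(x * n)) := fun x =>
    le_mul_of_one_le_left (by positivity) hnn
  obtain ⟨ρ, hρdef⟩ : ∃ ρ : ℝ, ρ = (1 / 2 : ℝ) ^ n := ⟨_, rfl⟩
  have hρ0 : 0 < ρ := by rw [hρdef]; positivity
  have hρpow : ∀ x : ℝ, ρ ^ x = (2 : ℝ) ^ (-(x * n)) := fun x => by rw [hρdef]; exact pj_law_pow x n
  have hρlt : ρ < ρ₁ := by
    have h1 : ρ = (2 : ℝ) ^ (-(1 * (n : ℝ))) := by rw [← hρpow 1, Real.rpow_one]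
    have h2 := hle 1
    rw [h1]
    linarith
  have : Fintype (Set.range a) := Fintype.ofFinite _
  obtain ⟨th, hthdef⟩ : ∃ th : ℝ, th = (2 : ℝ) ^ (-(η' / 2 * n)) := ⟨_, rfl⟩
  have hth : 0 < th := by rw [hthdef]; positivity
  obtain ⟨kp, -, hkp1, hkp2⟩ := pj_pop P Zs a A d η th η n hth hbd hgood
  obtain ⟨bb, hbbdef⟩ : ∃ bb : ℝ, bb = (2 : ℝ) ^ (-(κ₀ / 2 * n)) := ⟨_, rfl⟩
  have hbb : 0 < bb := by rw [hbbdef]; positivity
  have hst := pj_pop_strip P Zs a kp _ _ bb hbb hstrip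
  have hκb : (2 : ℝ) ^ (-(κ₀ * n)) / bb = (2 : ℝ) ^ (-(κ₀ / 2 * n)) := by
    rw [hbbdef, ← Real.rpow_sub (by norm_num)]
    congr 1
    ring
  rw [hκb] at hst
  -- the graphs
  obtain ⟨Bz, hBz⟩ : ∃ Bz : ζ → Prop, Bz = fun z =>
      ¬ RtNoStrip (fun i : Set.range a => pjLam P Zs a kp z i.1) Subtype.val ((2 : ℝ) ^ (-(t₀ * n))) bb := ⟨_, rfl⟩
  have hex : ∀ z, ∃ 𝒢 : Set.range a → Set.range a → Prop, ¬ Bz z →
      (RpGr (Subtype.val : Set.range a → ℝ × ℝ) 𝒢 (ρ ^ (ε / 4)) ∧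
        pjMiss (fun i : Set.range a => pjLam P Zs a kp z i.1) (RpHor Subtype.val) 𝒢 ≤ ρ ^ c ∧
        PjHrd (fun i : Set.range a => pjLam P Zs a kp z i.1) (rpSl Subtype.val) (RpHor Subtype.val) 𝒢
          (ρ ^ (-(ε / 4))) (d - ε) ρ) := by
    intro z
    by_cases hz : Bz z
    · exact ⟨fun _ _ => False, fun h => absurd hz h⟩
    · obtain ⟨hpop, htree⟩ := hkp2 z
      have h1 : RtTreeHer (fun i : Set.range a => pjLam P Zs a kp z i.1) Subtype.val (ρ ^ (-η')) d ρ := by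
        rw [hρdef] at *
        refine pj_law_tree_mono _ _ d _ hpop.lam0 ?_ htree
        rw [pj_law_pow, hthdef, ← Real.rpow_sub (by norm_num)]
        refine Real.rpow_le_rpow_of_exponent_le (by norm_num) ?_
        have : (0 : ℝ) ≤ (n : ℝ) := Nat.cast_nonneg n
        nlinarith
      have h2 : RtNoStrip (fun i : Set.range a => pjLam P Zs a kp z i.1) Subtype.val (ρ ^ t₀) (ρ ^ (κ₀ / 2)) := by
        rw [hρpow, hρpow, ← hbbdef]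
        rw [hBz] at hz
        exact not_not.1 hz
      obtain ⟨𝒢, h𝒢⟩ := H ρ hρ0 hρlt (Set.range a) _ _ hpop h1 h2
      exact ⟨𝒢, fun _ => h𝒢⟩
  choose 𝒢 h𝒢 using hex
  obtain ⟨G, hG⟩ : ∃ G : ζ → ℝ × ℝ → ℝ × ℝ → Prop, G = fun z x y => ¬ Bz z ∧ pjLift (𝒢 z) x y := ⟨_, rfl⟩
  -- missed pairs
  have hmiss := pj_law_miss P Zs a b hiid kp G PjHorP Bz (ρ ^ c) (by positivity) (by
    intro z hz
    have h1 := (h𝒢 z hz).2.1
    unfold pjMiss at h1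
    refine le_trans (le_of_eq ?_) h1
    refine Finset.sum_congr rfl fun i _ => ?_
    refine Finset.sum_congr (@Finset.filter_congr _ _ _ _ _ _ fun j _ => ?_) fun _ _ => rfl
    rw [hG]
    simp only [pj_lift_iff]
    constructor
    · rintro ⟨g1, g2⟩
      exact ⟨g1, fun g3 => g2 ⟨hz, g3⟩⟩
    · rintro ⟨g1, g2⟩
      exact ⟨g1, fun g3 => g2 g3.2⟩)
  -- scores
  obtain ⟨l, hldef⟩ : ∃ l : ℝ, l = (2 : ℝ) ^ (-(ε / 4 * n)) := ⟨_, rfl⟩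
  have hl : 0 < l := by rw [hldef]; positivity
  have hlog : Real.log (ρ ^ (-(ε / 4)) / l ^ 2) ≤ ε * n * Real.log 2 := by
    rw [hρpow, hldef, Real.log_div (by positivity) (by positivity), Real.log_pow, Real.log_rpow (by norm_num),
      Real.log_rpow (by norm_num)]
    have h2 : 0 < Real.log 2 := Real.log_pos (by norm_num)
    have h3 : (0 : ℝ) ≤ (n : ℝ) := Nat.cast_nonneg n
    have h4 : 0 ≤ ε * n * Real.log 2 := by positivity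
    push_cast
    nlinarith
  have hscore := pj_law_score P Zs a b hiid kp G pjDir (ρ ^ (-(ε / 4))) (d - ε) l ε n (by positivity) hl hlog (by
    intro z x y _ _ hg k k' hk hk'
    rw [hG] at hg
    obtain ⟨hz, hx, hy, hg⟩ := hg
    obtain ⟨hgr, -, hhrd⟩ := h𝒢 z hz
    have hw1 : ρ ≤ (1 / 2 : ℝ) ^ k' := by
      rw [hρdef]
      exact pow_le_pow_of_le_one (by norm_num) (by norm_num) hk'
    have hw2 : (1 / 2 : ℝ) ^ k' ≤ (1 / 2 : ℝ) ^ k := pow_le_pow_of_le_one (by norm_num) (by norm_num) hk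
    have hw3 : (1 / 2 : ℝ) ^ k ≤ 1 := pow_le_one₀ (by norm_num) (by norm_num)
    have h1 := hhrd ⟨x, hx⟩ ⟨y, hy⟩ hg _ _ hw1 hw2 hw3
    have hdir : ∀ j : Set.range a, RpHor (Subtype.val : Set.range a → ℝ × ℝ) ⟨x, hx⟩ j →
        pjDir x j.1 = rpSl (Subtype.val : Set.range a → ℝ × ℝ) ⟨x, hx⟩ j := by
      intro j hj
      have hj' : PjHorP x j.1 := hj
      unfold pjDir rpSl
      rw [if_pos hj']
    have hy' := hdir ⟨y, hy⟩ (hgr.sub _ _ hg).1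
    have hratio : (1 / 2 : ℝ) ^ k' / (1 / 2 : ℝ) ^ k = (1 / 2 : ℝ) ^ (k' - k) := by
      rw [pow_sub₀ _ (by norm_num) hk, div_eq_mul_inv]
    rw [hratio] at h1
    unfold pjM at h1
    have e1 : ∑ j : Set.range a with G z x j.1 ∧ |pjDir x j.1 - pjDir x y| ≤ (1 / 2 : ℝ) ^ k', pjLam P Zs a kp z j.1
        = ∑ i' : Set.range a with 𝒢 z ⟨x, hx⟩ i' ∧ |rpSl (Subtype.val : Set.range a → ℝ × ℝ) ⟨x, hx⟩ i'
            - rpSl (Subtype.val : Set.range a → ℝ × ℝ) ⟨x, hx⟩ ⟨y, hy⟩| ≤ (1 / 2 : ℝ) ^ k', pjLam P Zs a kp z i'.1 := by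
      refine Finset.sum_congr (@Finset.filter_congr _ _ _ _ _ _ fun j _ => ?_) fun _ _ => rfl
      rw [hG]
      have hl' : pjLift (𝒢 z) x j.1 ↔ 𝒢 z ⟨x, hx⟩ j := pj_lift_iff (𝒢 z) ⟨x, hx⟩ j
      constructor
      · rintro ⟨⟨_, g1⟩, g2⟩
        have g3 := hl'.1 g1
        rw [hdir j (hgr.sub _ _ g3).1, hy'] at g2
        exact ⟨g3, g2⟩
      · rintro ⟨g1, g2⟩
        refine ⟨⟨hz, hl'.2 g1⟩, ?_⟩
        rw [hdir j (hgr.sub _ _ g1).1, hy']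
        exact g2
    have e2 : ∑ i' : Set.range a with RpHor (Subtype.val : Set.range a → ℝ × ℝ) ⟨x, hx⟩ i' ∧
          |rpSl (Subtype.val : Set.range a → ℝ × ℝ) ⟨x, hx⟩ i'
            - rpSl (Subtype.val : Set.range a → ℝ × ℝ) ⟨x, hx⟩ ⟨y, hy⟩| ≤ (1 / 2 : ℝ) ^ k, pjLam P Zs a kp z i'.1
        ≤ ∑ j : Set.range a with |pjDir x j.1 - pjDir x y| ≤ (1 / 2 : ℝ) ^ k, pjLam P Zs a kp z j.1 := by
      refine Finset.sum_le_sum_of_subset_of_nonneg ?_ fun j _ _ => pj_law_lam_nonneg P Zs a kp z j.1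
      intro j hj
      rw [Finset.mem_filter] at hj ⊢
      refine ⟨hj.1, ?_⟩
      rw [hdir j hj.2.1, hy']
      exact hj.2.2
    rw [e1]
    refine le_trans ?_ (mul_le_mul_of_nonneg_left e2 (by positivity))
    convert h1)
  -- assembly
  have hsplit : P.pr (fun ω => PjHorP (a ω) (b ω) ∧
      ¬ PjGoodH P (icS (fun ω => pjDir (a ω) (b ω))) (pair Zs a) (d - ε) ε n ω)
      ≤ P.pr (fun ω => (PjHorP (a ω) (b ω) ∧ ¬ (kp (Zs ω) (a ω) ∧ kp (Zs ω) (b ω) ∧ G (Zs ω) (a ω) (b ω))) ∨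
        ((kp (Zs ω) (a ω) ∧ kp (Zs ω) (b ω) ∧ G (Zs ω) (a ω) (b ω)) ∧
          ¬ PjGoodH P (icS (fun ω => pjDir (a ω) (b ω))) (pair Zs a) (d - ε) ε n ω)) := by
    refine ent_pr_mono P fun ω _ hh => ?_
    by_cases hE : kp (Zs ω) (a ω) ∧ kp (Zs ω) (b ω) ∧ G (Zs ω) (a ω) (b ω)
    · exact Or.inr ⟨hE, hh.2⟩
    · exact Or.inl ⟨hh.1, hE⟩
  have hor := ent_pr_or_le P
    (fun ω => PjHorP (a ω) (b ω) ∧ ¬ (kp (Zs ω) (a ω) ∧ kp (Zs ω) (b ω) ∧ G (Zs ω) (a ω) (b ω)))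
    (fun ω => (kp (Zs ω) (a ω) ∧ kp (Zs ω) (b ω) ∧ G (Zs ω) (a ω) (b ω)) ∧
          ¬ PjGoodH P (icS (fun ω => pjDir (a ω) (b ω))) (pair Zs a) (d - ε) ε n ω)
  have hbz : P.pr (fun ω => Bz (Zs ω)) ≤ (2 : ℝ) ^ (-(κ₀ / 2 * n)) := by
    rw [hBz]
    exact hst
  have hc' : ρ ^ c ≤ ε / 8 := by
    rw [hρpow]
    exact (hle c).trans hN3
  have h2' := (hle (κ₀ / 2)).trans hN2
  rw [← hthdef] at hN1
  rw [← hldef] at hN4
  linarith

/-! ### the swapped marks -/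

theorem pj_law_sw_eq (u v : ℝ × ℝ) : u.swap = v ↔ u = v.swap := by
  constructor
  · intro h
    rw [← h, Prod.swap_swap]
  · intro h
    rw [h, Prod.swap_swap]

theorem pj_law_sw_iid {Ω ζ : Type} [Fintype Ω] (P : FLaw Ω) (Zs : Ω → ζ) (a b : Ω → ℝ × ℝ) (h : PjIid P Zs a b) :
    PjIid P Zs (fun ω => (a ω).swap) (fun ω => (b ω).swap) := by
  refine ⟨fun z x y => ?_, fun z x => ?_⟩
  · simp only [pj_law_sw_eq]
    exact h.1 z x.swap y.swap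
  · simp only [pj_law_sw_eq]
    exact h.2 z x.swap

theorem pj_law_sw_bd {Ω : Type} (A : ℝ) (a : Ω → ℝ × ℝ) (h : PjBd A a) : PjBd A (fun ω => (a ω).swap) :=
  fun ω => ⟨(h ω).2, (h ω).1⟩

theorem pj_law_sw_goodQ {Ω ζ : Type} [Fintype Ω] (P : FLaw Ω) (Zs : Ω → ζ) (a : Ω → ℝ × ℝ) (d η : ℝ) (n : ℕ) (ω : Ω) :
    PjGoodH P (icQ (fun ω => (a ω).swap)) Zs d η n ω ↔ PjGoodH P (icQ a) Zs d η n ω := by
  have hq : ∀ (k : ℕ) (ω' : Ω), icQ (fun ω => (a ω).swap) k ω' = icQ (fun ω => (a ω).swap) k ω ↔ icQ a k ω' = icQ a k ω := by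
    intro k ω'
    unfold icQ
    simp only [Prod.mk.injEq, Prod.fst_swap, Prod.snd_swap]
    exact and_comm
  have hs : ∀ k k' : ℕ, P.surC (icQ (fun ω => (a ω).swap) k') (pair (icQ (fun ω => (a ω).swap) k) Zs) ω
      = P.surC (icQ a k') (pair (icQ a k) Zs) ω := by
    intro k k'
    refine ent_surC_congr P _ _ _ _ ω (fun ω' _ => ?_) (fun ω' _ _ => hq k' ω')
    simp only [FLaw.pair, Prod.mk.injEq]
    rw [hq k ω']
  unfold PjGoodH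
  simp only [hs]

theorem pj_law_sw_strip {Ω ζ : Type} [Fintype Ω] (P : FLaw Ω) (Zs : Ω → ζ) (a : Ω → ℝ × ℝ) (wd κ : ℝ)
    (h : PjNoStrip P Zs a wd κ) : PjNoStrip P Zs (fun ω => (a ω).swap) wd κ := by
  intro al be ga hn
  refine le_trans (le_of_eq ?_) (h be al ga (fun z => by rw [add_comm]; exact hn z))
  refine ent_pr_congr P fun ω _ => ?_
  simp only [Prod.fst_swap, Prod.snd_swap]
  rw [add_comm (al (Zs ω) * (a ω).2)]

theorem pj_law_sw_goodD {Ω ζ α : Type} [Fintype Ω] (P : FLaw Ω) (Zs : Ω → ζ) (a : Ω → ℝ × ℝ) (X : ℕ → Ω → α) (u e : ℝ) (n : ℕ)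
    (ω : Ω) : PjGoodH P X (pair Zs (fun ω => (a ω).swap)) u e n ω ↔ PjGoodH P X (pair Zs a) u e n ω := by
  have hs : ∀ k k' : ℕ, P.surC (X k') (pair (X k) (pair Zs (fun ω => (a ω).swap))) ω
      = P.surC (X k') (pair (X k) (pair Zs a)) ω := by
    intro k k'
    refine ent_surC_congr P _ _ _ _ ω (fun ω' _ => ?_) (fun ω' _ _ => Iff.rfl)
    simp only [FLaw.pair, Prod.mk.injEq]
    rw [Prod.swap_inj]
  unfold PjGoodH
  simp only [hs]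

/-- **X4.  Radial spreading** (hereditary score form, both charts): verbatim `pj_rad_law` of `Prj/Contract.lean`. -/
theorem pj_u_rad_law (A d ε : ℝ) (hA : 1 ≤ A) (hd : 0 < d) (hd1 : d ≤ 1) (hε : 0 < ε) :
    ∃ t₀ : ℝ, 0 < t₀ ∧ t₀ ≤ 1 ∧ ∀ κ₀ : ℝ, 0 < κ₀ → ∃ η : ℝ, 0 < η ∧ ∃ n₁ : ℕ, ∀ n : ℕ, n₁ ≤ n →
      ∀ (Ω ζ : Type) [Fintype Ω] (P : FLaw Ω) (Zs : Ω → ζ) (a b : Ω → ℝ × ℝ),
        PjIid P Zs a b → PjBd A a → PjBd A b →
        P.pr (fun ω => ¬ PjGoodH P (icQ a) Zs d η n ω) ≤ η →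
        PjNoStrip P Zs a ((2 : ℝ) ^ (-(t₀ * n))) ((2 : ℝ) ^ (-(κ₀ * n))) →
        P.pr (fun ω => PjHorP (a ω) (b ω) ∧
          ¬ PjGoodH P (icS (fun ω => pjDir (a ω) (b ω))) (pair Zs a) (d - ε) ε n ω) ≤ ε ∧
        P.pr (fun ω => PjHorP (a ω).swap (b ω).swap ∧
          ¬ PjGoodH P (icS (fun ω => pjDir (a ω).swap (b ω).swap)) (pair Zs a) (d - ε) ε n ω) ≤ ε := by
  obtain ⟨t₀, ht0, ht1, H⟩ := pj_law_rad_hor A d ε hA hd hd1 hε
  refine ⟨t₀, ht0, ht1, fun κ₀ hκ => ?_⟩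
  obtain ⟨η, hη, n₁, H⟩ := H κ₀ hκ
  refine ⟨η, hη, n₁, fun n hn Ω ζ _ P Zs a b hiid hba _ hgood hstrip => ⟨H n hn Ω ζ P Zs a b hiid hba hgood hstrip, ?_⟩⟩
  have h1 := H n hn Ω ζ P Zs (fun ω => (a ω).swap) (fun ω => (b ω).swap) (pj_law_sw_iid P Zs a b hiid) (pj_law_sw_bd A a hba)
    (by simp only [pj_law_sw_goodQ]; exact hgood) (pj_law_sw_strip P Zs a _ _ hstrip)
  simp only [pj_law_sw_goodD] at h1
  exact h1

end Claimed.Agent.R256
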