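import Claimed.Agent.R256.Prj.Defs
import Claimed.Agent.R256.Inc.CoreA

/-!
# Row 256, Prj, unit SCORE: sub-law bounds  ⟹  pointwise scores under the FULL law.      (chief helper186)
Paper free; only `R255/Base/Law.lean`, `R255/Ent/*` (`ent_*` lemmas on `pr`, `fib`, `surC`), `R256/Inc/Defs.lean`, `Inc/CoreA.lean` (`ic_cell_*`).   Exits X9 of `Prj/Contract.lean`.

## LEAF L-256-PRJ-SCORE0  (`pj_u_score0`, ~150 lines)
Write `c ω = (icS t k ω, D ω)`, `full ω = P.fib (pair (icS t k) D) ω`, `em ω = P.pr (fun ω' => E ω' ∧ icS t k ω' = icS t k ω ∧ D ω' = D ω)`.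
(1) For fixed `k`:  `P.pr (fun ω => E ω ∧ em ω < l * full ω) ≤ l`.   [general fact `pj_aux_sparse` below with the name `Y = pair (icS t k) D`: sum over the classes of `Y`:
    `∑_{classes with em < l full} em ≤ l ∑ full ≤ l`.  In Lean: `P.pr (E ∧ em < l full) = ∑ ω, P.p ω 1[..]`; compare with `∑ ω, P.p ω * (l * 1[..] ...)`; the cleanest way is `Finset.sum_fiberwise` over `univ.image Y`.]
(2) If `E ω`, `P.p ω ≠ 0` and `l * full ω ≤ em ω`: two points of one cell of level `k` are at distance `≤ (1/2)^k` (`ic_cell_dist`), so `em ω ≤ P.pr (E ∧ D = D ω ∧ |t - t ω| ≤ (1/2)^k) ≤ C ((1/2)^k)^u P.fib D ω`;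
    hence `full ω / P.fib D ω ≤ (C / l) 2^(-u k)` and `surC = - log (full / fib D) ≥ u k log 2 - log (C / l)`.
(3) union bound over `k ≤ n`.
## LEAF L-256-PRJ-SCORE  (`pj_u_score`, ~250 lines)
The same with two exceptional sets per level:  (a) narrow cells, level `k'`: `em' ω < l * full' ω`  (mass `≤ l`, `pj_aux_sparse`);
(b) wide cells, level `k`: `full ω < l * three ω`, `three ω = P.pr (fun ω' => D ω' = D ω ∧ |icS t k ω' - icS t k ω| ≤ 1)` (the cell and its two neighbours): mass `≤ 3 l`  (each class is counted in at most three `three`'s).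
Off these sets, for `k ≤ k' ≤ n` (cells are nested, `ic_cell_nest`: `fib (pair (icS t k') (pair (icS t k) D)) = fib (pair (icS t k') D)`):
`full' ≤ em' / l ≤ (1/l) P.pr (E ∧ D ∧ |t - tω| ≤ (1/2)^k') ≤ (C/l) r^u P.pr (D ∧ |t - tω| ≤ (1/2)^k) ≤ (C/l) r^u three ≤ (C/l²) r^u full`,  `r = (1/2)^(k'-k)`;   `|t - tω| ≤ (1/2)^k` implies that the cells differ by at most one.
-/

set_option autoImplicit false

namespace Claimed.Agent.R256

open Finset Classical
open Claimed.Agent.R255 Claimed.Agent.R255.FLaw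

/-- the points of `E` whose `Y`-class is mostly outside `E` have small mass -/
theorem pj_aux_sparse {Ω β : Type} [Fintype Ω] (P : FLaw Ω) (Y : Ω → β) (E : Ω → Prop) (l : ℝ) (hl : 0 ≤ l) :
    P.pr (fun ω => E ω ∧ P.pr (fun ω' => E ω' ∧ Y ω' = Y ω) < l * P.fib Y ω) ≤ l := by
  rw [ent_pr_sum_values P _ Y (Finset.univ.image Y) (fun ω _ _ => Finset.mem_image_of_mem Y (Finset.mem_univ ω))]
  have h1 : ∀ y ∈ Finset.univ.image Y,
      P.pr (fun ω => (E ω ∧ P.pr (fun ω' => E ω' ∧ Y ω' = Y ω) < l * P.fib Y ω) ∧ Y ω = y) ≤ l * P.pr (fun ω => Y ω = y) := by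
    intro y _
    by_cases hex : ∃ ω, (E ω ∧ P.pr (fun ω' => E ω' ∧ Y ω' = Y ω) < l * P.fib Y ω) ∧ Y ω = y
    · obtain ⟨ω, ⟨_, hlt⟩, rfl⟩ := hex
      refine le_trans (ent_pr_mono P fun ω' _ h => ?_) hlt.le
      exact ⟨h.1.1, h.2⟩
    · rw [ent_pr_eq_zero P fun ω _ h => hex ⟨ω, h⟩]
      exact mul_nonneg hl (ent_pr_nonneg P _)
  refine (Finset.sum_le_sum h1).trans ?_
  rw [← Finset.mul_sum]
  calc l * ∑ y ∈ Finset.univ.image Y, P.pr (fun ω => Y ω = y) ≤ l * 1 :=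
        mul_le_mul_of_nonneg_left (ent_aux_sum_pr_le P Y _) hl
    _ = l := mul_one l

theorem pj_u_score0 {Ω δ : Type} [Fintype Ω] (P : FLaw Ω) (D : Ω → δ) (t : Ω → ℝ) (E : Ω → Prop) (C u l : ℝ) (n : ℕ)
    (hC : 0 < C) (hl : 0 < l)
    (h : ∀ ω, E ω → ∀ k : ℕ, k ≤ n →
      P.pr (fun ω' => E ω' ∧ D ω' = D ω ∧ |t ω' - t ω| ≤ (1 / 2 : ℝ) ^ k)
        ≤ C * ((1 / 2 : ℝ) ^ k) ^ u * P.pr (fun ω' => D ω' = D ω)) :
    P.pr (fun ω => E ω ∧ ∃ k : ℕ, k ≤ n ∧ P.surC (icS t k) D ω < u * k * Real.log 2 - Real.log (C / l))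
      ≤ (n + 1) * l := by
  have h1 : P.pr (fun ω => E ω ∧ ∃ k : ℕ, k ≤ n ∧ P.surC (icS t k) D ω < u * k * Real.log 2 - Real.log (C / l))
      ≤ P.pr (fun ω => ∃ k ∈ Finset.range (n + 1), E ω ∧
        P.pr (fun ω' => E ω' ∧ pair (icS t k) D ω' = pair (icS t k) D ω) < l * P.fib (pair (icS t k) D) ω) := by
    refine ent_pr_mono P fun ω hω hb => ?_
    obtain ⟨hE, k, hk, hs⟩ := hb
    refine ⟨k, Finset.mem_range.2 (Nat.lt_succ_of_le hk), hE, ?_⟩
    by_contra hge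
    push Not at hge
    have hf := ent_fib_pos P (pair (icS t k) D) hω
    have hD := ent_fib_pos P D hω
    have e1 : P.pr (fun ω' => E ω' ∧ pair (icS t k) D ω' = pair (icS t k) D ω)
        ≤ P.pr (fun ω' => E ω' ∧ D ω' = D ω ∧ |t ω' - t ω| ≤ (1 / 2 : ℝ) ^ k) := by
      refine ent_pr_mono P fun ω' _ hh => ⟨hh.1, congrArg Prod.snd hh.2, ?_⟩
      have h3 : icCell k (t ω') = icCell k (t ω) := congrArg Prod.fst hh.2
      have := ic_cell_dist h3
      rwa [one_div_pow]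
    have e2 := h ω hE k hk
    have hpw : 0 < ((1 / 2 : ℝ) ^ k) ^ u := Real.rpow_pos_of_pos (by positivity) u
    have e3 : P.fib (pair (icS t k) D) ω / P.fib D ω ≤ C / l * ((1 / 2 : ℝ) ^ k) ^ u := by
      rw [div_le_iff₀ hD]
      have e4 : l * P.fib (pair (icS t k) D) ω ≤ C * ((1 / 2 : ℝ) ^ k) ^ u * P.fib D ω := hge.trans (e1.trans e2)
      calc P.fib (pair (icS t k) D) ω = l * P.fib (pair (icS t k) D) ω / l := by field_simp
        _ ≤ C * ((1 / 2 : ℝ) ^ k) ^ u * P.fib D ω / l := div_le_div_of_nonneg_right e4 hl.le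
        _ = C / l * ((1 / 2 : ℝ) ^ k) ^ u * P.fib D ω := by ring
    have e5 := Real.log_le_log (div_pos hf hD) e3
    rw [Real.log_mul (div_pos hC hl).ne' hpw.ne', Real.log_rpow (by positivity), Real.log_pow, one_div, Real.log_inv] at e5
    unfold FLaw.surC at hs
    nlinarith
  refine h1.trans ((ent_pr_exists_le P _ _).trans ?_)
  have h2 : ∑ k ∈ Finset.range (n + 1), P.pr (fun ω => E ω ∧
      P.pr (fun ω' => E ω' ∧ pair (icS t k) D ω' = pair (icS t k) D ω) < l * P.fib (pair (icS t k) D) ω)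
      ≤ ∑ _k ∈ Finset.range (n + 1), l := Finset.sum_le_sum fun k _ => pj_aux_sparse P (pair (icS t k) D) E l hl.le
  rw [Finset.sum_const, Finset.card_range, nsmul_eq_mul] at h2
  push_cast at h2
  exact h2

/-- the points whose cell is light in the union of the cell and its two neighbours have small mass -/
theorem pj_aux_three {Ω δ : Type} [Fintype Ω] (P : FLaw Ω) (c : Ω → ℤ) (D : Ω → δ) (l : ℝ) (hl : 0 ≤ l) :
    P.pr (fun ω => P.fib (pair c D) ω < l * P.pr (fun ω' => D ω' = D ω ∧ |c ω' - c ω| ≤ 1)) ≤ 3 * l := by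
  obtain ⟨g, hg⟩ : ∃ g : ℤ → ℤ × δ → ℝ, g = fun e y => P.pr (fun ω => pair c D ω = (y.1 + e, y.2)) := ⟨_, rfl⟩
  have hg0 : ∀ e y, 0 ≤ g e y := fun e y => by rw [hg]; exact ent_pr_nonneg P _
  have hthree : ∀ ω, P.pr (fun ω' => D ω' = D ω ∧ |c ω' - c ω| ≤ 1)
      ≤ g (-1) (pair c D ω) + g 0 (pair c D ω) + g 1 (pair c D ω) := by
    intro ω
    have a1 : P.pr (fun ω' => D ω' = D ω ∧ |c ω' - c ω| ≤ 1)
        ≤ P.pr (fun ω' => (pair c D ω' = (c ω + -1, D ω) ∨ pair c D ω' = (c ω + 0, D ω)) ∨ pair c D ω' = (c ω + 1, D ω)) := by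
      refine ent_pr_mono P fun ω' _ hh => ?_
      obtain ⟨hD, hc⟩ := hh
      rw [abs_le] at hc
      simp only [FLaw.pair, Prod.mk.injEq]
      have : c ω' = c ω + -1 ∨ c ω' = c ω + 0 ∨ c ω' = c ω + 1 := by omega
      rcases this with h1 | h1 | h1
      · exact Or.inl (Or.inl ⟨h1, hD⟩)
      · exact Or.inl (Or.inr ⟨h1, hD⟩)
      · exact Or.inr ⟨h1, hD⟩
    have a2 := ent_pr_or_le P (fun ω' => pair c D ω' = (c ω + -1, D ω) ∨ pair c D ω' = (c ω + 0, D ω))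
      (fun ω' => pair c D ω' = (c ω + 1, D ω))
    have a3 := ent_pr_or_le P (fun ω' => pair c D ω' = (c ω + -1, D ω)) (fun ω' => pair c D ω' = (c ω + 0, D ω))
    rw [hg]
    exact a1.trans (a2.trans (add_le_add a3 le_rfl))
  rw [ent_pr_sum_values P _ (pair c D) (Finset.univ.image (pair c D))
    (fun ω _ _ => Finset.mem_image_of_mem _ (Finset.mem_univ ω))]
  have h1 : ∀ y ∈ Finset.univ.image (pair c D),
      P.pr (fun ω => P.fib (pair c D) ω < l * P.pr (fun ω' => D ω' = D ω ∧ |c ω' - c ω| ≤ 1) ∧ pair c D ω = y)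
        ≤ l * (g (-1) y + g 0 y + g 1 y) := by
    intro y _
    by_cases hex : ∃ ω, P.fib (pair c D) ω < l * P.pr (fun ω' => D ω' = D ω ∧ |c ω' - c ω| ≤ 1) ∧ pair c D ω = y
    · obtain ⟨ω, hlt, rfl⟩ := hex
      refine le_trans (ent_pr_mono P fun ω' _ h => h.2) (hlt.le.trans ?_)
      exact mul_le_mul_of_nonneg_left (hthree ω) hl
    · rw [ent_pr_eq_zero P fun ω _ h => hex ⟨ω, h⟩]
      exact mul_nonneg hl (add_nonneg (add_nonneg (hg0 _ _) (hg0 _ _)) (hg0 _ _))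
  refine (Finset.sum_le_sum h1).trans ?_
  have h2 : ∀ e : ℤ, ∑ y ∈ Finset.univ.image (pair c D), g e y ≤ 1 := by
    intro e
    have hinj : Set.InjOn (fun y : ℤ × δ => (y.1 + e, y.2)) (Finset.univ.image (pair c D) : Finset (ℤ × δ)) := by
      intro y _ y' _ hyy
      simp only [Prod.mk.injEq] at hyy
      exact Prod.ext (by omega) hyy.2
    have e1 : ∑ y ∈ Finset.univ.image (pair c D), g e y
        = ∑ y' ∈ (Finset.univ.image (pair c D)).image (fun y : ℤ × δ => (y.1 + e, y.2)), P.pr (fun ω => pair c D ω = y') := by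
      rw [Finset.sum_image hinj, hg]
    rw [e1]
    exact ent_aux_sum_pr_le P (pair c D) _
  rw [← Finset.mul_sum, Finset.sum_add_distrib, Finset.sum_add_distrib]
  have := h2 (-1)
  have := h2 0
  have := h2 1
  nlinarith

theorem pj_u_score {Ω δ : Type} [Fintype Ω] (P : FLaw Ω) (D : Ω → δ) (t : Ω → ℝ) (E : Ω → Prop) (C u l : ℝ) (n : ℕ)
    (hC : 0 < C) (hl : 0 < l)
    (h : ∀ ω, E ω → ∀ k k' : ℕ, k ≤ k' → k' ≤ n →
      P.pr (fun ω' => E ω' ∧ D ω' = D ω ∧ |t ω' - t ω| ≤ (1 / 2 : ℝ) ^ k')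
        ≤ C * ((1 / 2 : ℝ) ^ (k' - k)) ^ u * P.pr (fun ω' => D ω' = D ω ∧ |t ω' - t ω| ≤ (1 / 2 : ℝ) ^ k)) :
    P.pr (fun ω => E ω ∧ ∃ k k' : ℕ, k ≤ k' ∧ k' ≤ n ∧
        P.surC (icS t k') (pair (icS t k) D) ω < u * ((k' : ℝ) - k) * Real.log 2 - Real.log (C / l ^ 2))
      ≤ 4 * (n + 1) * l := by
  have h1 : P.pr (fun ω => E ω ∧ ∃ k k' : ℕ, k ≤ k' ∧ k' ≤ n ∧
        P.surC (icS t k') (pair (icS t k) D) ω < u * ((k' : ℝ) - k) * Real.log 2 - Real.log (C / l ^ 2))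
      ≤ P.pr (fun ω => (∃ j ∈ Finset.range (n + 1), E ω ∧
          P.pr (fun ω' => E ω' ∧ pair (icS t j) D ω' = pair (icS t j) D ω) < l * P.fib (pair (icS t j) D) ω) ∨
        ∃ j ∈ Finset.range (n + 1), P.fib (pair (icS t j) D) ω
          < l * P.pr (fun ω' => D ω' = D ω ∧ |icS t j ω' - icS t j ω| ≤ 1)) := by
    refine ent_pr_mono P fun ω hω hb => ?_
    obtain ⟨hE, k, k', hkk, hk, hs⟩ := hb
    by_contra hno
    push Not at hno
    obtain ⟨na, nb⟩ := hno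
    have ga := na k' (Finset.mem_range.2 (Nat.lt_succ_of_le hk)) hE
    have gb := nb k (Finset.mem_range.2 (Nat.lt_succ_of_le (hkk.trans hk)))
    have hf' := ent_fib_pos P (pair (icS t k') D) hω
    have hf := ent_fib_pos P (pair (icS t k) D) hω
    have e1 : P.pr (fun ω' => E ω' ∧ pair (icS t k') D ω' = pair (icS t k') D ω)
        ≤ P.pr (fun ω' => E ω' ∧ D ω' = D ω ∧ |t ω' - t ω| ≤ (1 / 2 : ℝ) ^ k') := by
      refine ent_pr_mono P fun ω' _ hh => ⟨hh.1, congrArg Prod.snd hh.2, ?_⟩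
      have h3 : icCell k' (t ω') = icCell k' (t ω) := congrArg Prod.fst hh.2
      have := ic_cell_dist h3
      rwa [one_div_pow]
    have e2 := h ω hE k k' hkk hk
    have e3 : P.pr (fun ω' => D ω' = D ω ∧ |t ω' - t ω| ≤ (1 / 2 : ℝ) ^ k)
        ≤ P.pr (fun ω' => D ω' = D ω ∧ |icS t k ω' - icS t k ω| ≤ 1) := by
      refine ent_pr_mono P fun ω' _ hh => ⟨hh.1, ?_⟩
      have h4 : |t ω' - t ω| ≤ ((1 : ℕ) : ℝ) / 2 ^ k := by
        have := hh.2
        rwa [one_div_pow, ← Nat.cast_one (R := ℝ)] at this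
      have := ic_cell_near 1 h4
      exact_mod_cast this
    have hpw : 0 < ((1 / 2 : ℝ) ^ (k' - k)) ^ u := Real.rpow_pos_of_pos (by positivity) u
    have hCr : 0 ≤ C * ((1 / 2 : ℝ) ^ (k' - k)) ^ u := (mul_pos hC hpw).le
    -- chain of inequalities
    have c1 : l * P.fib (pair (icS t k') D) ω
        ≤ C * ((1 / 2 : ℝ) ^ (k' - k)) ^ u * P.pr (fun ω' => D ω' = D ω ∧ |icS t k ω' - icS t k ω| ≤ 1) :=
      ga.trans (e1.trans (e2.trans (mul_le_mul_of_nonneg_left e3 hCr)))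
    have c2 : l * (l * P.fib (pair (icS t k') D) ω) ≤ C * ((1 / 2 : ℝ) ^ (k' - k)) ^ u * P.fib (pair (icS t k) D) ω := by
      calc l * (l * P.fib (pair (icS t k') D) ω)
          ≤ l * (C * ((1 / 2 : ℝ) ^ (k' - k)) ^ u * P.pr (fun ω' => D ω' = D ω ∧ |icS t k ω' - icS t k ω| ≤ 1)) :=
            mul_le_mul_of_nonneg_left c1 hl.le
        _ = C * ((1 / 2 : ℝ) ^ (k' - k)) ^ u * (l * P.pr (fun ω' => D ω' = D ω ∧ |icS t k ω' - icS t k ω| ≤ 1)) := by ring
        _ ≤ C * ((1 / 2 : ℝ) ^ (k' - k)) ^ u * P.fib (pair (icS t k) D) ω := mul_le_mul_of_nonneg_left gb hCr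
    have c3 : P.fib (pair (icS t k') D) ω / P.fib (pair (icS t k) D) ω ≤ C / l ^ 2 * ((1 / 2 : ℝ) ^ (k' - k)) ^ u := by
      rw [div_le_iff₀ hf]
      calc P.fib (pair (icS t k') D) ω = l * (l * P.fib (pair (icS t k') D) ω) / l ^ 2 := by field_simp
        _ ≤ C * ((1 / 2 : ℝ) ^ (k' - k)) ^ u * P.fib (pair (icS t k) D) ω / l ^ 2 :=
            div_le_div_of_nonneg_right c2 (by positivity)
        _ = C / l ^ 2 * ((1 / 2 : ℝ) ^ (k' - k)) ^ u * P.fib (pair (icS t k) D) ω := by ring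
    have enest : P.fib (pair (icS t k') (pair (icS t k) D)) ω = P.fib (pair (icS t k') D) ω := by
      refine ent_pr_congr P fun ω' _ => ?_
      simp only [FLaw.pair, Prod.mk.injEq]
      exact ⟨fun hh => ⟨hh.1, hh.2.2⟩, fun hh => ⟨hh.1, ic_cell_nest hkk hh.1, hh.2⟩⟩
    have e5 := Real.log_le_log (div_pos hf' hf) c3
    rw [Real.log_mul (div_pos hC (by positivity)).ne' hpw.ne', Real.log_rpow (by positivity), Real.log_pow, one_div,
      Real.log_inv, Nat.cast_sub hkk] at e5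
    unfold FLaw.surC at hs
    rw [enest] at hs
    nlinarith
  refine h1.trans ((ent_pr_or_le P _ _).trans ?_)
  have h2 : P.pr (fun ω => ∃ j ∈ Finset.range (n + 1), E ω ∧
      P.pr (fun ω' => E ω' ∧ pair (icS t j) D ω' = pair (icS t j) D ω) < l * P.fib (pair (icS t j) D) ω) ≤ (n + 1) * l := by
    refine (ent_pr_exists_le P _ _).trans ?_
    have h3 : ∑ k ∈ Finset.range (n + 1), P.pr (fun ω => E ω ∧
        P.pr (fun ω' => E ω' ∧ pair (icS t k) D ω' = pair (icS t k) D ω) < l * P.fib (pair (icS t k) D) ω)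
        ≤ ∑ _k ∈ Finset.range (n + 1), l := Finset.sum_le_sum fun k _ => pj_aux_sparse P (pair (icS t k) D) E l hl.le
    rw [Finset.sum_const, Finset.card_range, nsmul_eq_mul] at h3
    push_cast at h3
    exact h3
  have h4 : P.pr (fun ω => ∃ j ∈ Finset.range (n + 1), P.fib (pair (icS t j) D) ω
      < l * P.pr (fun ω' => D ω' = D ω ∧ |icS t j ω' - icS t j ω| ≤ 1)) ≤ (n + 1) * (3 * l) := by
    refine (ent_pr_exists_le P _ _).trans ?_
    have h3 : ∑ k ∈ Finset.range (n + 1), P.pr (fun ω => P.fib (pair (icS t k) D) ω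
        < l * P.pr (fun ω' => D ω' = D ω ∧ |icS t k ω' - icS t k ω| ≤ 1))
        ≤ ∑ _k ∈ Finset.range (n + 1), 3 * l := Finset.sum_le_sum fun k _ => pj_aux_three P (icS t k) D l hl.le
    rw [Finset.sum_const, Finset.card_range, nsmul_eq_mul] at h3
    push_cast at h3
    exact h3
  linarith

end Claimed.Agent.R256
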