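import Claimed.Agent.R256.Prj.Defs
import Claimed.Agent.R256.Prj.CoreK
import Claimed.Agent.R256.Prj.Score
import Claimed.Agent.R256.Prj.Kl
import Claimed.Agent.R256.Prj.RadHer
import Claimed.Agent.R256.Prj.Pin
import Claimed.Agent.R256.Prj.LawRad
import Claimed.Agent.R256.Prj.LawPin
import Claimed.Agent.R256.Prj.LawPar

/-!
# Row 256, folder Prj = 04-canonical-names.tex l.1341-2202 (projection rule, radial spreading, parent-centred directions, pin products).   CONTRACT      (chief helper186, deputy helper288; prefix `pj_`)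

Sources: reports 861, 886 (line by line reading, no gap), 907 + my answer.   Vocabulary: `Prj/Defs.lean`, `Prj/PinDefs.lean`, `R256/Inc/Defs.lean` (157), `R255/Rate/RpDefs.lean`, `R255/Base/Law.lean`.

## ENTRY: NOTHING.
Prj is MODEL-FREE and PAPER-FREE: no operator, no gate, no tangent datum.  Every exit is an unconditional theorem about finite populations / finite laws; its hypotheses are written in the statement.
What the consumer (Int) must bring, per use, from `Tan.Adm` / `Tan.Avoid`:  (i) two records conditionally i.i.d. given the side (`PjIid`; the side may contain held records and, under a comparison law, auxiliary names);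
(ii) the hereditary joint mark score `pr {¬ PjGoodH P (icQ a) Zs d η n} ≤ η` (names:mark-dimension; `2^-n = δ^t`, `t` = length of the layer; on a mesh + `fp_mesh`-interpolation);
(iii) for pin products the same for the time coordinate `icX a`;   (iv) for radial spreading ONE width: `PjNoStrip P Zs a (2^-(t₀ n)) (2^-(κ₀ n))` (names:separation, `κ₀ = e₀ t₀ / 2`).

## EXIT   (the paper's statement -> its finite form)
 X1 `pj_coreK`   [PROVED, `Prj/CoreK.lean`, 288]  projection rule at `S = b = d` (Kaufman): 04 l.2170, 05 l.844, l.1098.   Door to `RW.ex_K` in the dress of `ic_coreF`.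
 X2 (regular boost, Lemma int:boost, `x ≥ min(1, d + M)`): NOT here: `fp_main` (R256/Fp, 38+243) or `rps_main` (R256/Rps, 149).   Prj supplies its hypothesis (F2) `FpHyp.slope` for the three kinds of slopes:
      time marks (the consumer has it), joining directions (X4), pin products (X6); `pj_goodH_window` + `ltk_lp` turn `PjGoodH` into `FpHyp.slope`.
 X3 `pj_mi_le_kl`   last display of Lemma names:parent-direction-transfer: `I_P(X;W|D) ≤ KL(P‖R)` if `X`, `W` are conditionally independent given `D` under `R`.   The likelihood transfer of scores `R -> P` is `lay_law_sur` (Lay, 189).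
 X4 `pj_rad_law`    (rad), last sentence of Prop names:radial-dichotomy ("avoidance => e_* ≥ d") = "radial spreading" of Def int:data, in HEREDITARY score form, given the side and the held pin.
 X5 `pj_par_law`    first half of Lemma names:parent-direction-transfer: directions from the corner of the parent cell of the moving mark `b` to the pin `a`, given the side and that parent.  No factor `1/μ(K)`.
 X6 `pj_pin_law`    Prop names:radial-pin-product + Lemma names:radial-low-product: for a typical separated pair there is a scale `n / 2^k`, `k ≤ N`, down to which the pin product is hereditarily Frostman `d - ε`.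
                    (`k` = first fat scale of the joining tube; the consumer pigeonholes `k` and tiles its layer by sublayers of length `t / 2^k`: report 859 WARNING.)
 Population level (for consumers who want graphs):  X7 `pj_rad_her`,  X8 `pj_pin`;  on main already: `R255.rp_stage_top`, `R255.rp_main`, `R255.rp_tags_frost`, `pj_stage_top` (`Prj/PinRel.lean`).
 Tools: X9 `pj_score`, `pj_score0` (sub-law bounds => pointwise scores under the FULL law; this is why no exit conditions on a witness class).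
All failure probabilities are CONSTANTS `ε` (as in `Tan.Adm`), all graph losses are powers `ρ^c`; order of constants: exponents, `ε` -> `t₀` -> `κ₀` -> `η`, `n₁`.

## STATE 22:10Z: CLOSED.  Every exit X1, X3-X9 is PROVED; `#print axioms` of all ten theorems = the three standard ones; the folder has no open leaf.
 Authors: CoreK, Pop, LawKit, LawRad, LawPin, LawThin, LawParA, LawPar (288), Score, Kl, Pop leaves (170, 265), PinLowH (138), the rest (186).
-/

set_option autoImplicit false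

namespace Claimed.Agent.R256

open Finset Classical
open Claimed.Agent.R255 Claimed.Agent.R255.FLaw

/-! ### Tools -/

/-- a window of a hereditary point is a Frostman point: the format of `FpHyp.slope` (before `ltk_lp`) -/
theorem pj_goodH_window {Ω α δ : Type} [Fintype Ω] (P : FLaw Ω) (X : ℕ → Ω → α) (D : Ω → δ) {e η : ℝ} {N n : ℕ} {ω : Ω}
    (h : PjGoodH P X D e η (N * n) ω) (k : ℕ) (hk : k < N) :
    IcGood P (fun j => X (k * n + j)) (pair (X (k * n)) D) e (η * N) n ω := by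
  intro j hj
  have h1 : k * n + j ≤ N * n := by
    calc k * n + j ≤ k * n + n := by omega
      _ = (k + 1) * n := by ring
      _ ≤ N * n := Nat.mul_le_mul_right n hk
  have h2 := h (k * n) (k * n + j) (by omega) h1
  have e1 : (e * (((k * n + j : ℕ) : ℝ) - ((k * n : ℕ) : ℝ)) - η * ((N * n : ℕ) : ℝ)) = e * j - η * N * n := by
    push_cast; ring
  rw [e1] at h2
  exact h2

/-- **X9 (SCORE).**  A hereditary bound for the SUB-law on an event `E` gives pointwise hereditary scores under the FULL law, on `E`, off probability `4 (n+1) l`. -/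
theorem pj_score {Ω δ : Type} [Fintype Ω] (P : FLaw Ω) (D : Ω → δ) (t : Ω → ℝ) (E : Ω → Prop) (C u l : ℝ) (n : ℕ)
    (hC : 0 < C) (hl : 0 < l)
    (h : ∀ ω, E ω → ∀ k k' : ℕ, k ≤ k' → k' ≤ n →
      P.pr (fun ω' => E ω' ∧ D ω' = D ω ∧ |t ω' - t ω| ≤ (1 / 2 : ℝ) ^ k')
        ≤ C * ((1 / 2 : ℝ) ^ (k' - k)) ^ u * P.pr (fun ω' => D ω' = D ω ∧ |t ω' - t ω| ≤ (1 / 2 : ℝ) ^ k)) :
    P.pr (fun ω => E ω ∧ ∃ k k' : ℕ, k ≤ k' ∧ k' ≤ n ∧
        P.surC (icS t k') (pair (icS t k) D) ω < u * ((k' : ℝ) - k) * Real.log 2 - Real.log (C / l ^ 2))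
      ≤ 4 * (n + 1) * l := by
  exact pj_u_score P D t E C u l n hC hl h

/-- **X9, root form.** -/
theorem pj_score0 {Ω δ : Type} [Fintype Ω] (P : FLaw Ω) (D : Ω → δ) (t : Ω → ℝ) (E : Ω → Prop) (C u l : ℝ) (n : ℕ)
    (hC : 0 < C) (hl : 0 < l)
    (h : ∀ ω, E ω → ∀ k : ℕ, k ≤ n →
      P.pr (fun ω' => E ω' ∧ D ω' = D ω ∧ |t ω' - t ω| ≤ (1 / 2 : ℝ) ^ k)
        ≤ C * ((1 / 2 : ℝ) ^ k) ^ u * P.pr (fun ω' => D ω' = D ω)) :
    P.pr (fun ω => E ω ∧ ∃ k : ℕ, k ≤ n ∧ P.surC (icS t k) D ω < u * k * Real.log 2 - Real.log (C / l))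
      ≤ (n + 1) * l := by
  exact pj_u_score0 P D t E C u l n hC hl h

/-- **X3.**  Information under `P` is bounded by the relative entropy to a law under which the two names are conditionally independent. -/
theorem pj_mi_le_kl {Ω α β δ : Type} [Fintype Ω] (P R : FLaw Ω) (hac : ∀ ω, R.p ω = 0 → P.p ω = 0)
    (X : Ω → α) (W : Ω → β) (D : Ω → δ)
    (hci : ∀ ω, R.fib (pair (pair X W) D) ω * R.fib D ω = R.fib (pair X D) ω * R.fib (pair W D) ω) :
    P.miC X W D ≤ P.kl R := by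
  exact pj_u_mi_le_kl P R hac X W D hci

/-! ### Population level -/

/-- **X7.**  No heavy strip + hereditary Frostman `s` on the dyadic tree  ⟹  all horizontal pairs off a set of mass `ρ^c` have HEREDITARILY thin cones of exponent `s - τ`. -/
theorem pj_rad_her (A s τ χ : ℝ) (hA : 1 ≤ A) (hs : 0 < s) (hs1 : s ≤ 1) (hτ : 0 < τ) (hχ : 0 < χ) :
    ∃ t₀ : ℝ, 0 < t₀ ∧ t₀ ≤ 1 ∧ ∀ κ₀ : ℝ, 0 < κ₀ → ∃ c η ρ₁ : ℝ, 0 < c ∧ 0 < η ∧ 0 < ρ₁ ∧
      ∀ ρ : ℝ, 0 < ρ → ρ < ρ₁ → ∀ (ι : Type) [Fintype ι] (lam : ι → ℝ) (pos : ι → ℝ × ℝ),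
        RpPop lam pos A → RtTreeHer lam pos (ρ ^ (-η)) s ρ → RtNoStrip lam pos (ρ ^ t₀) (ρ ^ κ₀) →
        ∃ 𝒢 : ι → ι → Prop, RpGr pos 𝒢 (ρ ^ χ) ∧ pjMiss lam (RpHor pos) 𝒢 ≤ ρ ^ c ∧
          PjHrd lam (rpSl pos) (RpHor pos) 𝒢 (ρ ^ (-χ)) (s - τ) ρ := by
  exact pj_u_rad_her A s τ χ hA hs hs1 hτ hχ

/-- **X8.**  Pin products.  Every `Δ^η`-separated pair, off a set of mass `Δ^c`, lies in one of the graphs `Hi false`, `Hi true` (horizontal / vertical lean pairs: hereditary down to `Δ`)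
or `Lo k`, `k ≤ N` (joining tube fat at the scale `Δ^(2^-k)`: hereditary down to that scale). -/
theorem pj_pin (A d ε : ℝ) (hA : 1 ≤ A) (hd : 0 < d) (hd1 : d ≤ 1) (hε : 0 < ε) :
    ∃ η c : ℝ, 0 < η ∧ 0 < c ∧ ∃ N : ℕ, ∃ Δ₀ : ℝ, 0 < Δ₀ ∧
      ∀ Δ : ℝ, 0 < Δ → Δ < Δ₀ → ∀ (ι : Type) [Fintype ι] (lam : ι → ℝ) (pos : ι → ℝ × ℝ),
        RpPop lam pos A → RtTreeHer lam pos (Δ ^ (-η)) d Δ → PjTree1 lam (fun i => (pos i).1) (Δ ^ (-η)) d Δ →
        ∃ (Hi : Bool → ι → ι → Prop) (Lo : ℕ → ι → ι → Prop),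
          pjMiss lam (PjSep pos (Δ ^ η)) (fun i j => (∃ v, Hi v i j) ∨ ∃ k ≤ N, Lo k i j) ≤ Δ ^ c ∧
          (∀ v, PjHrd lam (pjF pos) (fun _ _ => True) (Hi v) (Δ ^ (-ε)) (d - ε) Δ) ∧
          ∀ k ≤ N, PjHrd lam (pjF pos) (fun _ _ => True) (Lo k)
            ((Δ ^ ((1 / 2 : ℝ) ^ k)) ^ (-ε)) (d - ε) (Δ ^ ((1 / 2 : ℝ) ^ k)) := by
  exact pj_u_pin A d ε hA hd hd1 hε

/-! ### Law level -/

/-- **X4.  Radial spreading** (hereditary score form, both charts). -/
theorem pj_rad_law (A d ε : ℝ) (hA : 1 ≤ A) (hd : 0 < d) (hd1 : d ≤ 1) (hε : 0 < ε) :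
    ∃ t₀ : ℝ, 0 < t₀ ∧ t₀ ≤ 1 ∧ ∀ κ₀ : ℝ, 0 < κ₀ → ∃ η : ℝ, 0 < η ∧ ∃ n₁ : ℕ, ∀ n : ℕ, n₁ ≤ n →
      ∀ (Ω ζ : Type) [Fintype Ω] (P : FLaw Ω) (Zs : Ω → ζ) (a b : Ω → ℝ × ℝ),
        PjIid P Zs a b → PjBd A a → PjBd A b →
        P.pr (fun ω => ¬ PjGoodH P (icQ a) Zs d η n ω) ≤ η →
        PjNoStrip P Zs a ((2 : ℝ) ^ (-(t₀ * n))) ((2 : ℝ) ^ (-(κ₀ * n))) →
        P.pr (fun ω => PjHorP (a ω) (b ω) ∧
          ¬ PjGoodH P (icS (fun ω => pjDir (a ω) (b ω))) (pair Zs a) (d - ε) ε n ω) ≤ ε ∧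
        P.pr (fun ω => PjHorP (a ω).swap (b ω).swap ∧
          ¬ PjGoodH P (icS (fun ω => pjDir (a ω).swap (b ω).swap)) (pair Zs a) (d - ε) ε n ω) ≤ ε := by
  exact pj_u_rad_law A d ε hA hd hd1 hε

/-- **X5.  Parent-centred directions**: from the corner of the square of level `m ≥ 2 n` of the moving mark `b` to the pin `a`, given the side and that square (both charts). -/
theorem pj_par_law (A d ε : ℝ) (hA : 1 ≤ A) (hd : 0 < d) (hd1 : d ≤ 1) (hε : 0 < ε) :
    ∃ t₀ : ℝ, 0 < t₀ ∧ t₀ ≤ 1 ∧ ∀ κ₀ : ℝ, 0 < κ₀ → ∃ η : ℝ, 0 < η ∧ ∃ n₁ : ℕ, ∀ n : ℕ, n₁ ≤ n → ∀ m : ℕ, 2 * n ≤ m →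
      ∀ (Ω ζ : Type) [Fintype Ω] (P : FLaw Ω) (Zs : Ω → ζ) (a b : Ω → ℝ × ℝ),
        PjIid P Zs a b → PjBd A a → PjBd A b →
        P.pr (fun ω => ¬ PjGoodH P (icQ a) Zs d η n ω) ≤ η →
        PjNoStrip P Zs a ((2 : ℝ) ^ (-(t₀ * n))) ((2 : ℝ) ^ (-(κ₀ * n))) →
        P.pr (fun ω => PjHorP (pjCor m (b ω)) (a ω) ∧
          ¬ IcGood P (icS (fun ω => pjDir (pjCor m (b ω)) (a ω))) (pair Zs (icQ b m)) (d - ε) ε n ω) ≤ ε ∧
        P.pr (fun ω => PjHorP (pjCor m (b ω)).swap (a ω).swap ∧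
          ¬ IcGood P (icS (fun ω => pjDir (pjCor m (b ω)).swap (a ω).swap)) (pair Zs (icQ b m)) (d - ε) ε n ω) ≤ ε := by
  exact pj_u_par_law A d ε hA hd hd1 hε

/-- **X6.  Pin products**: a typical separated pair has a scale `n / 2^k`, `k ≤ N`, down to which `(θ_b - θ_a)(r_b - r_a)` is hereditarily Frostman `d - ε` given the side and the pin `a`. -/
theorem pj_pin_law (A d ε : ℝ) (hA : 1 ≤ A) (hd : 0 < d) (hd1 : d ≤ 1) (hε : 0 < ε) :
    ∃ η : ℝ, 0 < η ∧ ∃ N n₁ : ℕ, ∀ n : ℕ, n₁ ≤ n →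
      ∀ (Ω ζ : Type) [Fintype Ω] (P : FLaw Ω) (Zs : Ω → ζ) (a b : Ω → ℝ × ℝ),
        PjIid P Zs a b → PjBd A a → PjBd A b →
        P.pr (fun ω => ¬ PjGoodH P (icQ a) Zs d η n ω) ≤ η →
        P.pr (fun ω => ¬ PjGoodH P (icX a) Zs d η n ω) ≤ η →
        P.pr (fun ω => (2 : ℝ) ^ (-(η * n)) ≤ |(b ω).1 - (a ω).1| ∧ (2 : ℝ) ^ (-(η * n)) ≤ |(b ω).2 - (a ω).2| ∧
          ∀ k ≤ N, ¬ PjGoodH P (icS (fun ω => pjPin (a ω) (b ω))) (pair Zs a) (d - ε) ε (n / 2 ^ k) ω) ≤ ε := by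
  exact pj_u_pin_law A d ε hA hd hd1 hε

end Claimed.Agent.R256
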