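import Claimed.Agent.R256.Prj.PinRel
import Claimed.Agent.R256.Inc.Defs

/-!
# Row 256, folder Prj (04-canonical-names.tex l.1341-2202).  DEFINITIONS of the exits.      (chief helper186, deputy helper288; prefix `pj_`, types `Pj*`)

Two languages.
POPULATION level (`R255/Rate/RpDefs.lean`, `Prj/PinDefs.lean`): a finite weighted population `(lam, pos)` of marks in the plane, graphs `𝒢 : ι → ι → Prop`, readings `F : ι → ι → ℝ`.
* `PjHrd lam F 𝒢w 𝒢 C u ρ`   HEREDITARY thin readings: for `(i,j) ∈ 𝒢` and `ρ ≤ w' ≤ w ≤ 1` the `𝒢`-mass of `{j' : |F i j' - F i j| ≤ w'}` is `≤ C (w'/w)^u` times the `𝒢w`-mass of `{j' : |F i j' - F i j| ≤ w}`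
  (`𝒢w` = all horizontal pairs for slopes, all pairs for pin products; the smaller `𝒢w`, the stronger the statement).
* `PjTree1 lam x C s ρ`   hereditary Frostman condition of a scalar coordinate on the dyadic tree (the one dimensional `RtTreeHer`).
* `pjMiss lam 𝒢b 𝒢`       the `lam ⊗ lam`-mass of the pairs of `𝒢b` that are not in `𝒢`.
LAW level (`R255/Base/Law.lean`, `R256/Inc/Defs.lean`): a finite law `P`, a side `Zs`, two marks `a b : Ω → ℝ × ℝ`; names = dyadic cells `icCell k`; scores = `P.surC`, one bit = `Real.log 2`.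
* `PjIid P Zs a b`        the two marks are conditionally independent and identically distributed given the side.
* `PjGoodH P X D e η n ω` `ω` is a HEREDITARY Frostman point: `surC (X k') (X k, D) ≥ (e (k'-k) - η n) log 2` for all `k ≤ k' ≤ n`   (`IcGood` follows for nested names: `pj_good_of_goodH`).
* `pjDir x y`             the horizontal chart of the direction of the line through `x`, `y`: the slope `Δ₂/Δ₁ ∈ [-1,1]` of a horizontal pair (`PjHorP x y`), the dummy value `5` otherwise.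
                          Vertical chart: `pjDir x.swap y.swap`.
* `pjPin x y`             the pin product `(y.1 - x.1)(y.2 - x.2)`.      * `pjCor m y` the corner of the dyadic square of level `m` of `y`.
Definitions are FROZEN after the signatures of Int (196, 224, 230).  Defects -> helper186.
-/

set_option autoImplicit false

namespace Claimed.Agent.R256

open Finset Classical
open Claimed.Agent.R255 Claimed.Agent.R255.FLaw

section

variable {ι : Type} [Fintype ι]

/-- hereditary thin readings (narrow interval: `𝒢`-mass; wide interval: `𝒢w`-mass) -/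
def PjHrd (lam : ι → ℝ) (F : ι → ι → ℝ) (𝒢w 𝒢 : ι → ι → Prop) (C u ρ : ℝ) : Prop :=
  ∀ i j, 𝒢 i j → ∀ w' w : ℝ, ρ ≤ w' → w' ≤ w → w ≤ 1 →
    pjM lam F 𝒢 i j w' ≤ C * (w' / w) ^ u * pjM lam F 𝒢w i j w

/-- hereditary Frostman condition of a scalar coordinate on the dyadic tree, down to the scale `ρ` -/
def PjTree1 (lam : ι → ℝ) (x : ι → ℝ) (C s ρ : ℝ) : Prop :=
  ∀ (k k' : ℕ), k ≤ k' → ρ ≤ (1 / 2 : ℝ) ^ k' → ∀ i₀ : ι,
    ∑ i with icCell k' (x i) = icCell k' (x i₀), lam i ≤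
      C * ((1 / 2 : ℝ) ^ (k' - k)) ^ s * ∑ i with icCell k (x i) = icCell k (x i₀), lam i

/-- the mass of the pairs of `𝒢b` missed by `𝒢` -/
noncomputable def pjMiss (lam : ι → ℝ) (𝒢b 𝒢 : ι → ι → Prop) : ℝ :=
  ∑ i, ∑ j with 𝒢b i j ∧ ¬ 𝒢 i j, lam i * lam j

end

/-- horizontal pair of points -/
def PjHorP (x y : ℝ × ℝ) : Prop := |y.2 - x.2| ≤ |y.1 - x.1|

/-- the horizontal chart of the direction of the line through `x` and `y` (dummy value `5` for the other pairs) -/
noncomputable def pjDir (x y : ℝ × ℝ) : ℝ := if PjHorP x y then (y.2 - x.2) / (y.1 - x.1) else 5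

/-- the pin product of two marks -/
def pjPin (x y : ℝ × ℝ) : ℝ := (y.1 - x.1) * (y.2 - x.2)

/-- the corner of the dyadic square of level `m` of `y` -/
noncomputable def pjCor (m : ℕ) (y : ℝ × ℝ) : ℝ × ℝ := ((icCell m y.1 : ℝ) / 2 ^ m, (icCell m y.2 : ℝ) / 2 ^ m)

section

variable {Ω : Type} [Fintype Ω]

/-- conditionally i.i.d. marks -/
def PjIid {ζ : Type} (P : FLaw Ω) (Zs : Ω → ζ) (a b : Ω → ℝ × ℝ) : Prop :=
  (∀ (z : ζ) (x y : ℝ × ℝ), P.pr (fun ω => Zs ω = z ∧ a ω = x ∧ b ω = y) * P.pr (fun ω => Zs ω = z)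
      = P.pr (fun ω => Zs ω = z ∧ a ω = x) * P.pr (fun ω => Zs ω = z ∧ b ω = y)) ∧
  ∀ (z : ζ) (x : ℝ × ℝ), P.pr (fun ω => Zs ω = z ∧ a ω = x) = P.pr (fun ω => Zs ω = z ∧ b ω = x)

/-- hereditary Frostman point of exponent `e` (loss `η n` bits) for the nested names `X k`, `k ≤ n`, given `D` -/
def PjGoodH {α δ : Type} (P : FLaw Ω) (X : ℕ → Ω → α) (D : Ω → δ) (e η : ℝ) (n : ℕ) (ω : Ω) : Prop :=
  ∀ k k' : ℕ, k ≤ k' → k' ≤ n → (e * ((k' : ℝ) - k) - η * n) * Real.log 2 ≤ P.surC (X k') (pair (X k) D) ω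

/-- bounded marks -/
def PjBd (A : ℝ) (a : Ω → ℝ × ℝ) : Prop := ∀ ω, |(a ω).1| ≤ A ∧ |(a ω).2| ≤ A

/-- no strip (that may depend on the side) of half-width `wd` has probability above `κ` -/
def PjNoStrip {ζ : Type} (P : FLaw Ω) (Zs : Ω → ζ) (a : Ω → ℝ × ℝ) (wd κ : ℝ) : Prop :=
  ∀ al be ga : ζ → ℝ, (∀ z, al z ^ 2 + be z ^ 2 = 1) →
    P.pr (fun ω => |al (Zs ω) * (a ω).1 + be (Zs ω) * (a ω).2 - ga (Zs ω)| ≤ wd) ≤ κ

end

theorem pj_defs_eqns_cite : True := by
  have := @PjHrd.eq_1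
  have := @PjTree1.eq_1
  have := @pjMiss.eq_1
  have := @PjHorP.eq_1
  have := @pjDir.eq_1
  have := @pjPin.eq_1
  have := @pjCor.eq_1
  have := @PjIid.eq_1
  have := @PjGoodH.eq_1
  have := @PjBd.eq_1
  have := @PjNoStrip.eq_1
  trivial

end Claimed.Agent.R256
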