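import Claimed.Agent.R256.Prj.Pop
import Claimed.Agent.R256.Prj.Score

/-!
# Row 256, folder Prj, unit LAW, file LawKit: FROM GRAPHS ON POPULATIONS TO SCORES UNDER THE LAW.      (chief helper186, owner of this file helper288)

PAPER-FREE.  Common skeleton of `pj_u_rad_law`, `pj_u_pin_law`, `pj_u_par_law`.   `P`, side `Zs`, marks `a b` (`PjIid`), kept values `kp`, populations `pjLam P Zs a kp z` on `Set.range a` (`Prj/Pop.lean`).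
A family of graphs on values `G : ζ → ℝ × ℝ → ℝ × ℝ → Prop`, a reading `Fv : ℝ × ℝ → ℝ × ℝ → ℝ`.   `E = {kp Zs a, kp Zs b, G Zs a b}`.
* `pj_law_iid_pr`      `pr{Ψ(Zs, b)} = pr{Ψ(Zs, a)}`
* `pj_law_score`   hereditary thin readings on `G` (population sums)  ⟹  `pr{E, ¬ PjGoodH (icS (Fv a b)) (Zs, a) u e n} ≤ 4 (n+1) l`  if `log (C / l²) ≤ e n log 2`      (`pj_pair1` twice + `pj_u_score`)
* `pj_law_miss`    `pr{Wd(a,b), ¬ E} ≤ 2 pr{¬ kp} + pr{Bz Zs} + m`  if the missed mass of every population `z ∉ Bz` is `≤ m`                                       (`pj_pair`)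
* `pj_law_small`   `(n+1) 2^(-c n) ≤ e` for large `n`.
* `pj_law_tree_mono`   `RtTreeHer` is monotone in the constant.
-/

set_option autoImplicit false

namespace Claimed.Agent.R256

open Claimed.Agent.R255 Claimed.Agent.R255.FLaw
open Finset Classical

variable {Ω : Type} [Fintype Ω] {ζ : Type}

theorem pj_law_lam_nonneg (P : FLaw Ω) (Zs : Ω → ζ) (a : Ω → ℝ × ℝ) (kp : ζ → ℝ × ℝ → Prop) (z : ζ) (x : ℝ × ℝ) :
    0 ≤ pjLam P Zs a kp z x := by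
  unfold pjLam
  split_ifs
  · exact div_nonneg (ent_pr_nonneg _ _) (ent_pr_nonneg _ _)
  · exact le_rfl

/-- identical conditional laws -/
theorem pj_law_iid_pr (P : FLaw Ω) (Zs : Ω → ζ) (a b : Ω → ℝ × ℝ) (h : PjIid P Zs a b) (Ψ : ζ → ℝ × ℝ → Prop) :
    P.pr (fun ω => Ψ (Zs ω) (b ω)) = P.pr (fun ω => Ψ (Zs ω) (a ω)) := by
  obtain ⟨S, hS⟩ : ∃ S : Finset (ζ × (ℝ × ℝ)), S = Finset.univ.image (pair Zs a) ∪ Finset.univ.image (pair Zs b) := ⟨_, rfl⟩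
  rw [ent_pr_sum_values P (fun ω => Ψ (Zs ω) (b ω)) (pair Zs b) S (fun ω _ _ => by
      rw [hS]; exact Finset.mem_union_right _ (Finset.mem_image_of_mem _ (Finset.mem_univ ω))),
    ent_pr_sum_values P (fun ω => Ψ (Zs ω) (a ω)) (pair Zs a) S (fun ω _ _ => by
      rw [hS]; exact Finset.mem_union_left _ (Finset.mem_image_of_mem _ (Finset.mem_univ ω)))]
  refine Finset.sum_congr rfl fun v _ => ?_
  by_cases hv : Ψ v.1 v.2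
  · have e1 : P.pr (fun ω => Ψ (Zs ω) (b ω) ∧ pair Zs b ω = v) = P.pr (fun ω => Zs ω = v.1 ∧ b ω = v.2) := by
      refine ent_pr_congr P fun ω _ => ?_
      constructor
      · rintro ⟨_, h2⟩
        rw [← h2]; exact ⟨rfl, rfl⟩
      · rintro ⟨h1, h2⟩
        refine ⟨by rw [h1, h2]; exact hv, ?_⟩
        exact Prod.ext h1 h2
    have e2 : P.pr (fun ω => Ψ (Zs ω) (a ω) ∧ pair Zs a ω = v) = P.pr (fun ω => Zs ω = v.1 ∧ a ω = v.2) := by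
      refine ent_pr_congr P fun ω _ => ?_
      constructor
      · rintro ⟨_, h2⟩
        rw [← h2]; exact ⟨rfl, rfl⟩
      · rintro ⟨h1, h2⟩
        refine ⟨by rw [h1, h2]; exact hv, ?_⟩
        exact Prod.ext h1 h2
    rw [e1, e2, h.2 v.1 v.2]
  · rw [ent_pr_eq_zero P (fun ω _ hh => hv (by rw [← hh.2]; exact hh.1)),
      ent_pr_eq_zero P (fun ω _ hh => hv (by rw [← hh.2]; exact hh.1))]

/-- **SCORE from graphs.** -/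
theorem pj_law_score (P : FLaw Ω) (Zs : Ω → ζ) (a b : Ω → ℝ × ℝ) [Fintype (Set.range a)] (hiid : PjIid P Zs a b)
    (kp : ζ → ℝ × ℝ → Prop) (G : ζ → ℝ × ℝ → ℝ × ℝ → Prop) (Fv : ℝ × ℝ → ℝ × ℝ → ℝ) (C u l e : ℝ) (n : ℕ)
    (hC : 0 < C) (hl : 0 < l) (hlog : Real.log (C / l ^ 2) ≤ e * n * Real.log 2)
    (h : ∀ z x y, kp z x → kp z y → G z x y → ∀ k k' : ℕ, k ≤ k' → k' ≤ n →
      ∑ j : Set.range a with G z x j.1 ∧ |Fv x j.1 - Fv x y| ≤ (1 / 2 : ℝ) ^ k', pjLam P Zs a kp z j.1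
        ≤ C * ((1 / 2 : ℝ) ^ (k' - k)) ^ u
          * ∑ j : Set.range a with |Fv x j.1 - Fv x y| ≤ (1 / 2 : ℝ) ^ k, pjLam P Zs a kp z j.1) :
    P.pr (fun ω => (kp (Zs ω) (a ω) ∧ kp (Zs ω) (b ω) ∧ G (Zs ω) (a ω) (b ω)) ∧
      ¬ PjGoodH P (icS (fun ω => Fv (a ω) (b ω))) (pair Zs a) u e n ω) ≤ 4 * (n + 1) * l := by
  have key := pj_u_score P (pair Zs a) (fun ω => Fv (a ω) (b ω))
    (fun ω => kp (Zs ω) (a ω) ∧ kp (Zs ω) (b ω) ∧ G (Zs ω) (a ω) (b ω)) C u l n hC hl (by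
      intro ω hE k k' hk hk'
      obtain ⟨h1, h2, h3⟩ := hE
      have hh := h (Zs ω) (a ω) (b ω) h1 h2 h3 k k' hk hk'
      have e1 : P.pr (fun ω' => Zs ω' = Zs ω ∧ a ω' = a ω ∧ kp (Zs ω) (b ω') ∧
            (G (Zs ω) (a ω) (b ω') ∧ |Fv (a ω) (b ω') - Fv (a ω) (b ω)| ≤ (1 / 2 : ℝ) ^ k'))
          = P.pr (fun ω' => Zs ω' = Zs ω ∧ a ω' = a ω)
            * ∑ j : Set.range a with G (Zs ω) (a ω) j.1 ∧ |Fv (a ω) j.1 - Fv (a ω) (b ω)| ≤ (1 / 2 : ℝ) ^ k',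
              pjLam P Zs a kp (Zs ω) j.1 := by
        convert pj_pair1 P Zs a b hiid kp (Zs ω) (a ω)
          (fun y => G (Zs ω) (a ω) y ∧ |Fv (a ω) y - Fv (a ω) (b ω)| ≤ (1 / 2 : ℝ) ^ k')
      have e2 : P.pr (fun ω' => Zs ω' = Zs ω ∧ a ω' = a ω ∧ kp (Zs ω) (b ω') ∧
            |Fv (a ω) (b ω') - Fv (a ω) (b ω)| ≤ (1 / 2 : ℝ) ^ k)
          = P.pr (fun ω' => Zs ω' = Zs ω ∧ a ω' = a ω)
            * ∑ j : Set.range a with |Fv (a ω) j.1 - Fv (a ω) (b ω)| ≤ (1 / 2 : ℝ) ^ k, pjLam P Zs a kp (Zs ω) j.1 := by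
        convert pj_pair1 P Zs a b hiid kp (Zs ω) (a ω) (fun y => |Fv (a ω) y - Fv (a ω) (b ω)| ≤ (1 / 2 : ℝ) ^ k)
      have l1 : P.pr (fun ω' => (kp (Zs ω') (a ω') ∧ kp (Zs ω') (b ω') ∧ G (Zs ω') (a ω') (b ω')) ∧
          pair Zs a ω' = pair Zs a ω ∧ |Fv (a ω') (b ω') - Fv (a ω) (b ω)| ≤ (1 / 2 : ℝ) ^ k')
          ≤ P.pr (fun ω' => Zs ω' = Zs ω ∧ a ω' = a ω ∧ kp (Zs ω) (b ω') ∧
            (G (Zs ω) (a ω) (b ω') ∧ |Fv (a ω) (b ω') - Fv (a ω) (b ω)| ≤ (1 / 2 : ℝ) ^ k')) := by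
        refine ent_pr_mono P fun ω' _ hh' => ?_
        obtain ⟨⟨_, g2, g3⟩, g4, g5⟩ := hh'
        have g6 : Zs ω' = Zs ω := congrArg Prod.fst g4
        have g7 : a ω' = a ω := congrArg Prod.snd g4
        rw [g6] at g2 g3
        rw [g7] at g3 g5
        exact ⟨g6, g7, g2, g3, g5⟩
      have l2 : P.pr (fun ω' => Zs ω' = Zs ω ∧ a ω' = a ω ∧ kp (Zs ω) (b ω') ∧
            |Fv (a ω) (b ω') - Fv (a ω) (b ω)| ≤ (1 / 2 : ℝ) ^ k)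
          ≤ P.pr (fun ω' => pair Zs a ω' = pair Zs a ω ∧ |Fv (a ω') (b ω') - Fv (a ω) (b ω)| ≤ (1 / 2 : ℝ) ^ k) := by
        refine ent_pr_mono P fun ω' _ hh' => ?_
        obtain ⟨g1, g2, _, g4⟩ := hh'
        refine ⟨Prod.ext g1 g2, ?_⟩
        rw [g2]; exact g4
      have hc0 : 0 ≤ C * ((1 / 2 : ℝ) ^ (k' - k)) ^ u := by positivity
      calc _ ≤ _ := l1
        _ = _ := e1
        _ ≤ P.pr (fun ω' => Zs ω' = Zs ω ∧ a ω' = a ω) * (C * ((1 / 2 : ℝ) ^ (k' - k)) ^ u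
            * ∑ j : Set.range a with |Fv (a ω) j.1 - Fv (a ω) (b ω)| ≤ (1 / 2 : ℝ) ^ k, pjLam P Zs a kp (Zs ω) j.1) :=
          mul_le_mul_of_nonneg_left hh (ent_pr_nonneg _ _)
        _ = C * ((1 / 2 : ℝ) ^ (k' - k)) ^ u * P.pr (fun ω' => Zs ω' = Zs ω ∧ a ω' = a ω ∧ kp (Zs ω) (b ω') ∧
            |Fv (a ω) (b ω') - Fv (a ω) (b ω)| ≤ (1 / 2 : ℝ) ^ k) := by rw [e2]; ring
        _ ≤ _ := mul_le_mul_of_nonneg_left l2 hc0)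
  refine le_trans (ent_pr_mono P fun ω _ hh => ?_) key
  obtain ⟨hE, hb⟩ := hh
  refine ⟨hE, ?_⟩
  unfold PjGoodH at hb
  push Not at hb
  obtain ⟨k, k', hk, hk', hs⟩ := hb
  refine ⟨k, k', hk, hk', lt_of_lt_of_le hs ?_⟩
  have : (u * ((k' : ℝ) - k) - e * n) * Real.log 2 = u * ((k' : ℝ) - k) * Real.log 2 - e * n * Real.log 2 := by ring
  rw [this]
  linarith

/-- **MISS.** -/
theorem pj_law_miss (P : FLaw Ω) (Zs : Ω → ζ) (a b : Ω → ℝ × ℝ) [Fintype (Set.range a)] (hiid : PjIid P Zs a b)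
    (kp : ζ → ℝ × ℝ → Prop) (G : ζ → ℝ × ℝ → ℝ × ℝ → Prop) (Wd : ℝ × ℝ → ℝ × ℝ → Prop) (Bz : ζ → Prop) (m : ℝ) (hm : 0 ≤ m)
    (h : ∀ z, ¬ Bz z → ∑ i : Set.range a, ∑ j : Set.range a with Wd i.1 j.1 ∧ ¬ G z i.1 j.1,
      pjLam P Zs a kp z i.1 * pjLam P Zs a kp z j.1 ≤ m) :
    P.pr (fun ω => Wd (a ω) (b ω) ∧ ¬ (kp (Zs ω) (a ω) ∧ kp (Zs ω) (b ω) ∧ G (Zs ω) (a ω) (b ω)))
      ≤ 2 * P.pr (fun ω => ¬ kp (Zs ω) (a ω)) + P.pr (fun ω => Bz (Zs ω)) + m := by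
  have e1 := pj_law_iid_pr P Zs a b hiid (fun z x => ¬ kp z x)
  have e2 : P.pr (fun ω => kp (Zs ω) (a ω) ∧ kp (Zs ω) (b ω) ∧ (¬ Bz (Zs ω) ∧ Wd (a ω) (b ω) ∧ ¬ G (Zs ω) (a ω) (b ω)))
      = P.ev (fun ω => ∑ i : Set.range a, ∑ j : Set.range a with ¬ Bz (Zs ω) ∧ Wd i.1 j.1 ∧ ¬ G (Zs ω) i.1 j.1,
        pjLam P Zs a kp (Zs ω) i.1 * pjLam P Zs a kp (Zs ω) j.1) := by
    convert pj_pair P Zs a b hiid kp (fun z x y => ¬ Bz z ∧ Wd x y ∧ ¬ G z x y)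
  have e3 : P.pr (fun ω => kp (Zs ω) (a ω) ∧ kp (Zs ω) (b ω) ∧ (¬ Bz (Zs ω) ∧ Wd (a ω) (b ω) ∧ ¬ G (Zs ω) (a ω) (b ω))) ≤ m := by
    rw [e2]
    refine le_trans (ent_ev_mono P (g := fun _ => m) fun ω _ => ?_) (le_of_eq (ent_ev_const P m))
    by_cases hz : Bz (Zs ω)
    · refine le_trans (le_of_eq ?_) hm
      refine Finset.sum_eq_zero fun i _ => ?_
      rw [Finset.filter_false_of_mem (fun j _ hj => hj.1 hz), Finset.sum_empty]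
    · refine le_trans (le_of_eq ?_) (h (Zs ω) hz)
      refine Finset.sum_congr rfl fun i _ => ?_
      refine Finset.sum_congr (Finset.filter_congr fun j _ => ?_) fun _ _ => rfl
      exact ⟨fun hj => hj.2, fun hj => ⟨hz, hj⟩⟩
  have e4 : P.pr (fun ω => Wd (a ω) (b ω) ∧ ¬ (kp (Zs ω) (a ω) ∧ kp (Zs ω) (b ω) ∧ G (Zs ω) (a ω) (b ω)))
      ≤ P.pr (fun ω => ((¬ kp (Zs ω) (a ω) ∨ ¬ kp (Zs ω) (b ω)) ∨ Bz (Zs ω)) ∨
        (kp (Zs ω) (a ω) ∧ kp (Zs ω) (b ω) ∧ (¬ Bz (Zs ω) ∧ Wd (a ω) (b ω) ∧ ¬ G (Zs ω) (a ω) (b ω)))) := by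
    refine ent_pr_mono P fun ω _ hh => ?_
    obtain ⟨h1, h2⟩ := hh
    by_cases c1 : kp (Zs ω) (a ω)
    · by_cases c2 : kp (Zs ω) (b ω)
      · by_cases c3 : Bz (Zs ω)
        · exact Or.inl (Or.inr c3)
        · exact Or.inr ⟨c1, c2, c3, h1, fun hg => h2 ⟨c1, c2, hg⟩⟩
      · exact Or.inl (Or.inl (Or.inr c2))
    · exact Or.inl (Or.inl (Or.inl c1))
  have e5 := ent_pr_or_le P (fun ω => (¬ kp (Zs ω) (a ω) ∨ ¬ kp (Zs ω) (b ω)) ∨ Bz (Zs ω))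
    (fun ω => kp (Zs ω) (a ω) ∧ kp (Zs ω) (b ω) ∧ (¬ Bz (Zs ω) ∧ Wd (a ω) (b ω) ∧ ¬ G (Zs ω) (a ω) (b ω)))
  have e6 := ent_pr_or_le P (fun ω => ¬ kp (Zs ω) (a ω) ∨ ¬ kp (Zs ω) (b ω)) (fun ω => Bz (Zs ω))
  have e7 := ent_pr_or_le P (fun ω => ¬ kp (Zs ω) (a ω)) (fun ω => ¬ kp (Zs ω) (b ω))
  linarith

/-- `(n+1) 2^(-c n) → 0` -/
theorem pj_law_small (c e : ℝ) (hc : 0 < c) (he : 0 < e) :
    ∃ n₁ : ℕ, ∀ n : ℕ, n₁ ≤ n → ((n : ℝ) + 1) * (2 : ℝ) ^ (-(c * n)) ≤ e := by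
  obtain ⟨r, hr⟩ : ∃ r : ℝ, r = (2 : ℝ) ^ (-c) := ⟨_, rfl⟩
  have hr0 : 0 ≤ r := by rw [hr]; positivity
  have hr1 : r < 1 := by
    rw [hr]
    exact Real.rpow_lt_one_of_one_lt_of_neg (by norm_num) (by linarith)
  have t1 := tendsto_self_mul_const_pow_of_lt_one hr0 hr1
  have t2 := tendsto_pow_atTop_nhds_zero_of_lt_one hr0 hr1
  have t3 := t1.add t2
  rw [add_zero] at t3
  have t4 := (t3.eventually (gt_mem_nhds he))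
  obtain ⟨n₁, hn₁⟩ := Filter.eventually_atTop.1 t4
  refine ⟨n₁, fun n hn => ?_⟩
  have h5 := hn₁ n hn
  have h6 : (2 : ℝ) ^ (-(c * n)) = r ^ n := by
    rw [hr, ← Real.rpow_natCast, ← Real.rpow_mul (by norm_num)]
    congr 1
    ring
  rw [h6]
  have : ((n : ℝ) + 1) * r ^ n = (n : ℝ) * r ^ n + r ^ n := by ring
  rw [this]
  exact h5.le

/-- monotonicity in the constant -/
theorem pj_law_tree_mono {ι : Type} [Fintype ι] (w : ι → ℝ) (pos : ι → ℝ × ℝ) {C C' : ℝ} (s ρ : ℝ) (hw : ∀ i, 0 ≤ w i)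
    (hC : C ≤ C') (h : RtTreeHer w pos C s ρ) : RtTreeHer w pos C' s ρ := by
  intro k k' hk hρ i₀
  refine (h k k' hk hρ i₀).trans ?_
  have h1 : 0 ≤ ∑ i with rtCell k (pos i) = rtCell k (pos i₀), w i := Finset.sum_nonneg fun i _ => hw i
  have h2 : 0 ≤ ((1 / 2 : ℝ) ^ (k' - k)) ^ s := by positivity
  exact mul_le_mul_of_nonneg_right (mul_le_mul_of_nonneg_right hC h2) h1

/-- monotonicity in the constant (scalar tree) -/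
theorem pj_law_tree1_mono {ι : Type} [Fintype ι] (w : ι → ℝ) (x : ι → ℝ) {C C' : ℝ} (s ρ : ℝ) (hw : ∀ i, 0 ≤ w i)
    (hC : C ≤ C') (h : PjTree1 w x C s ρ) : PjTree1 w x C' s ρ := by
  intro k k' hk hρ i₀
  refine (h k k' hk hρ i₀).trans ?_
  have h1 : 0 ≤ ∑ i with icCell k (x i) = icCell k (x i₀), w i := Finset.sum_nonneg fun i _ => hw i
  have h2 : 0 ≤ ((1 / 2 : ℝ) ^ (k' - k)) ^ s := by positivity
  exact mul_le_mul_of_nonneg_right (mul_le_mul_of_nonneg_right hC h2) h1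

end Claimed.Agent.R256
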