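import Claimed.Agent.R256.Prj.LawThin
import Claimed.Agent.R256.Prj.LawPin

/-!
# Row 256, folder Prj, unit LAW, file LawParA: tools of the parent-centred directions (X5).      (chief helper186, owner of this file helper288)

* `pj_law_pair1b`   `pr(Zs = z, b = y, kp z a, Ψ a) = pr(Zs = z, b = y) ∑_{i, Ψ i} lam_z i`     (the pin is `b`, the population is that of `a`)
* `pj_law_cone`     a slope window seen from the corner `yK` of a tiny cell is an angular window seen from any point `y` of the cell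
* `pj_law_cor_near`, `pj_law_cor_congr`, `pj_law_dir_le`   corners, slopes of horizontal pairs.
-/

set_option autoImplicit false

namespace Claimed.Agent.R256

open Claimed.Agent.R255 Claimed.Agent.R255.FLaw
open Finset Classical

theorem pj_law_iid_symm {Ω ζ : Type} [Fintype Ω] (P : FLaw Ω) (Zs : Ω → ζ) (a b : Ω → ℝ × ℝ) (h : PjIid P Zs a b) :
    PjIid P Zs b a := by
  refine ⟨fun z x y => ?_, fun z x => (h.2 z x).symm⟩
  have h1 := h.1 z y x
  have e : P.pr (fun ω => Zs ω = z ∧ b ω = x ∧ a ω = y) = P.pr (fun ω => Zs ω = z ∧ a ω = y ∧ b ω = x) :=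
    ent_pr_congr P fun ω _ => ⟨fun g => ⟨g.1, g.2.2, g.2.1⟩, fun g => ⟨g.1, g.2.2, g.2.1⟩⟩
  rw [e, h1]
  ring

/-- **PAIR, the pin is `b`.** -/
theorem pj_law_pair1b {Ω ζ : Type} [Fintype Ω] (P : FLaw Ω) (Zs : Ω → ζ) (a b : Ω → ℝ × ℝ) [Fintype (Set.range a)]
    (h : PjIid P Zs a b) (kp : ζ → ℝ × ℝ → Prop) (z : ζ) (y : ℝ × ℝ) (Ψ : ℝ × ℝ → Prop) :
    P.pr (fun ω => Zs ω = z ∧ b ω = y ∧ kp z (a ω) ∧ Ψ (a ω))
      = P.pr (fun ω => Zs ω = z ∧ b ω = y) * ∑ i : Set.range a with Ψ i.1, pjLam P Zs a kp z i.1 := by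
  have : Fintype (Set.range b) := Fintype.ofFinite _
  rw [pj_pair1 P Zs b a (pj_law_iid_symm P Zs a b h) kp z y Ψ, pj_lam_sum, pj_lam_sum,
    pj_law_iid_pr P Zs a b h (fun z' x => z' = z ∧ kp z x ∧ Ψ x)]

/-- slopes of horizontal pairs -/
theorem pj_law_dir_le (x y : ℝ × ℝ) (h : PjHorP x y) : |pjDir x y| ≤ 1 := by
  unfold pjDir
  rw [if_pos h, abs_div]
  unfold PjHorP at h
  exact div_le_one_of_le₀ h (abs_nonneg _)

theorem pj_law_cor_near (m : ℕ) (y : ℝ × ℝ) :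
    |y.1 - (pjCor m y).1| ≤ (1 / 2 : ℝ) ^ m ∧ |y.2 - (pjCor m y).2| ≤ (1 / 2 : ℝ) ^ m := by
  have key : ∀ t : ℝ, |t - (icCell m t : ℝ) / 2 ^ m| ≤ (1 / 2 : ℝ) ^ m := by
    intro t
    have h1 := ic_cell_le m t
    have h2 := ic_cell_lt m t
    have h3 : ((icCell m t : ℝ) + 1) / 2 ^ m = (icCell m t : ℝ) / 2 ^ m + (1 / 2 : ℝ) ^ m := by
      rw [add_div, one_div_pow]
    rw [h3] at h2
    rw [abs_le]
    constructor <;> [skip; linarith]
    have : (0 : ℝ) ≤ (1 / 2 : ℝ) ^ m := by positivity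
    linarith
  exact ⟨key y.1, key y.2⟩

theorem pj_law_cor_congr {Ω : Type} (b : Ω → ℝ × ℝ) (m : ℕ) (ω ω' : Ω) (h : icQ b m ω' = icQ b m ω) :
    pjCor m (b ω') = pjCor m (b ω) := by
  unfold icQ at h
  simp only [Prod.mk.injEq] at h
  unfold pjCor
  rw [h.1, h.2]

/-- a slope window seen from the corner is an angular window seen from the point -/
theorem pj_law_cone (x y yK : ℝ × ℝ) (t₀ w e σ : ℝ) (ht : |t₀| ≤ 1) (hw0 : 0 ≤ w) (hw1 : w ≤ 1)
    (he1 : |y.1 - yK.1| ≤ e) (he2 : |y.2 - yK.2| ≤ e) (hhor : PjHorP yK x) (hsl : |pjDir yK x - t₀| ≤ w)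
    (hσ : σ ≤ dist x y) (he : 3 * e ≤ w * σ) :
    |ip (x - y) (nrm (Real.arctan t₀))| ≤ 2 * w * dist x y := by
  have he0 : 0 ≤ e := (abs_nonneg _).trans he1
  obtain ⟨r, hr⟩ : ∃ r : ℝ, r = √(1 + t₀ ^ 2) := ⟨_, rfl⟩
  have hr1 : 1 ≤ r := by
    rw [hr]
    exact Real.one_le_sqrt.2 (by nlinarith [sq_nonneg t₀])
  have hr0 : 0 < r := by linarith
  have e1 : ip (x - y) (nrm (Real.arctan t₀)) = ((x - y).2 - t₀ * (x - y).1) / r := by
    unfold ip nrm
    rw [Real.cos_arctan, Real.sin_arctan, ← hr]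
    field_simp
    ring
  have e2 : |ip (x - y) (nrm (Real.arctan t₀))| ≤ |(x - y).2 - t₀ * (x - y).1| := by
    rw [e1, abs_div, abs_of_pos hr0]
    exact div_le_self (abs_nonneg _) hr1
  refine e2.trans ?_
  have e3 : (x - y).2 - t₀ * (x - y).1
      = ((x.2 - yK.2) - t₀ * (x.1 - yK.1)) + (-(y.2 - yK.2) + t₀ * (y.1 - yK.1)) := by
    simp only [Prod.fst_sub, Prod.snd_sub]
    ring
  have e4 : |(x.2 - yK.2) - t₀ * (x.1 - yK.1)| ≤ w * |x.1 - yK.1| := by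
    unfold pjDir at hsl
    rw [if_pos hhor] at hsl
    by_cases h0 : x.1 - yK.1 = 0
    · unfold PjHorP at hhor
      rw [h0, abs_zero] at hhor
      have h1 : x.2 - yK.2 = 0 := abs_eq_zero.1 (le_antisymm hhor (abs_nonneg _))
      rw [h0, h1]
      simp
    · have h1 : (x.2 - yK.2) - t₀ * (x.1 - yK.1) = ((x.2 - yK.2) / (x.1 - yK.1) - t₀) * (x.1 - yK.1) := by
        field_simp
      rw [h1, abs_mul]
      exact mul_le_mul_of_nonneg_right hsl (abs_nonneg _)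
  have e5 : |x.1 - yK.1| ≤ dist x y + e := by
    have h1 : |x.1 - y.1| ≤ dist x y := by
      rw [Prod.dist_eq, Real.dist_eq]
      exact le_max_left _ _
    have h2 : x.1 - yK.1 = (x.1 - y.1) + (y.1 - yK.1) := by ring
    rw [h2]
    exact (abs_add_le _ _).trans (add_le_add h1 he1)
  have e6 : |-(y.2 - yK.2) + t₀ * (y.1 - yK.1)| ≤ 2 * e := by
    refine (abs_add_le _ _).trans ?_
    rw [abs_neg, abs_mul]
    have : |t₀| * |y.1 - yK.1| ≤ 1 * e := mul_le_mul ht he1 (abs_nonneg _) (by norm_num)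
    linarith
  rw [e3]
  refine (abs_add_le _ _).trans ?_
  have e7 : w * |x.1 - yK.1| ≤ w * (dist x y + e) := mul_le_mul_of_nonneg_left e5 hw0
  have e8 : w * e ≤ 1 * e := mul_le_mul_of_nonneg_right hw1 he0
  have e9 : w * σ ≤ w * dist x y := mul_le_mul_of_nonneg_left hσ hw0
  nlinarith

end Claimed.Agent.R256
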