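import Claimed.Agent.R256.Prj.LawKit
import Claimed.Agent.R255.Rate.RpFinal

/-!
# Row 256, folder Prj, unit LAW, file LawThin: CHART-FREE THIN CONES off a small set of pairs (population level).      (chief helper186, owner of this file helper288)

`pj_law_thin` = the graph built inside `R255.rp_final` (both charts of `RpStage`, `rp_thin_conv`), with its three properties stated for ALL pairs:
symmetric, missed mass `≤ 2 ρ^c`, `ρ^η'`-separated, `RtThin` (angular form, no chart).   Used by `pj_u_par_law`.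
-/

set_option autoImplicit false

namespace Claimed.Agent.R256

open Claimed.Agent.R255
open Finset Classical

theorem pj_law_thin (A s τ η' : ℝ) (hA : 1 ≤ A) (hs : 0 < s) (hs1 : s ≤ 1) (hτ : 0 < τ) (hη' : 0 < η') :
    ∃ t₀ : ℝ, 0 < t₀ ∧ t₀ ≤ 1 ∧ ∀ κ₀ : ℝ, 0 < κ₀ → ∃ c η ρ₁ : ℝ, 0 < c ∧ 0 < η ∧ 0 < ρ₁ ∧ ∀ ρ : ℝ, 0 < ρ → ρ < ρ₁ →
      ∀ (ι : Type) [Fintype ι] (lam : ι → ℝ) (pos : ι → ℝ × ℝ),
        RpPop lam pos A → RtTreeHer lam pos (ρ ^ (-η)) s ρ → RtNoStrip lam pos (ρ ^ t₀) (ρ ^ κ₀) →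
        ∃ 𝒢 : ι → ι → Prop, (∀ i j, 𝒢 i j → 𝒢 j i) ∧ ∑ i, ∑ j with ¬ 𝒢 i j, lam i * lam j ≤ 2 * ρ ^ c ∧
          (∀ i j, 𝒢 i j → ρ ^ η' ≤ dist (pos i) (pos j)) ∧ RtThin lam pos 𝒢 (ρ ^ (-η')) (s - τ) ρ := by
  obtain ⟨t₀, ht0, ht1, H⟩ := rp_stage_top A s τ hA hs hs1 hτ (η' / 2) (by positivity)
  refine ⟨t₀, ht0, ht1, fun κ₀ hκ => ?_⟩
  obtain ⟨c, η₀, ρ₀, hc, hη₀, hρ₀, H⟩ := H κ₀ hκ
  obtain ⟨ρa, hρa, hρa1, Ka⟩ := rp_small 4 (c / 2) (by positivity)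
  obtain ⟨ρb, hρb, _, Kb⟩ := rp_small 8 (η' / 2) (by positivity)
  refine ⟨c, η₀, min ρ₀ (min ρa ρb), hc, hη₀, by positivity, ?_⟩
  intro ρ hρ hρ1 ι _ lam pos hpop hher' hns
  have hl0 := hpop.lam0
  have r0 : ρ < ρ₀ := lt_of_lt_of_le hρ1 (min_le_left _ _)
  have ra : ρ < ρa := lt_of_lt_of_le hρ1 ((min_le_right _ _).trans (min_le_left _ _))
  have rb : ρ < ρb := lt_of_lt_of_le hρ1 ((min_le_right _ _).trans (min_le_right _ _))
  have hρle : ρ ≤ 1 := (ra.le).trans hρa1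
  obtain ⟨-, n2⟩ := rp_fin_num (η := min (c / 2) (η' / 2)) hρ hρle (min_le_left _ _) (min_le_right _ _)
    (Ka ρ hρ ra) (Kb ρ hρ rb)
  obtain ⟨𝒢a, ga, ma, ta⟩ := H ρ hρ r0 ι lam pos hpop hher' hns
  obtain ⟨𝒢b, gb, mb, tb⟩ := H ρ hρ r0 ι lam (fun i => (pos i).swap) (rp_swap_pop hpop) (rp_swap_her hher') (rp_swap_ns hns)
  have hσ : 0 < ρ ^ (η' / 2) := Real.rpow_pos_of_pos hρ _
  have hσ' : ρ ^ η' ≤ ρ ^ (η' / 2) := Real.rpow_le_rpow_of_exponent_ge hρ hρle (by linarith)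
  have hC : 1 ≤ ρ ^ (-(η' / 2)) := Real.one_le_rpow_of_pos_of_le_one_of_nonpos hρ hρle (by linarith)
  have htot : ∀ i j, RpHor pos i j ∨ RpHor (fun i => (pos i).swap) i j := fun i j =>
    le_total |(pos j).2 - (pos i).2| |(pos j).1 - (pos i).1|
  have hsy : ∀ (q : ι → ℝ × ℝ) i j, RpHor q i j → RpHor q j i := by
    intro q i j h
    unfold RpHor at h ⊢
    rw [abs_sub_comm (q i).2, abs_sub_comm (q i).1]
    exact h
  refine ⟨fun i j => (RpHor pos i j → 𝒢a i j) ∧ (RpHor (fun i => (pos i).swap) i j → 𝒢b i j), ?_, ?_, ?_, ?_⟩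
  · intro i j h
    exact ⟨fun h1 => ga.symm _ _ (h.1 (hsy _ _ _ h1)), fun h1 => gb.symm _ _ (h.2 (hsy _ _ _ h1))⟩
  · have h1 : ∑ i, ∑ j with ¬ ((RpHor pos i j → 𝒢a i j) ∧ (RpHor (fun i => (pos i).swap) i j → 𝒢b i j)), lam i * lam j
        ≤ ∑ i, (∑ j with RpHor pos i j ∧ ¬ 𝒢a i j, lam i * lam j
          + ∑ j with RpHor (fun i => (pos i).swap) i j ∧ ¬ 𝒢b i j, lam i * lam j) := by
      refine Finset.sum_le_sum fun i _ => ?_
      refine rp_fin_split (fun j => lam i * lam j) (fun j => mul_nonneg (hl0 i) (hl0 j)) _ _ _ ?_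
      intro j h
      by_contra hcon
      push Not at hcon
      exact h ⟨fun h1 => hcon.1 h1, fun h1 => hcon.2 h1⟩
    rw [Finset.sum_add_distrib] at h1
    have h2 := add_le_add ma mb
    have h3 : ρ ^ c + ρ ^ c = 2 * ρ ^ c := by ring
    rw [h3] at h2
    have h4 : ∑ i, ∑ j with RpHor pos i j ∧ ¬ 𝒢a i j, lam i * lam j
          + ∑ i, ∑ j with RpHor (fun i => (pos i).swap) i j ∧ ¬ 𝒢b i j, lam i * lam j ≤ 2 * ρ ^ c := by
      convert h2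
    have h5 := h1.trans h4
    convert h5
    rfl
  · intro i j h
    refine hσ'.trans ?_
    rcases htot i j with h1 | h1
    · refine ((ga.sub i j (h.1 h1)).2).trans ?_
      rw [Prod.dist_eq, Real.dist_eq, abs_sub_comm]
      exact le_max_left _ _
    · refine ((gb.sub i j (h.2 h1)).2).trans ?_
      rw [Prod.dist_eq, Real.dist_eq, Real.dist_eq, abs_sub_comm (pos i).2]
      exact le_max_right _ _
  · intro i₀ φ wd w1 w2
    have w0 : 0 < wd := lt_of_lt_of_le hρ w1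
    have k1 := rp_thin_conv hpop hσ ga hC (by linarith) ta i₀ φ wd w1 w0 w2
    have k2 := rp_thin_conv (rp_swap_pop hpop) hσ gb hC (by linarith) tb i₀ (-(Real.pi / 2) - φ) wd w1 w0 w2
    have w3 : 0 ≤ wd ^ (s - τ) := Real.rpow_nonneg w0.le _
    refine ((rp_fin_split lam hl0 _ _ _ ?_).trans (add_le_add k1 k2)).trans ?_
    · intro i h
      rcases htot i₀ i with h1 | h1
      · exact Or.inl ⟨h.1.1 h1, h.2⟩
      · refine Or.inr ⟨h.1.2 h1, ?_⟩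
        show |ip ((pos i).swap - (pos i₀).swap) (nrm (-(Real.pi / 2) - φ))| ≤ wd * dist (pos i).swap (pos i₀).swap
        rw [rp_fin_dist_swap, show (pos i).swap - (pos i₀).swap = (pos i - pos i₀).swap from rfl, rp_swap_ip]
        exact h.2
    · calc 4 * ρ ^ (-(η' / 2)) * wd ^ (s - τ) + 4 * ρ ^ (-(η' / 2)) * wd ^ (s - τ)
          = 8 * ρ ^ (-(η' / 2)) * wd ^ (s - τ) := by ring
        _ ≤ ρ ^ (-η') * wd ^ (s - τ) := mul_le_mul_of_nonneg_right n2 w3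

end Claimed.Agent.R256
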