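import Claimed.Agent.R256.Prj.Her

/-!
# Row 256, Prj, unit HER, file 2: one refinement pass on the mesh `V n = cV ρ^(e n)` gives a hereditary reading.      (chief helper186)
Numerical glue between `R255.rp_lev_exists` (`δ n ≤ 512 A ρ^(-ηin) W (n+1) / W n`) and `pj_her_of_ref`.
-/

set_option autoImplicit false

namespace Claimed.Agent.R256

open Finset Classical
open Claimed.Agent.R255

/-- telescoping product of ratios -/
theorem pj_aux_tele (W : ℕ → ℝ) (hW : ∀ n, 0 < W n) (u : ℝ) (n m : ℕ) (h : n ≤ m) :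
    ∏ t ∈ Finset.Ico n m, (W (t + 1) / W t) ^ u = (W m / W n) ^ u := by
  induction m, h using Nat.le_induction with
  | base => simp [div_self (hW n).ne']
  | succ m hm ih =>
    rw [Finset.prod_Ico_succ_top hm, ih, ← Real.mul_rpow (div_pos (hW m) (hW n)).le (div_pos (hW (m + 1)) (hW m)).le]
    congr 1
    have := (hW m).ne'
    have := (hW n).ne'
    field_simp

variable {ι : Type} [Fintype ι]

theorem pj_pass {lam : ι → ℝ} {F : ι → ι → ℝ} {𝒢₀ : ι → ι → Prop} (h0 : ∀ i, 0 ≤ lam i)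
    (A θ ηin χ u v ρ cV : ℝ) (L : ℕ) (δ : ℕ → ℝ) (hA : 1 ≤ A) (hθ : 0 < θ) (hθχ : θ ≤ χ / 8) (hη : 0 < ηin)
    (hηL : ηin * (L + 1) ≤ χ / 8) (hE : rpE θ L 0 ≤ χ / 8) (hu0 : 0 ≤ u) (hu1 : u ≤ 1) (huv : u ≤ v)
    (hρ0 : 0 < ρ) (hρ1 : ρ < 1) (hcV : ρ ^ ηin ≤ cV)
    (hδ : ∀ n < L, 0 < δ n ∧ δ n ≤ 1 ∧ δ n ≤ 512 * A * ρ ^ (-ηin) * (ρ ^ rpE θ L (n + 1) / ρ ^ rpE θ L n))
    (hδ0 : ∀ n, 0 < δ n)
    (hsmall : (512 * A) ^ L * ρ ^ (3 * χ / 8) ≤ 1) :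
    PjHrd lam F 𝒢₀ (PjRef lam F 𝒢₀ L (fun n => cV * ρ ^ rpE θ L n) (fun n => δ n ^ v)) (ρ ^ (-χ)) u (cV * ρ) := by
  have hχ : 0 < χ := by linarith
  have hcV0 : 0 < cV := lt_of_lt_of_le (Real.rpow_pos_of_pos hρ0 _) hcV
  have hW : ∀ n, 0 < ρ ^ rpE θ L n := fun n => Real.rpow_pos_of_pos hρ0 _
  have hV : ∀ n, 0 < cV * ρ ^ rpE θ L n := fun n => mul_pos hcV0 (hW n)
  obtain ⟨D, hD⟩ : ∃ D : ℝ, D = 512 * A * ρ ^ (-ηin) := ⟨_, rfl⟩
  have hρη : 1 ≤ ρ ^ (-ηin) := Real.one_le_rpow_of_pos_of_le_one_of_nonpos hρ0 hρ1.le (by linarith)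
  have hD1 : 1 ≤ D := by rw [hD]; nlinarith
  have hD0 : 0 < D := by linarith
  obtain ⟨Q, hQ⟩ : ∃ Q : ℝ, Q = ρ ^ (-(χ / 4)) := ⟨_, rfl⟩
  have hQ1 : 1 ≤ Q := by rw [hQ]; exact Real.one_le_rpow_of_pos_of_le_one_of_nonpos hρ0 hρ1.le (by linarith)
  have hLnn : (0 : ℝ) ≤ L := Nat.cast_nonneg L
  have hηχ : ηin ≤ χ / 8 := by nlinarith
  have key := pj_her_of_ref (F := F) (𝒢₀ := 𝒢₀) h0 L (fun n => cV * ρ ^ rpE θ L n) (fun n => δ n ^ v) (cV * ρ) u (D ^ L) Q hu0 hQ1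
    (one_le_pow₀ hD1) (mul_pos hcV0 hρ0) (by simp only [rp_E_top θ hθ L, Real.rpow_one]) ?_ ?_ ?_
    (fun n => (Real.rpow_pos_of_pos (hδ0 n) _).le) ?_
  · refine pj_her_mono h0 (mul_pos hcV0 hρ0) le_rfl (by positivity) ?_ le_rfl (fun _ _ h => h) key
    -- the constant
    have e1 : D ^ L = (512 * A) ^ L * ρ ^ (-(ηin * L)) := by
      rw [hD, mul_pow, ← Real.rpow_natCast (ρ ^ (-ηin)) L, ← Real.rpow_mul hρ0.le]
      congr 2
      ring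
    have e2 : Q ^ (2 * u) ≤ ρ ^ (-(χ / 2)) := by
      rw [hQ, ← Real.rpow_mul hρ0.le]
      refine Real.rpow_le_rpow_of_exponent_ge hρ0 hρ1.le ?_
      nlinarith
    have e3 : ρ ^ (-(ηin * L)) ≤ ρ ^ (-(χ / 8)) := by
      refine Real.rpow_le_rpow_of_exponent_ge hρ0 hρ1.le ?_
      nlinarith
    have hp : 0 < (512 * A) ^ L := by positivity
    calc D ^ L * Q ^ (2 * u) ≤ ((512 * A) ^ L * ρ ^ (-(χ / 8))) * ρ ^ (-(χ / 2)) := by
          rw [e1]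
          exact mul_le_mul (mul_le_mul_of_nonneg_left e3 hp.le) e2 (Real.rpow_pos_of_pos (by linarith) _).le
            (mul_pos hp (Real.rpow_pos_of_pos hρ0 _)).le
      _ = ((512 * A) ^ L * ρ ^ (3 * χ / 8)) * ρ ^ (-χ) := by
          rw [mul_assoc, mul_assoc, ← Real.rpow_add hρ0, ← Real.rpow_add hρ0]
          congr 2
          ring
      _ ≤ 1 * ρ ^ (-χ) := mul_le_mul_of_nonneg_right hsmall (Real.rpow_pos_of_pos hρ0 _).le
      _ = ρ ^ (-χ) := one_mul _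
  · -- top of the mesh
    show 1 ≤ Q * (cV * ρ ^ rpE θ L 0)
    have h1 : ρ ^ (χ / 8) ≤ ρ ^ rpE θ L 0 := Real.rpow_le_rpow_of_exponent_ge hρ0 hρ1.le hE
    have h2 : ρ ^ (χ / 8) ≤ cV := le_trans (Real.rpow_le_rpow_of_exponent_ge hρ0 hρ1.le hηχ) hcV
    have h3 : ρ ^ (χ / 8) * ρ ^ (χ / 8) ≤ cV * ρ ^ rpE θ L 0 :=
      mul_le_mul h2 h1 (Real.rpow_pos_of_pos hρ0 _).le hcV0.le
    have h4 : Q * (ρ ^ (χ / 8) * ρ ^ (χ / 8)) = 1 := by
      rw [hQ, ← Real.rpow_add hρ0, ← Real.rpow_add hρ0]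
      have : -(χ / 4) + (χ / 8 + χ / 8) = 0 := by ring
      rw [this, Real.rpow_zero]
    rw [← h4]
    exact mul_le_mul_of_nonneg_left h3 (by linarith)
  · intro n _
    show cV * ρ ^ rpE θ L (n + 1) ≤ cV * ρ ^ rpE θ L n
    exact mul_le_mul_of_nonneg_left
      (Real.rpow_le_rpow_of_exponent_ge hρ0 hρ1.le (rp_E_mono θ hθ L (Nat.le_succ n))) hcV0.le
  · intro n hn
    show cV * ρ ^ rpE θ L n ≤ Q * (cV * ρ ^ rpE θ L (n + 1))
    have hE1 : rpE θ L n ≤ 1 := by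
      rw [← rp_E_top θ hθ L]; exact rp_E_mono θ hθ L hn.le
    have hEp := rp_E_pos θ hθ L n
    have h1 : ρ ^ rpE θ L n ≤ Q * ρ ^ rpE θ L (n + 1) := by
      rw [hQ, ← Real.rpow_add hρ0, rp_E_succ θ hθ L n]
      refine Real.rpow_le_rpow_of_exponent_ge hρ0 hρ1.le ?_
      nlinarith
    calc cV * ρ ^ rpE θ L n ≤ cV * (Q * ρ ^ rpE θ L (n + 1)) := mul_le_mul_of_nonneg_left h1 hcV0.le
      _ = Q * (cV * ρ ^ rpE θ L (n + 1)) := by ring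
  · intro n m hnm hmL
    show ∏ t ∈ Finset.Ico n m, δ t ^ v ≤ D ^ L * ((cV * ρ ^ rpE θ L m) / (cV * ρ ^ rpE θ L n)) ^ u
    have e0 : (cV * ρ ^ rpE θ L m) / (cV * ρ ^ rpE θ L n) = ρ ^ rpE θ L m / ρ ^ rpE θ L n := by
      have := hcV0.ne'
      have := (hW n).ne'
      field_simp
    rw [e0, ← pj_aux_tele (fun n => ρ ^ rpE θ L n) hW u n m hnm]
    have h1 : ∏ t ∈ Finset.Ico n m, δ t ^ v
        ≤ ∏ t ∈ Finset.Ico n m, (D * (ρ ^ rpE θ L (t + 1) / ρ ^ rpE θ L t) ^ u) := by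
      refine Finset.prod_le_prod (fun t _ => (Real.rpow_pos_of_pos (hδ0 t) _).le) fun t ht => ?_
      have htL : t < L := lt_of_lt_of_le (Finset.mem_Ico.1 ht).2 hmL
      obtain ⟨a1, a2, a3⟩ := hδ t htL
      have hr : 0 < ρ ^ rpE θ L (t + 1) / ρ ^ rpE θ L t := div_pos (hW _) (hW _)
      calc δ t ^ v ≤ δ t ^ u := Real.rpow_le_rpow_of_exponent_ge a1 a2 huv
        _ ≤ (D * (ρ ^ rpE θ L (t + 1) / ρ ^ rpE θ L t)) ^ u := by
            refine Real.rpow_le_rpow a1.le ?_ hu0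
            rw [hD]; exact a3
        _ = D ^ u * (ρ ^ rpE θ L (t + 1) / ρ ^ rpE θ L t) ^ u := Real.mul_rpow hD0.le hr.le
        _ ≤ D * (ρ ^ rpE θ L (t + 1) / ρ ^ rpE θ L t) ^ u := by
            refine mul_le_mul_of_nonneg_right ?_ (Real.rpow_pos_of_pos hr _).le
            calc D ^ u ≤ D ^ (1 : ℝ) := Real.rpow_le_rpow_of_exponent_le hD1 hu1
              _ = D := Real.rpow_one D
    refine h1.trans ?_
    rw [Finset.prod_mul_distrib, Finset.prod_const, Nat.card_Ico]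
    refine mul_le_mul_of_nonneg_right (pow_le_pow_right₀ hD1 (by omega)) ?_
    exact Finset.prod_nonneg fun t _ => (Real.rpow_pos_of_pos (div_pos (hW _) (hW _)) _).le

end Claimed.Agent.R256
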