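import Claimed.Agent.R256.Prj.Defs

/-!
# Row 256, Prj, unit PIN, file BASE: pairs that are never fat are thin with a small exponent; symmetries.      (chief helper186)
Paper free, elementary.

## LEAF L-256-PRJ-BASE  (`pj_tube_symm`, `pj_lean_symm`, `pj_base_thin`): PROVED (helper186)
`pj_tube_symm`: `(p_k - p_j) ∧ (p_i - p_j) = - (p_k - p_i) ∧ (p_j - p_i)` (`ring`), `abs_neg`, `dist_comm`.
`pj_base_thin`: fix the pin `i₀`, `z`, `w ∈ [Δ,1]`.  If the sum is not empty pick `i` in it.  Every `i'` of the sum has `|sl(i₀,i') - sl(i₀,i)| ≤ 2w`, and with `D = p_i - p_i₀`, `D' = p_i' - p_i₀` (`D.1, D'.1 ≠ 0`):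
`|D'.1 D.2 - D'.2 D.1| = |D.1| |D'.1| |sl - sl'| ≤ |D.1| 2A 2w = 4Aw dist (pos i₀) (pos i)` (horizontal pair: `dist = |D.1|`).  So the sum is `≤ pjTube lam pos i₀ i x`, `x = 4Aw > Δ`.
Grid `Δ_k = Δ^(2^-k)`, increasing in `k`, `Δ_(k+1)^2 = Δ_k`.   If `x ≤ Δ_N`: `k` := the least index with `x ≤ Δ_k`, `k ≥ 1`, `Δ_(k-1) < x`: `pjTube x ≤ pjTube Δ_k < Δ_k^a₀ = Δ_(k-1)^(a₀/2) < x^(a₀/2) ≤ 4A w^(a₀/2)`.
If `Δ_N < x`: the sum is `≤ 1 ≤ (x/Δ_N)^(a₀/2) ≤ 4A Δ_N^(-a₀/2) w^(a₀/2)`.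
## LEAF L-256-PRJ-SWAP  (`pj_swap_*`): PROVED: interchange of the two coordinates (`R255.rp_swap_pop`, `rp_swap_her` in `R255/Rate/RpFinal.lean` or `RpGlue.lean` are the models).
-/

set_option autoImplicit false

namespace Claimed.Agent.R256

open Finset Classical
open Claimed.Agent.R255

variable {ι : Type} [Fintype ι]

theorem pj_tube_symm (lam : ι → ℝ) (pos : ι → ℝ × ℝ) (i j : ι) (w : ℝ) : pjTube lam pos i j w = pjTube lam pos j i w := by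
  unfold pjTube
  refine Finset.sum_congr (Finset.filter_congr fun k _ => ?_) fun _ _ => rfl
  have e : ((pos k).1 - (pos j).1) * ((pos i).2 - (pos j).2) - ((pos k).2 - (pos j).2) * ((pos i).1 - (pos j).1)
      = -(((pos k).1 - (pos i).1) * ((pos j).2 - (pos i).2) - ((pos k).2 - (pos i).2) * ((pos j).1 - (pos i).1)) := by ring
  rw [e, abs_neg, dist_comm (pos j) (pos i)]

theorem pj_lean_symm (lam : ι → ℝ) (pos : ι → ℝ × ℝ) (a Δ : ℝ) (N : ℕ) (i j : ι) (h : PjLean lam pos a Δ N i j) :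
    PjLean lam pos a Δ N j i := by
  intro k hk
  rw [pj_tube_symm]
  exact h k hk

/-- the tube mass is monotone in the width -/
theorem pj_tube_mono {lam : ι → ℝ} (hlam : ∀ i, 0 ≤ lam i) (pos : ι → ℝ × ℝ) (i j : ι) {w w' : ℝ} (h : w ≤ w') :
    pjTube lam pos i j w ≤ pjTube lam pos i j w' := by
  unfold pjTube
  refine Finset.sum_le_sum_of_subset_of_nonneg ?_ fun k _ _ => hlam k
  intro k hk
  rw [Finset.mem_filter] at hk ⊢
  exact ⟨hk.1, hk.2.trans (mul_le_mul_of_nonneg_right h dist_nonneg)⟩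

/-- the cone of half-width `w` around `z` with vertex `i₀` lies in the tube of width `4 A w` through any of its points -/
theorem pj_base_cone {lam : ι → ℝ} {pos : ι → ℝ × ℝ} {A : ℝ} (hp : RpPop lam pos A) (σ₀ : ℝ) (hσ : 0 < σ₀)
    (𝒢 : ι → ι → Prop) (hG : ∀ i j, 𝒢 i j → RpH pos σ₀ i j) (i₀ i : ι) (z w : ℝ) (hw : 0 ≤ w)
    (hi : 𝒢 i₀ i ∧ |rpSl pos i₀ i - z| ≤ w) :
    ∑ i' with 𝒢 i₀ i' ∧ |rpSl pos i₀ i' - z| ≤ w, lam i' ≤ pjTube lam pos i₀ i (4 * A * w) := by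
  unfold pjTube
  refine Finset.sum_le_sum_of_subset_of_nonneg ?_ fun k _ _ => hp.lam0 k
  intro k hk
  rw [Finset.mem_filter] at hk ⊢
  refine ⟨hk.1, ?_⟩
  obtain ⟨-, hkG, hkz⟩ := hk
  obtain ⟨hiG, hiz⟩ := hi
  have h1 := hG _ _ hiG
  have h2 := hG _ _ hkG
  obtain ⟨D1, hD1⟩ : ∃ D1 : ℝ, D1 = (pos i).1 - (pos i₀).1 := ⟨_, rfl⟩
  obtain ⟨D2, hD2⟩ : ∃ D2 : ℝ, D2 = (pos i).2 - (pos i₀).2 := ⟨_, rfl⟩
  obtain ⟨E1, hE1⟩ : ∃ E1 : ℝ, E1 = (pos k).1 - (pos i₀).1 := ⟨_, rfl⟩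
  obtain ⟨E2, hE2⟩ : ∃ E2 : ℝ, E2 = (pos k).2 - (pos i₀).2 := ⟨_, rfl⟩
  unfold rpSl at hkz hiz
  unfold RpH RpHor at h1 h2
  rw [← hD1, ← hD2] at h1 hiz
  rw [← hE1, ← hE2] at h2 hkz
  rw [← hD1, ← hD2, ← hE1, ← hE2]
  have hD0 : D1 ≠ 0 := abs_pos.1 (lt_of_lt_of_le hσ h1.2)
  have hE0 : E1 ≠ 0 := abs_pos.1 (lt_of_lt_of_le hσ h2.2)
  have e : E1 * D2 - E2 * D1 = D1 * E1 * ((D2 / D1 - z) - (E2 / E1 - z)) := by field_simp; ring
  have hs : |(D2 / D1 - z) - (E2 / E1 - z)| ≤ 2 * w := (abs_sub _ _).trans (by linarith)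
  have hE : |E1| ≤ 2 * A := by
    rw [hE1]
    exact (abs_sub _ _).trans (by linarith [(hp.bd k).1, (hp.bd i₀).1])
  have hd : |D1| ≤ dist (pos i₀) (pos i) := by
    rw [Prod.dist_eq, Real.dist_eq, hD1, abs_sub_comm]
    exact le_max_left _ _
  rw [e, abs_mul, abs_mul]
  have hA0 : 0 ≤ A := (abs_nonneg _).trans (hp.bd i₀).1
  calc |D1| * |E1| * |(D2 / D1 - z) - (E2 / E1 - z)| ≤ |D1| * (2 * A) * (2 * w) := by
        gcongr
    _ = 4 * A * w * |D1| := by ring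
    _ ≤ 4 * A * w * dist (pos i₀) (pos i) := by
        have hA0 : 0 ≤ A := (abs_nonneg _).trans (hp.bd i₀).1
        exact mul_le_mul_of_nonneg_left hd (by positivity)

/-- a lean pair: tube bound at every width `x > Δ` -/
theorem pj_base_grid {lam : ι → ℝ} {pos : ι → ℝ × ℝ} {A : ℝ} (hp : RpPop lam pos A) (a₀ Δ : ℝ) (N : ℕ)
    (ha : 0 < a₀) (hΔ0 : 0 < Δ) (hΔ1 : Δ < 1) (i j : ι) (h : PjLean lam pos a₀ Δ N i j) (x : ℝ) (hx : Δ < x) :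
    pjTube lam pos i j x ≤ x ^ (a₀ / 2) * (Δ ^ ((1 / 2 : ℝ) ^ N)) ^ (-(a₀ / 2)) := by
  obtain ⟨g, hg⟩ : ∃ g : ℕ → ℝ, g = fun k => Δ ^ ((1 / 2 : ℝ) ^ k) := ⟨_, rfl⟩
  have hgk : ∀ k, g k = Δ ^ ((1 / 2 : ℝ) ^ k) := by intro k; rw [hg]
  have hg0 : ∀ k, 0 < g k := by intro k; rw [hgk]; exact Real.rpow_pos_of_pos hΔ0 _
  have hg1 : ∀ k, g k ≤ 1 := by
    intro k; rw [hgk]; exact Real.rpow_le_one hΔ0.le hΔ1.le (by positivity)
  have hgs : ∀ k, g (k + 1) ^ a₀ = g k ^ (a₀ / 2) := by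
    intro k
    rw [hgk, hgk, ← Real.rpow_mul hΔ0.le, ← Real.rpow_mul hΔ0.le]
    congr 1
    rw [pow_succ]; ring
  rw [← hgk]
  have hx0 : 0 < x := hΔ0.trans hx
  have hinv : 1 ≤ g N ^ (-(a₀ / 2)) := Real.one_le_rpow_of_pos_of_le_one_of_nonpos (hg0 N) (hg1 N) (by linarith)
  by_cases hxN : x ≤ g N
  · have hex : ∃ k, x ≤ g k := ⟨N, hxN⟩
    obtain ⟨k, hk⟩ : ∃ k, k = Nat.find hex := ⟨_, rfl⟩
    have hkx : x ≤ g k := by rw [hk]; exact Nat.find_spec hex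
    have hkN : k ≤ N := by rw [hk]; exact Nat.find_min' hex hxN
    have hk0 : k ≠ 0 := by
      intro h0
      rw [h0, hgk, pow_zero, Real.rpow_one] at hkx
      linarith
    obtain ⟨m, rfl⟩ := Nat.exists_eq_succ_of_ne_zero hk0
    have hm : g m < x := by
      have := Nat.find_min hex (m := m) (by rw [← hk]; exact Nat.lt_succ_self m)
      exact not_le.1 this
    have h1 : pjTube lam pos i j x ≤ pjTube lam pos i j (g (m + 1)) := pj_tube_mono hp.lam0 pos i j hkx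
    have h2 := h (m + 1) hkN
    rw [← hgk, hgs] at h2
    have h3 : g m ^ (a₀ / 2) ≤ x ^ (a₀ / 2) := Real.rpow_le_rpow (hg0 m).le hm.le (by linarith)
    have h4 : x ^ (a₀ / 2) * 1 ≤ x ^ (a₀ / 2) * g N ^ (-(a₀ / 2)) :=
      mul_le_mul_of_nonneg_left hinv (Real.rpow_nonneg hx0.le _)
    linarith
  · push Not at hxN
    have h1 : pjTube lam pos i j x ≤ 1 := by
      unfold pjTube
      exact (Finset.sum_le_sum_of_subset_of_nonneg (Finset.filter_subset _ _) fun k _ _ => hp.lam0 k).trans hp.lam1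
    have h2 : g N ^ (a₀ / 2) ≤ x ^ (a₀ / 2) := Real.rpow_le_rpow (hg0 N).le hxN.le (by linarith)
    have h3 : g N ^ (a₀ / 2) * g N ^ (-(a₀ / 2)) = 1 := by
      rw [← Real.rpow_add (hg0 N)]; simp
    have h4 : g N ^ (a₀ / 2) * g N ^ (-(a₀ / 2)) ≤ x ^ (a₀ / 2) * g N ^ (-(a₀ / 2)) :=
      mul_le_mul_of_nonneg_right h2 (by linarith)
    linarith

theorem pj_base_thin0 {lam : ι → ℝ} {pos : ι → ℝ × ℝ} {A : ℝ} (hp : RpPop lam pos A) (hA : 1 ≤ A) (a₀ Δ σ₀ : ℝ) (N : ℕ)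
    (ha : 0 < a₀) (ha1 : a₀ ≤ 1) (hΔ0 : 0 < Δ) (hΔ1 : Δ < 1) (hσ : 0 < σ₀)
    (𝒢 : ι → ι → Prop) (hG : ∀ i j, 𝒢 i j → RpH pos σ₀ i j ∧ PjLean lam pos a₀ Δ N i j) :
    RpThin lam pos 𝒢 (4 * A * (Δ ^ ((1 / 2 : ℝ) ^ N)) ^ (-(a₀ / 2))) (a₀ / 2) Δ := by
  intro i₀ z w hΔw hw1
  have hw0 : 0 < w := hΔ0.trans_le hΔw
  have hgN : 0 < (Δ ^ ((1 / 2 : ℝ) ^ N)) ^ (-(a₀ / 2)) := Real.rpow_pos_of_pos (Real.rpow_pos_of_pos hΔ0 _) _
  by_cases hne : ∃ i, 𝒢 i₀ i ∧ |rpSl pos i₀ i - z| ≤ w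
  · obtain ⟨i, hi⟩ := hne
    have h1 := pj_base_cone hp σ₀ hσ 𝒢 (fun i j h => (hG i j h).1) i₀ i z w hw0.le hi
    have hx : Δ < 4 * A * w := by nlinarith
    have h2 := pj_base_grid hp a₀ Δ N ha hΔ0 hΔ1 i₀ i (hG _ _ hi.1).2 (4 * A * w) hx
    have h3 : (4 * A * w) ^ (a₀ / 2) ≤ 4 * A * w ^ (a₀ / 2) := by
      rw [Real.mul_rpow (by positivity) hw0.le]
      refine mul_le_mul_of_nonneg_right ?_ (Real.rpow_nonneg hw0.le _)
      calc (4 * A) ^ (a₀ / 2) ≤ (4 * A) ^ (1 : ℝ) := Real.rpow_le_rpow_of_exponent_le (by linarith) (by linarith)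
        _ = 4 * A := Real.rpow_one _
    refine h1.trans (h2.trans ?_)
    calc (4 * A * w) ^ (a₀ / 2) * (Δ ^ ((1 / 2 : ℝ) ^ N)) ^ (-(a₀ / 2))
        ≤ 4 * A * w ^ (a₀ / 2) * (Δ ^ ((1 / 2 : ℝ) ^ N)) ^ (-(a₀ / 2)) := mul_le_mul_of_nonneg_right h3 hgN.le
      _ = _ := by ring
  · rw [Finset.sum_eq_zero]
    · have := Real.rpow_pos_of_pos hw0 (a₀ / 2)
      positivity
    · intro i hi
      exact absurd ⟨i, (Finset.mem_filter.1 hi).2⟩ hne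

theorem pj_base_thin {lam : ι → ℝ} {pos : ι → ℝ × ℝ} {A : ℝ} (hp : RpPop lam pos A) (hA : 1 ≤ A) (a₀ Δ σ₀ : ℝ) (N : ℕ)
    (ha : 0 < a₀) (ha1 : a₀ ≤ 1) (hΔ0 : 0 < Δ) (hΔ1 : Δ < 1) (hσ : 0 < σ₀) :
    RpThin lam pos (fun i j => RpH pos σ₀ i j ∧ PjLean lam pos a₀ Δ N i j)
      (4 * A * (Δ ^ ((1 / 2 : ℝ) ^ N)) ^ (-(a₀ / 2))) (a₀ / 2) Δ :=
  pj_base_thin0 hp hA a₀ Δ σ₀ N ha ha1 hΔ0 hΔ1 hσ _ fun _ _ h => h

/-- the pin product does not see the interchange of the coordinates -/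
theorem pj_swap_F (pos : ι → ℝ × ℝ) (i j : ι) : pjF (fun i => (pos i).swap) i j = pjF pos i j := by
  unfold pjF
  simp only [Prod.fst_swap, Prod.snd_swap]
  ring

theorem pj_swap_tube (lam : ι → ℝ) (pos : ι → ℝ × ℝ) (i j : ι) (w : ℝ) :
    pjTube lam (fun i => (pos i).swap) i j w = pjTube lam pos i j w := by
  unfold pjTube
  refine Finset.sum_congr (Finset.filter_congr fun k _ => ?_) fun _ _ => rfl
  simp only [Prod.fst_swap, Prod.snd_swap]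
  have e : ((pos k).2 - (pos i).2) * ((pos j).1 - (pos i).1) - ((pos k).1 - (pos i).1) * ((pos j).2 - (pos i).2)
      = -(((pos k).1 - (pos i).1) * ((pos j).2 - (pos i).2) - ((pos k).2 - (pos i).2) * ((pos j).1 - (pos i).1)) := by ring
  have d : dist (pos i).swap (pos j).swap = dist (pos i) (pos j) := by
    rw [Prod.dist_eq, Prod.dist_eq]
    simp only [Prod.fst_swap, Prod.snd_swap]
    exact max_comm _ _
  rw [e, abs_neg, d]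

theorem pj_swap_lean (lam : ι → ℝ) (pos : ι → ℝ × ℝ) (a Δ : ℝ) (N : ℕ) (i j : ι) :
    PjLean lam (fun i => (pos i).swap) a Δ N i j ↔ PjLean lam pos a Δ N i j := by
  unfold PjLean
  simp only [pj_swap_tube]

theorem pj_swap_sep (pos : ι → ℝ × ℝ) (σ : ℝ) (i j : ι) : PjSep (fun i => (pos i).swap) σ i j ↔ PjSep pos σ i j := by
  unfold PjSep
  simp only [Prod.fst_swap, Prod.snd_swap]
  exact and_comm

end Claimed.Agent.R256
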