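import Claimed.Agent.R256.Prj.Defs

/-!
# Row 256, Prj, unit PIN, file COV: the bad children of a cell project into fewer than `1/l` intervals (pin product instead of the slope).      (chief helper186)
Model: `R255/Rate/RpCover.lean` (66 lines) + `RpGeom.lean`.   Paper free.
Prop names:radial-pin-product (04 l.2078-2202), high part: `f_x(y) - f_x(c)` is EXACTLY bilinear.

## LEAF L-256-PRJ-COV  (`pj_pin_id`, `pj_cov_geom`, `pj_cover`): PROVED (helper186)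
Fix the pin `B` and the cell `q` of level `k`; `s = (1/2)^k`, corner `c = (q.1 s, q.2 s)`, `T = c.1 - θ_B`, `R = c.2 - r_B`, `σ_B = rpTs k q (pos B) = R/T`; for `a` in the cell `pos a = c + s ξ`, `ξ = rpXi k q (pos a) ∈ [0,1)²` (`R255.rp_xi_mem`).
IDENTITY (`pj_pin_id`):  `pjF pos B a = T R + s T kfProj (-σ_B) ξ + s² ξ.1 ξ.2`   (`kfProj a x = x.2 - a x.1`; `T ≠ 0`).
BOUNDS for `𝒢 B a` (`RpGr`: horizontal, `σ₀ ≤ |θ_a - θ_B|`; `s ≤ σ₀ W/16 ≤ σ₀/16`):  `15σ₀/16 ≤ |T| ≤ 3A`, `|R| ≤ |T| + 2s`  (see `R255.rp_geom_pop`), so `|pjF pos B a - T R| ≤ s (|T| + |R|) + s² ≤ 7A s ≤ A σ₀ W/2`.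
Apply `R255.rp_heavy_count` with `f = pjF pos B`, `S = 𝒢 B`, `R a = (a in q and PjBad ..)`, `c = T R`, `w = A σ₀ W`, `w' = 2 A σ₀ W'` (`≤ A σ₀ W/2` because `W' ≤ W/4`):
the reference interval `{|f i - TR| ≤ A σ₀ W}` lies in `{|f i - f a| ≤ 2 A σ₀ W}`, so `PjBad` gives `hheavy`.
`cov = F.image (fun e => π(e) - δ/2)`, `π(a) = kfProj (-σ_B) ξ_a`:  if `|f a - f e| ≤ 4 A σ₀ W'` then `|π(a) - π(e)| ≤ (4 A σ₀ W' + s²)/(s |T|) ≤ (4/15) δ + W/15 ≤ δ/2`   (`δ = 2^k 16 A W'`, `W ≤ δ`).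
-/

set_option autoImplicit false

namespace Claimed.Agent.R256

open Finset Classical
open Claimed.Agent.R255
open Claimed.Agent.RW (KfCov kfProj)

/-- the exact bilinear expansion of the pin product around the corner of a cell -/
theorem pj_pin_id (k : ℕ) (q : ℤ × ℤ) (b a : ℝ × ℝ) (hT : (q.1 : ℝ) / 2 ^ k - b.1 ≠ 0) :
    (a.1 - b.1) * (a.2 - b.2) = ((q.1 : ℝ) / 2 ^ k - b.1) * ((q.2 : ℝ) / 2 ^ k - b.2)
      + (1 / 2 : ℝ) ^ k * ((q.1 : ℝ) / 2 ^ k - b.1) * kfProj (-(rpTs k q b)) (rpXi k q a)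
      + ((1 / 2 : ℝ) ^ k) ^ 2 * ((rpXi k q a).1 * (rpXi k q a).2) := by
  unfold kfProj rpTs rpXi
  have h2 : (2 : ℝ) ^ k ≠ 0 := by positivity
  simp only [one_div, inv_pow]
  generalize (2 : ℝ) ^ k = x at *
  generalize hT' : (q.1 : ℝ) / x - b.1 = T at *
  have e : (q.1 : ℝ) = (T + b.1) * x := by rw [← hT']; field_simp; ring
  rw [e]
  field_simp
  ring

/-- bounds for a pin `b` and a point `a` of the cell `q`: `T = c.1 - θ_b`, `R = c.2 - r_b` -/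
theorem pj_cov_geom {ι : Type} [Fintype ι] {lam : ι → ℝ} {pos : ι → ℝ × ℝ} {A ρ σ₀ W W' δ : ℝ} {k : ℕ}
    (hp : RpPop lam pos A) (hl : RpLev A ρ σ₀ W W' δ k) (q : ℤ × ℤ) (a b : ι) (ha : rtCell k (pos a) = q)
    (hab : RpH pos σ₀ b a) :
    15 * σ₀ / 16 ≤ |(q.1 : ℝ) / 2 ^ k - (pos b).1| ∧
      |pjF pos b a - ((q.1 : ℝ) / 2 ^ k - (pos b).1) * ((q.2 : ℝ) / 2 ^ k - (pos b).2)| ≤ 5 * A * σ₀ * W / 16 := by
  obtain ⟨⟨x0, x1⟩, ⟨y0, y1⟩⟩ := rp_cell_coord k q (pos a) ha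
  have hW0 := rp_lev_W_pos hl
  have hσ0 := hl.hσ0
  have hA := hl.hA
  obtain ⟨s, hs⟩ : ∃ s : ℝ, s = (1 / 2 : ℝ) ^ k := ⟨_, rfl⟩
  rw [← hs] at x1 y1
  have hs0 : 0 < s := by rw [hs]; positivity
  have hsW : s ≤ σ₀ * W / 16 := by rw [hs]; exact hl.hk
  have hsσ : s ≤ σ₀ / 16 := by nlinarith [hl.hW1]
  have hs1 : s ≤ 1 / 16 := by nlinarith [hl.hσ1]
  obtain ⟨T, hT⟩ : ∃ T : ℝ, T = (q.1 : ℝ) / 2 ^ k - (pos b).1 := ⟨_, rfl⟩
  obtain ⟨R, hR⟩ : ∃ R : ℝ, R = (q.2 : ℝ) / 2 ^ k - (pos b).2 := ⟨_, rfl⟩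
  obtain ⟨x, hx⟩ : ∃ x : ℝ, x = (pos a).1 - (q.1 : ℝ) / 2 ^ k := ⟨_, rfl⟩
  obtain ⟨y, hy⟩ : ∃ y : ℝ, y = (pos a).2 - (q.2 : ℝ) / 2 ^ k := ⟨_, rfl⟩
  rw [← hx] at x0 x1
  rw [← hy] at y0 y1
  rw [← hT, ← hR]
  have e1 : (pos a).1 - (pos b).1 = T + x := by rw [hT, hx]; ring
  have e2 : (pos a).2 - (pos b).2 = R + y := by rw [hR, hy]; ring
  obtain ⟨hor, sep⟩ := hab
  unfold RpHor at hor
  rw [e1, e2] at hor
  rw [e1] at sep
  have hTx : |T + x| ≤ |T| + x := by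
    have := abs_add_le T x
    rwa [abs_of_nonneg x0] at this
  have hTlow : 15 * σ₀ / 16 ≤ |T| := by linarith
  have hTup : |T| ≤ 2 * A + s := by
    have h1 : |T + x| ≤ 2 * A := by
      rw [← e1]
      have := abs_sub (pos a).1 (pos b).1
      linarith [(hp.bd a).1, (hp.bd b).1]
    have h2 : |T| ≤ |T + x| + x := by
      have h3 : T = (T + x) - x := by ring
      have := abs_sub (T + x) x
      rw [← h3, abs_of_nonneg x0] at this
      exact this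
    linarith
  have hRup : |R| ≤ |T| + 2 * s := by
    have h2 : |R| ≤ |R + y| + y := by
      have h3 : R = (R + y) - y := by ring
      have := abs_sub (R + y) y
      rw [← h3, abs_of_nonneg y0] at this
      exact this
    linarith
  refine ⟨hTlow, ?_⟩
  have e3 : pjF pos b a - T * R = T * y + R * x + x * y := by
    unfold pjF
    rw [e1, e2]; ring
  rw [e3]
  have b1 : |T * y| ≤ |T| * s := by
    rw [abs_mul, abs_of_nonneg y0]; exact mul_le_mul_of_nonneg_left y1 (abs_nonneg _)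
  have b2 : |R * x| ≤ |R| * s := by
    rw [abs_mul, abs_of_nonneg x0]; exact mul_le_mul_of_nonneg_left x1 (abs_nonneg _)
  have b3 : |x * y| ≤ s * s := by
    rw [abs_mul, abs_of_nonneg x0, abs_of_nonneg y0]; exact mul_le_mul x1 y1 y0 hs0.le
  have b4 : |T * y + R * x + x * y| ≤ |T| * s + |R| * s + s * s :=
    ((abs_add_le _ _).trans (add_le_add_left (abs_add_le _ _) _)).trans (by linarith)
  have b5 : |T| * s + |R| * s + s * s ≤ 5 * A * s := by nlinarith [abs_nonneg T, abs_nonneg R]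
  have b6 : 5 * A * s ≤ 5 * A * σ₀ * W / 16 := by nlinarith
  linarith

theorem pj_cover {ι : Type} [Fintype ι] {lam : ι → ℝ} {pos : ι → ℝ × ℝ} {𝒢 : ι → ι → Prop} {A ρ σ₀ W W' δ : ℝ} {k : ℕ}
    (hp : RpPop lam pos A) (hg : RpGr pos 𝒢 σ₀) (hl : RpLev A ρ σ₀ W W' δ k) (l : ℝ) (hl0 : 0 < l) (q : ℤ × ℤ) (B : ι) :
    ∃ cov : Finset ℝ, (cov.card : ℝ) * l < 1 ∧
      KfCov cov δ {t | ∃ a, rtCell k (pos a) = q ∧ PjBad lam (pjF pos) 𝒢 (2 * A * σ₀ * W) (2 * A * σ₀ * W') l B a ∧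
        t = kfProj (-(rpTs k q (pos B))) (rpXi k q (pos a))} := by
  have hW'0 : 0 < W' := lt_of_lt_of_le hl.hρ hl.hρW
  have hWW := hl.hWW
  have hW0 : 0 < W := by linarith
  have hσ0 := hl.hσ0
  have hA := hl.hA
  have hA0 : 0 < A := by linarith
  have hAσ : 0 < A * σ₀ := by positivity
  obtain ⟨T, hT⟩ : ∃ T : ℝ, T = (q.1 : ℝ) / 2 ^ k - (pos B).1 := ⟨_, rfl⟩
  obtain ⟨R, hR⟩ : ∃ R : ℝ, R = (q.2 : ℝ) / 2 ^ k - (pos B).2 := ⟨_, rfl⟩
  have hgeo : ∀ a, rtCell k (pos a) = q → 𝒢 B a → 15 * σ₀ / 16 ≤ |T| ∧ |pjF pos B a - T * R| ≤ 5 * A * σ₀ * W / 16 := by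
    intro a ha hG
    rw [hT, hR]
    exact pj_cov_geom hp hl q a B ha (hg.sub B a hG)
  have hAW : 0 < A * σ₀ * W := by positivity
  obtain ⟨F, hFR, hFc, hFcov⟩ := rp_heavy_count lam (pjF pos B) (𝒢 B)
    (fun a => rtCell k (pos a) = q ∧ PjBad lam (pjF pos) 𝒢 (2 * A * σ₀ * W) (2 * A * σ₀ * W') l B a) hp.lam0 (T * R)
    (A * σ₀ * W) (2 * A * σ₀ * W') l (by positivity) hl0
    (fun a ha => by
      have h1 := (hgeo a ha.1 ha.2.1).2
      have h2 : 2 * A * σ₀ * W' ≤ 2 * A * σ₀ * (W / 4) := mul_le_mul_of_nonneg_left hWW (by positivity)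
      nlinarith)
    (fun a ha => by
      have h1 := (hgeo a ha.1 ha.2.1).2
      refine lt_of_le_of_lt (mul_le_mul_of_nonneg_left ?_ hl0.le) ha.2.2
      unfold pjM
      refine Finset.sum_le_sum_of_subset_of_nonneg ?_ fun i _ _ => hp.lam0 i
      intro i hi
      rw [Finset.mem_filter] at hi ⊢
      refine ⟨hi.1, hi.2.1, ?_⟩
      have h2 := hi.2.2
      have h3 : pjF pos B i - pjF pos B a = (pjF pos B i - T * R) - (pjF pos B a - T * R) := by ring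
      rw [h3]
      refine (abs_sub _ _).trans ?_
      nlinarith)
  refine ⟨F.image fun e => kfProj (-(rpTs k q (pos B))) (rpXi k q (pos e)) - δ / 2, ?_, ?_⟩
  · refine lt_of_le_of_lt (mul_le_mul_of_nonneg_right ?_ hl0.le) hFc
    exact_mod_cast Finset.card_image_le
  · rintro t ⟨a, haq, hbad, rfl⟩
    obtain ⟨e, heF, hae⟩ := hFcov a ⟨haq, hbad⟩
    have heR := hFR e heF
    refine ⟨_, Finset.mem_image_of_mem _ heF, ?_⟩
    obtain ⟨hTlow, -⟩ := hgeo a haq hbad.1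
    have hTpos : 0 < |T| := by nlinarith
    have hT0 : T ≠ 0 := abs_pos.1 hTpos
    obtain ⟨s, hs⟩ : ∃ s : ℝ, s = (1 / 2 : ℝ) ^ k := ⟨_, rfl⟩
    have hs0 : 0 < s := by rw [hs]; positivity
    have hsW : s ≤ σ₀ * W / 16 := by rw [hs]; exact hl.hk
    have hsδ : s * δ = 16 * A * W' := by
      rw [hs, hl.hδ, ← mul_assoc, ← mul_pow]
      norm_num
    have ia := pj_pin_id k q (pos B) (pos a) (by rw [← hT]; exact hT0)
    have ie := pj_pin_id k q (pos B) (pos e) (by rw [← hT]; exact hT0)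
    rw [← hT, ← hR, ← hs] at ia ie
    obtain ⟨a1, a2, a3, a4⟩ := rp_xi_mem k q (pos a) haq
    obtain ⟨e1, e2, e3, e4⟩ := rp_xi_mem k q (pos e) heR.1
    obtain ⟨pa, hpa⟩ : ∃ pa, pa = kfProj (-(rpTs k q (pos B))) (rpXi k q (pos a)) := ⟨_, rfl⟩
    obtain ⟨pe, hpe⟩ : ∃ pe, pe = kfProj (-(rpTs k q (pos B))) (rpXi k q (pos e)) := ⟨_, rfl⟩
    obtain ⟨ma, hma⟩ : ∃ ma, ma = (rpXi k q (pos a)).1 * (rpXi k q (pos a)).2 := ⟨_, rfl⟩
    obtain ⟨me, hme⟩ : ∃ me, me = (rpXi k q (pos e)).1 * (rpXi k q (pos e)).2 := ⟨_, rfl⟩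
    rw [← hpa, ← hma] at ia
    rw [← hpe, ← hme] at ie
    rw [← hpa, ← hpe]
    have hma0 : 0 ≤ ma ∧ ma ≤ 1 := by rw [hma]; exact ⟨mul_nonneg a1 a3, by nlinarith⟩
    have hme0 : 0 ≤ me ∧ me ≤ 1 := by rw [hme]; exact ⟨mul_nonneg e1 e3, by nlinarith⟩
    have hFa : pjF pos B a = ((pos a).1 - (pos B).1) * ((pos a).2 - (pos B).2) := rfl
    have hFe : pjF pos B e = ((pos e).1 - (pos B).1) * ((pos e).2 - (pos B).2) := rfl
    rw [hFa, hFe, ia, ie] at hae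
    have key : s * T * (pa - pe) = (T * R + s * T * pa + s ^ 2 * ma - (T * R + s * T * pe + s ^ 2 * me)) - s ^ 2 * (ma - me) := by
      ring
    have hm : |ma - me| ≤ 1 := by rw [abs_le]; constructor <;> linarith [hma0.1, hma0.2, hme0.1, hme0.2]
    have h1 : |s * T * (pa - pe)| ≤ 2 * (2 * A * σ₀ * W') + s ^ 2 := by
      rw [key]
      refine (abs_sub _ _).trans (add_le_add hae ?_)
      rw [abs_mul, abs_of_nonneg (by positivity : (0 : ℝ) ≤ s ^ 2)]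
      calc s ^ 2 * |ma - me| ≤ s ^ 2 * 1 := mul_le_mul_of_nonneg_left hm (by positivity)
        _ = s ^ 2 := mul_one _
    have h2 : s ^ 2 ≤ A * σ₀ * W' := by
      have h3 : s * W ≤ s * δ := mul_le_mul_of_nonneg_left hl.hWδ hs0.le
      have h4 : s ^ 2 ≤ s * (σ₀ * W / 16) := by rw [sq]; exact mul_le_mul_of_nonneg_left hsW hs0.le
      have h5 : s * (σ₀ * W / 16) = σ₀ / 16 * (s * W) := by ring
      have h6 : σ₀ / 16 * (s * W) ≤ σ₀ / 16 * (s * δ) := mul_le_mul_of_nonneg_left h3 (by positivity)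
      rw [hsδ] at h6
      have h7 : σ₀ / 16 * (16 * A * W') = A * σ₀ * W' := by ring
      linarith
    have h3 : |pa - pe| ≤ δ / 2 := by
      rw [abs_mul, abs_mul, abs_of_pos hs0] at h1
      by_contra hc
      push Not at hc
      have h4 : s * |T| * (δ / 2) < s * |T| * |pa - pe| := mul_lt_mul_of_pos_left hc (by positivity)
      have h5 : s * |T| * (δ / 2) = (s * δ) * |T| / 2 := by ring
      rw [h5, hsδ] at h4
      have h6 : 16 * A * W' * (15 * σ₀ / 16) ≤ 16 * A * W' * |T| := mul_le_mul_of_nonneg_left hTlow (by positivity)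
      have h7 : 0 < A * σ₀ * W' := by positivity
      have h8 : 16 * A * W' * (15 * σ₀ / 16) = 15 * (A * σ₀ * W') := by ring
      have h9 : 2 * (2 * A * σ₀ * W') = 4 * (A * σ₀ * W') := by ring
      linarith
    rw [abs_le] at h3
    constructor <;> linarith [h3.1, h3.2]

end Claimed.Agent.R256
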