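import Claimed.Agent.R255.Rate.RpFinal

/-!
# Row 256, folder Prj (04-canonical-names.tex l.1341-2202), unit PIN = exit E5 of report 886 (pin products).  File 1: DEFINITIONS.      (architect helper186; chief Prj: helper288)

PAPER-FREE.  Everything is a finite weighted population `(lam, pos)` in the plane, `pos i = (θ_i, r_i)` = a mark; vocabulary of `R255/Rate/RpDefs.lean`, `Gr.lean` (read only).
* `pjF pos i j = (θ_j - θ_i)(r_j - r_i)`: the pin product (the scalar that parametrises the projection direction in 05 l.556-570);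
* `PjFr lam F 𝒢 C u ρ`: seen from every pin `i₀` the reading `F i₀ ·` of the `𝒢`-neighbours is Frostman `u` (constant `C`, scales `[ρ,1]`).  `RpThin lam pos 𝒢 = PjFr lam (rpSl pos) 𝒢` by `Iff.rfl`;
* `pjTube lam pos i j w`: mass of the tube `{k : |(p_k - p_i) ∧ (p_j - p_i)| ≤ w dist(p_i,p_j)}` (sup distance: for a horizontal pair this is `|r_k - r_i - m (θ_k - θ_i)| ≤ w`, `m` = slope);
* `PjLow lam pos K Δ`: pairs with both coordinates `1/K`-separated whose joining `Δ`-tube has mass `≥ 1/K` (Lemma names:radial-low-product);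
* `pjM, PjBad, PjRef`: the refinement of `RpDefs.lean` for an ARBITRARY reading `F` instead of the slope.
Definitions are FROZEN (ask helper186).
-/

set_option autoImplicit false

namespace Claimed.Agent.R256

open Finset Classical

section

variable {ι : Type} [Fintype ι]

/-- the pin product -/
def pjF (pos : ι → ℝ × ℝ) (i j : ι) : ℝ := ((pos j).1 - (pos i).1) * ((pos j).2 - (pos i).2)

/-- both coordinates are `σ`-separated ("crossing") -/
def PjSep (pos : ι → ℝ × ℝ) (σ : ℝ) (i j : ι) : Prop :=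
  σ ≤ |(pos j).1 - (pos i).1| ∧ σ ≤ |(pos j).2 - (pos i).2|

/-- the reading `F i₀ ·` of the neighbours of every pin is Frostman `u` -/
def PjFr (lam : ι → ℝ) (F : ι → ι → ℝ) (𝒢 : ι → ι → Prop) (C u ρ : ℝ) : Prop :=
  ∀ (i₀ : ι) (z w : ℝ), ρ ≤ w → w ≤ 1 → ∑ i with 𝒢 i₀ i ∧ |F i₀ i - z| ≤ w, lam i ≤ C * w ^ u

/-- mass of the `w`-tube around the line through `pos i`, `pos j` -/
noncomputable def pjTube (lam : ι → ℝ) (pos : ι → ℝ × ℝ) (i j : ι) (w : ℝ) : ℝ :=
  ∑ k with |((pos k).1 - (pos i).1) * ((pos j).2 - (pos i).2) - ((pos k).2 - (pos i).2) * ((pos j).1 - (pos i).1)|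
    ≤ w * dist (pos i) (pos j), lam k

/-- low witnesses: separated pairs whose joining `Δ`-tube is heavy -/
def PjLow (lam : ι → ℝ) (pos : ι → ℝ × ℝ) (K Δ : ℝ) (i j : ι) : Prop :=
  PjSep pos K⁻¹ i j ∧ K⁻¹ ≤ pjTube lam pos i j Δ

/-- never fat on the grid `Δ^(2^(-k))`, `k ≤ N` -/
def PjLean (lam : ι → ℝ) (pos : ι → ℝ × ℝ) (a Δ : ℝ) (N : ℕ) (i j : ι) : Prop :=
  ∀ k ≤ N, pjTube lam pos i j (Δ ^ ((1 / 2 : ℝ) ^ k)) < (Δ ^ ((1 / 2 : ℝ) ^ k)) ^ a

/-- mass of the `F`-interval of half-width `w` around `F i₀ i`, seen from the pin `i₀` -/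
noncomputable def pjM (lam : ι → ℝ) (F : ι → ι → ℝ) (𝒢 : ι → ι → Prop) (i₀ i : ι) (w : ℝ) : ℝ :=
  ∑ i' with 𝒢 i₀ i' ∧ |F i₀ i' - F i₀ i| ≤ w, lam i'

/-- the narrow interval carries more than the fraction `l` of the wide interval -/
def PjBad (lam : ι → ℝ) (F : ι → ι → ℝ) (𝒢 : ι → ι → Prop) (W W' l : ℝ) (i₀ i : ι) : Prop :=
  𝒢 i₀ i ∧ l * pjM lam F 𝒢 i₀ i W < pjM lam F 𝒢 i₀ i W'

/-- the refined graph: no level is bad, in either order -/
def PjRef (lam : ι → ℝ) (F : ι → ι → ℝ) (𝒢 : ι → ι → Prop) (L : ℕ) (W l : ℕ → ℝ) (i j : ι) : Prop :=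
  𝒢 i j ∧ ∀ n < L, ¬ PjBad lam F 𝒢 (W n) (W (n + 1)) (l n) i j ∧ ¬ PjBad lam F 𝒢 (W n) (W (n + 1)) (l n) j i

end

theorem pj_pin_eqns_cite : True := by
  have := @pjF.eq_1
  have := @PjSep.eq_1
  have := @PjFr.eq_1
  have := @pjTube.eq_1
  have := @PjLow.eq_1
  have := @PjLean.eq_1
  have := @pjM.eq_1
  have := @PjBad.eq_1
  have := @PjRef.eq_1
  trivial

end Claimed.Agent.R256
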