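import Claimed.Agent.R256.Prj.PinHigh
import Claimed.Agent.R256.Prj.PinBase

/-!
# Row 256, Prj, unit PIN, file HI: the lean horizontal pairs (one chart).      (chief helper186)
`pj_hi_chart`: base graph = `Δ^η`-separated horizontal pairs that are never fat on the grid `Δ^(2^-k)`, `k ≤ N`;
`pj_base_thin` (thin `a₀/2`) → `pj_stage_top` (relative bootstrap, thin `d - τ`) → `pj_high` (pin product hereditarily Frostman `d - ε`).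
Order of the constants: `ε → (τ, c_h, η_h) → (c_r, η_r) → N → η`.
-/

set_option autoImplicit false

namespace Claimed.Agent.R256

open Finset Classical
open Claimed.Agent.R255

theorem pj_aux_H_symm {ι : Type} (pos : ι → ℝ × ℝ) (σ : ℝ) (i j : ι) (h : RpH pos σ i j) : RpH pos σ j i := by
  unfold RpH RpHor at *
  rw [abs_sub_comm (pos i).2, abs_sub_comm (pos i).1]
  exact h

theorem pj_hi_chart (A d ε a₀ : ℝ) (hA : 1 ≤ A) (hd : 0 < d) (hd1 : d ≤ 1) (hε : 0 < ε) (ha : 0 < a₀) (ha1 : a₀ ≤ 1) :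
    ∃ c η : ℝ, 0 < c ∧ 0 < η ∧ ∃ N : ℕ, ∃ Δ₁ : ℝ, 0 < Δ₁ ∧ Δ₁ ≤ 1 ∧
      ∀ Δ : ℝ, 0 < Δ → Δ < Δ₁ → ∀ (ι : Type) [Fintype ι] (lam : ι → ℝ) (pos : ι → ℝ × ℝ),
        RpPop lam pos A → RtTreeHer lam pos (Δ ^ (-η)) d Δ →
        ∃ Hi : ι → ι → Prop,
          pjMiss lam (fun i j => RpH pos (Δ ^ η) i j ∧ PjLean lam pos a₀ Δ N i j) Hi ≤ Δ ^ c ∧
          PjHrd lam (pjF pos) (fun _ _ => True) Hi (Δ ^ (-ε)) (d - ε) Δ := by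
  obtain ⟨τ, ch, ηh, ρh, hτ, hch, hηh, hρh, Hh⟩ := pj_high A d ε hA hd hd1 hε
  obtain ⟨cr, ηr, ρr, hcr, hηr, hρr, Hr⟩ := pj_stage_top A d (a₀ / 2) τ hA hd hd1 (by positivity) hτ ηh hηh
  -- the depth of the grid
  obtain ⟨N, hN⟩ : ∃ N : ℕ, (1 / 2 : ℝ) ^ N < ηr := exists_pow_lt_of_lt_one hηr (by norm_num)
  obtain ⟨m, hm⟩ : ∃ m, m = min cr ch := ⟨_, rfl⟩
  have hm0 : 0 < m := by rw [hm]; exact lt_min hcr hch
  obtain ⟨ρs, hρs0, hρs1, hsm⟩ := rp_small 2 (m / 2) (by positivity)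
  obtain ⟨ρt, hρt0, hρt1, hst⟩ := rp_small (4 * A) (ηr / 2) (by positivity)
  refine ⟨m / 2, min ηr ηh, by positivity, lt_min hηr hηh, N, min (min ρh ρr) (min ρs ρt),
    lt_min (lt_min hρh hρr) (lt_min hρs0 hρt0), (min_le_right _ _).trans ((min_le_left _ _).trans hρs1), ?_⟩
  intro Δ hΔ0 hΔlt ι _ lam pos hp her
  have hΔ_h : Δ < ρh := lt_of_lt_of_le hΔlt ((min_le_left _ _).trans (min_le_left _ _))
  have hΔ_r : Δ < ρr := lt_of_lt_of_le hΔlt ((min_le_left _ _).trans (min_le_right _ _))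
  have hΔ_s : Δ < ρs := lt_of_lt_of_le hΔlt ((min_le_right _ _).trans (min_le_left _ _))
  have hΔ_t : Δ < ρt := lt_of_lt_of_le hΔlt ((min_le_right _ _).trans (min_le_right _ _))
  have hΔ1 : Δ < 1 := lt_of_lt_of_le hΔ_s hρs1
  obtain ⟨η, hη⟩ : ∃ η, η = min ηr ηh := ⟨_, rfl⟩
  rw [← hη] at her ⊢
  have hηr' : η ≤ ηr := by rw [hη]; exact min_le_left _ _
  have hηh' : η ≤ ηh := by rw [hη]; exact min_le_right _ _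
  have her_r : RtTreeHer lam pos (Δ ^ (-ηr)) d Δ :=
    rt_treeher_mono hp.lam0 (Real.rpow_le_rpow_of_exponent_ge hΔ0 hΔ1.le (by linarith)) her
  have her_h : RtTreeHer lam pos (Δ ^ (-ηh)) d Δ :=
    rt_treeher_mono hp.lam0 (Real.rpow_le_rpow_of_exponent_ge hΔ0 hΔ1.le (by linarith)) her
  have hσ : 0 < Δ ^ η := Real.rpow_pos_of_pos hΔ0 _
  obtain ⟨𝒢b, h𝒢b⟩ : ∃ 𝒢b : ι → ι → Prop, 𝒢b = fun i j => RpH pos (Δ ^ η) i j ∧ PjLean lam pos a₀ Δ N i j := ⟨_, rfl⟩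
  have hbt := pj_base_thin hp hA a₀ Δ (Δ ^ η) N ha ha1 hΔ0 hΔ1 hσ
  rw [← h𝒢b] at hbt ⊢
  have hgb : RpGr pos 𝒢b (Δ ^ ηr) := by
    refine ⟨fun i j h => ?_, fun i j h => ?_⟩
    · rw [h𝒢b] at h ⊢
      exact ⟨pj_aux_H_symm pos _ i j h.1, pj_lean_symm lam pos a₀ Δ N i j h.2⟩
    · rw [h𝒢b] at h
      exact ⟨h.1.1, (Real.rpow_le_rpow_of_exponent_ge hΔ0 hΔ1.le hηr').trans h.1.2⟩
  have hconst : 4 * A * (Δ ^ ((1 / 2 : ℝ) ^ N)) ^ (-(a₀ / 2)) ≤ Δ ^ (-ηr) := by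
    have h1 : (Δ ^ ((1 / 2 : ℝ) ^ N)) ^ (-(a₀ / 2)) ≤ Δ ^ (-(ηr / 2)) := by
      rw [← Real.rpow_mul hΔ0.le]
      refine Real.rpow_le_rpow_of_exponent_ge hΔ0 hΔ1.le ?_
      have h2 : (0 : ℝ) < (1 / 2 : ℝ) ^ N := by positivity
      nlinarith
    have h3 := hst Δ hΔ0 hΔ_t
    have h4 : 0 < Δ ^ (-(ηr / 2)) := Real.rpow_pos_of_pos hΔ0 _
    have h5 : Δ ^ (-ηr) = Δ ^ (-(ηr / 2)) * Δ ^ (-(ηr / 2)) := by
      rw [← Real.rpow_add hΔ0]; congr 1; ring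
    have h6 : Δ ^ (ηr / 2) * Δ ^ (-(ηr / 2)) = 1 := by
      rw [← Real.rpow_add hΔ0]; simp
    have h7 : 4 * A ≤ Δ ^ (-(ηr / 2)) := by
      calc 4 * A = 4 * A * (Δ ^ (ηr / 2) * Δ ^ (-(ηr / 2))) := by rw [h6, mul_one]
        _ = (4 * A * Δ ^ (ηr / 2)) * Δ ^ (-(ηr / 2)) := by ring
        _ ≤ 1 * Δ ^ (-(ηr / 2)) := mul_le_mul_of_nonneg_right h3 h4.le
        _ = _ := one_mul _
    rw [h5]
    exact mul_le_mul h7 h1 (Real.rpow_pos_of_pos (Real.rpow_pos_of_pos hΔ0 _) _).le h4.le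
  have hthb : RpThin lam pos 𝒢b (Δ ^ (-ηr)) (a₀ / 2) Δ := fun i₀ z w hw hw1 =>
    (hbt i₀ z w hw hw1).trans (mul_le_mul_of_nonneg_right hconst (Real.rpow_nonneg (hΔ0.le.trans hw) _))
  obtain ⟨𝒢₁, hg₁, hsub₁, hm₁, hth₁⟩ := Hr Δ hΔ0 hΔ_r ι lam pos 𝒢b hp her_r hgb hthb
  obtain ⟨𝒢₂, -, hsub₂, hm₂, hher⟩ := Hh Δ hΔ0 hΔ_h ι lam pos 𝒢₁ hp her_h hg₁ hth₁
  refine ⟨𝒢₂, ?_, ?_⟩
  · have hsplit := rp_split_mass hp.lam0 (fun i j => 𝒢b i j ∧ ¬ 𝒢₂ i j)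
      (fun i j => 𝒢b i j ∧ ¬ 𝒢₁ i j) (fun i j => 𝒢₁ i j ∧ ¬ 𝒢₂ i j) (by
        intro i j hij
        by_cases h0 : 𝒢₁ i j
        · exact Or.inr ⟨h0, hij.2⟩
        · exact Or.inl ⟨hij.1, h0⟩)
    have h1 : pjMiss lam 𝒢b 𝒢₂ ≤ Δ ^ cr + Δ ^ ch := by
      unfold pjMiss at hm₂ ⊢
      refine le_trans ?_ (add_le_add hm₁ hm₂)
      convert hsplit
      rfl
    have h2 : Δ ^ cr ≤ Δ ^ m := Real.rpow_le_rpow_of_exponent_ge hΔ0 hΔ1.le (by rw [hm]; exact min_le_left _ _)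
    have h3 : Δ ^ ch ≤ Δ ^ m := Real.rpow_le_rpow_of_exponent_ge hΔ0 hΔ1.le (by rw [hm]; exact min_le_right _ _)
    have h4 : Δ ^ m = Δ ^ (m / 2) * Δ ^ (m / 2) := by
      rw [← Real.rpow_add hΔ0]; congr 1; ring
    have h5 := hsm Δ hΔ0 hΔ_s
    have h6 : 0 < Δ ^ (m / 2) := Real.rpow_pos_of_pos hΔ0 _
    nlinarith
  · exact pj_her_mono hp.lam0 hΔ0 le_rfl (Real.rpow_pos_of_pos hΔ0 _).le le_rfl le_rfl (fun _ _ _ => trivial) hher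

end Claimed.Agent.R256
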