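import Claimed.Agent.R256.Prj.Pass
import Claimed.Agent.R256.Prj.PinCell

/-!
# Row 256, Prj, unit PIN, file HIGH: on a graph with thin cones the pin product is hereditarily Frostman.      (chief helper186)
Prop names:radial-pin-product (04 l.2078-2202), high alternative, in finite hereditary form.
`pj_high_pass`: one refinement pass for the reading `pjF pos` on the mesh `V n = 2 A ρ^ηin ρ^(e n)`; the bad pairs of one level are bounded cell by cell by `pj_cell_K` (Kaufman for the child law of the cell, tags = pins, slopes by reciprocity).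
`pj_high`: choice of the constants (`ex_K`).
-/

set_option autoImplicit false

namespace Claimed.Agent.R256

open Finset Classical
open Claimed.Agent.R255

theorem pj_high_pass (A d u α ηK ρK χ : ℝ) (hA : 1 ≤ A) (hd : 0 < d) (hd1 : d ≤ 1) (hηK : 0 < ηK)
    (hρK : 0 < ρK) (hv0 : 0 ≤ min d u - α) (hα : 0 ≤ α) (hχ : 0 < χ)
    (hKf : ∀ δ : ℝ, 0 < δ → δ < ρK → PjKf d u α ηK δ) :
    ∃ c η ρ₁ : ℝ, 0 < c ∧ 0 < η ∧ 0 < ρ₁ ∧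
      ∀ ρ : ℝ, 0 < ρ → ρ < ρ₁ → ∀ (ι : Type) [Fintype ι] (lam : ι → ℝ) (pos : ι → ℝ × ℝ) (𝒢₀ : ι → ι → Prop),
        RpPop lam pos A → RtTreeHer lam pos (ρ ^ (-η)) d ρ → RpGr pos 𝒢₀ (ρ ^ η) → RpThin lam pos 𝒢₀ (ρ ^ (-η)) u ρ →
        ∃ 𝒢 : ι → ι → Prop, RpGr pos 𝒢 (ρ ^ η) ∧ (∀ i j, 𝒢 i j → 𝒢₀ i j) ∧ pjMiss lam 𝒢₀ 𝒢 ≤ ρ ^ c ∧
          PjHrd lam (pjF pos) 𝒢₀ 𝒢 (ρ ^ (-χ)) (min d u - α) ρ := by
  obtain ⟨θ, hθdef⟩ : ∃ θ : ℝ, θ = min (1 / 3) (χ / 8) := ⟨_, rfl⟩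
  have hθ : 0 < θ := by rw [hθdef]; exact lt_min (by norm_num) (by positivity)
  have hθ1 : θ ≤ 1 / 3 := by rw [hθdef]; exact min_le_left _ _
  have hθχ : θ ≤ χ / 8 := by rw [hθdef]; exact min_le_right _ _
  obtain ⟨L, hL⟩ := rp_E_small θ (χ / 8) hθ (by positivity)
  have hj₁ : 0 < rpE θ L 0 := rp_E_pos θ hθ L 0
  obtain ⟨a, hadef⟩ : ∃ a : ℝ, a = θ * rpE θ L 0 / 2 := ⟨_, rfl⟩
  have ha : 0 < a := by rw [hadef]; positivity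
  obtain ⟨ηin, hηdef⟩ : ∃ ηin : ℝ, ηin = min (min (θ * rpE θ L 0 / 8) (a * ηK / 4)) (χ / (8 * ((L : ℝ) + 1))) := ⟨_, rfl⟩
  have hL1 : (0 : ℝ) < 8 * ((L : ℝ) + 1) := by positivity
  have hηin0 : 0 < ηin := by
    rw [hηdef]
    exact lt_min (lt_min (by positivity) (by positivity)) (by positivity)
  have hηin1 : ηin ≤ θ * rpE θ L 0 / 8 := by
    rw [hηdef]; exact (min_le_left _ _).trans (min_le_left _ _)
  have hηin2 : ηin ≤ a * ηK / 4 := by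
    rw [hηdef]; exact (min_le_left _ _).trans (min_le_right _ _)
  have hηin3' : ηin ≤ χ / (8 * ((L : ℝ) + 1)) := by
    rw [hηdef]; exact min_le_right _ _
  have hηin5 : ηin * (8 * ((L : ℝ) + 1)) ≤ χ := (le_div_iff₀ hL1).1 hηin3'
  have hηL : ηin * ((L : ℝ) + 1) ≤ χ / 8 := by linarith
  have hv1 : min d u - α ≤ 1 := by linarith [min_le_left d u]
  obtain ⟨ρa, hρa0, hρa1, hlev⟩ := rp_lev_exists A θ ηin L hA hθ hθ1 hηin0 hηin1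
  obtain ⟨ρc, hρc0, hρc1, hpar⟩ := rp_par_step a ηK ηin ρK 1 L ha hηK hηin0 hηin2 hρK one_pos
  obtain ⟨ρd, hρd0, hρd1, hsm⟩ := rp_small ((512 * A) ^ L) (3 * χ / 8) (by positivity)
  obtain ⟨ρe, hρe0, hρe1, hsm2⟩ := rp_small (2 * A) ηin hηin0
  refine ⟨min 1 (a * ηK / 4) / 2, ηin, min (min ρa ρe) (min ρc ρd), ?_, hηin0,
    lt_min (lt_min hρa0 hρe0) (lt_min hρc0 hρd0), ?_⟩
  · have : 0 < min 1 (a * ηK / 4) := lt_min one_pos (by positivity)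
    positivity
  intro ρ hρ0 hρlt ι _ lam pos 𝒢₀ hp herin hg₀ hthin₀
  have hρ_a : ρ < ρa := lt_of_lt_of_le hρlt ((min_le_left _ _).trans (min_le_left _ _))
  have hρ_e : ρ < ρe := lt_of_lt_of_le hρlt ((min_le_left _ _).trans (min_le_right _ _))
  have hρ_c : ρ < ρc := lt_of_lt_of_le hρlt ((min_le_right _ _).trans (min_le_left _ _))
  have hρ_d : ρ < ρd := lt_of_lt_of_le hρlt ((min_le_right _ _).trans (min_le_right _ _))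
  have hρ1 : ρ < 1 := lt_of_lt_of_le hρ_a hρa1
  obtain ⟨k, δ, hδpos, hlev⟩ := hlev ρ hρ0 hρ_a
  obtain ⟨hsum, hpar⟩ := hpar ρ hρ0 hρ_c
  have hK1 : 1 ≤ ρ ^ (-ηin) := Real.one_le_rpow_of_pos_of_le_one_of_nonpos hρ0 hρ1.le (by linarith)
  have hσ0 : 0 < ρ ^ ηin := Real.rpow_pos_of_pos hρ0 _
  obtain ⟨W, hW⟩ : ∃ W : ℕ → ℝ, W = fun n => 2 * A * ρ ^ ηin * ρ ^ rpE θ L n := ⟨_, rfl⟩
  obtain ⟨l, hl⟩ : ∃ l : ℕ → ℝ, l = fun n => δ n ^ (min d u - α) := ⟨_, rfl⟩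
  have hWn : ∀ n, W n = 2 * A * ρ ^ ηin * ρ ^ rpE θ L n := fun n => by rw [hW]
  have hln : ∀ n, l n = δ n ^ (min d u - α) := fun n => by rw [hl]
  have hr := pj_ref_gr (lam := lam) (F := pjF pos) hg₀ L W l
  have hbad : ∀ n < L, ∑ i, ∑ j with PjBad lam (pjF pos) 𝒢₀ (W n) (W (n + 1)) (l n) i j, lam i * lam j
      ≤ 2 * ρ ^ (a * ηK / 2) := by
    intro n hn
    obtain ⟨hlv, -, hδa⟩ := hlev n hn
    rw [← hadef] at hδa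
    obtain ⟨p1, p2, p3, p4⟩ := hpar (δ n) (hδpos n) hδa
    have hd1' : 0 < δ n ^ ηK := Real.rpow_pos_of_pos (hδpos n) _
    have hd2 : 0 < δ n ^ (ηK / 2) := Real.rpow_pos_of_pos (hδpos n) _
    rw [hWn n, hWn (n + 1), hln n]
    refine (rp_level_of_cells hp (k n) _ (δ n ^ ηK + δ n ^ (ηK / 2)) (by positivity) (fun q => ?_)).trans p4
    exact pj_cell_K hp hg₀ hlv d u α ηK (ρ ^ (-ηin)) (ρ ^ (-ηin)) (δ n ^ (ηK / 2)) hd.le hd1 hK1 (by positivity)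
      hthin₀ herin (hKf _ (hδpos n) p1) hd2 p2 p3 q
  have hm := pj_ref_mass (pos := pos) hp.lam0 L W l _ hbad
  refine ⟨PjRef lam (pjF pos) 𝒢₀ L W l, hr, fun i j hij => hij.1, ?_, ?_⟩
  · refine le_trans ?_ hsum
    have h2 : pjMiss lam 𝒢₀ (PjRef lam (pjF pos) 𝒢₀ L W l) ≤ 2 * L * (2 * ρ ^ (a * ηK / 2)) := hm
    exact h2.trans (le_add_of_nonneg_left (Real.rpow_pos_of_pos hρ0 _).le)
  · have hcV : ρ ^ ηin ≤ 2 * A * ρ ^ ηin := by nlinarith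
    have hpass := pj_pass (F := pjF pos) (𝒢₀ := 𝒢₀) hp.lam0 A θ ηin χ (min d u - α) (min d u - α) ρ (2 * A * ρ ^ ηin) L δ
      hA hθ hθχ hηin0 hηL hL hv0 hv1 le_rfl hρ0 hρ1 hcV
      (fun n hn => ⟨hδpos n, (hlev n hn).1.hδ1, (hlev n hn).2.1⟩) hδpos (hsm ρ hρ0 hρ_d)
    rw [← hW, ← hl] at hpass
    have hle : 2 * A * ρ ^ ηin * ρ ≤ ρ := by
      have := hsm2 ρ hρ0 hρ_e
      nlinarith
    exact pj_her_mono hp.lam0 (by positivity) hle (Real.rpow_pos_of_pos hρ0 _).le le_rfl le_rfl (fun _ _ h => h) hpass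

/-- **HIGH.** -/
theorem pj_high (A d ε : ℝ) (hA : 1 ≤ A) (hd : 0 < d) (hd1 : d ≤ 1) (hε : 0 < ε) :
    ∃ τ c η ρ₁ : ℝ, 0 < τ ∧ 0 < c ∧ 0 < η ∧ 0 < ρ₁ ∧
      ∀ ρ : ℝ, 0 < ρ → ρ < ρ₁ → ∀ (ι : Type) [Fintype ι] (lam : ι → ℝ) (pos : ι → ℝ × ℝ) (𝒢₀ : ι → ι → Prop),
        RpPop lam pos A → RtTreeHer lam pos (ρ ^ (-η)) d ρ → RpGr pos 𝒢₀ (ρ ^ η) →
        RpThin lam pos 𝒢₀ (ρ ^ (-η)) (d - τ) ρ →
        ∃ 𝒢 : ι → ι → Prop, RpGr pos 𝒢 (ρ ^ η) ∧ (∀ i j, 𝒢 i j → 𝒢₀ i j) ∧ pjMiss lam 𝒢₀ 𝒢 ≤ ρ ^ c ∧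
          PjHrd lam (pjF pos) 𝒢₀ 𝒢 (ρ ^ (-ε)) (d - ε) ρ := by
  obtain ⟨e, he⟩ : ∃ e, e = min ε d := ⟨_, rfl⟩
  have he0 : 0 < e := by rw [he]; exact lt_min hε hd
  have he1 : e ≤ ε := by rw [he]; exact min_le_left _ _
  have he2 : e ≤ d := by rw [he]; exact min_le_right _ _
  obtain ⟨ηK, hηK, ρK, hρK, HK⟩ := RW.ex_K d (d - e / 2) (e / 2) 2 hd.le (by linarith) (by positivity) (by norm_num)
  have hmin : min d (d - e / 2) = d - e / 2 := min_eq_right (by linarith)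
  obtain ⟨c, η, ρ₁, hc, hη, hρ₁, H⟩ := pj_high_pass A d (d - e / 2) (e / 2) ηK ρK ε hA hd hd1 hηK hρK
    (by rw [hmin]; linarith) (by positivity) hε
    (fun δ h0 h1 X T _ _ μ ν pt sl G M hT hF => HK δ h0 h1 X T μ ν pt sl G M hT hF)
  refine ⟨e / 2, c, η, min ρ₁ 1, by positivity, hc, hη, lt_min hρ₁ one_pos, ?_⟩
  intro ρ hρ0 hρlt ι _ lam pos 𝒢₀ hp her hg hth
  obtain ⟨𝒢, h1, h2, h3, h4⟩ := H ρ hρ0 (lt_of_lt_of_le hρlt (min_le_left _ _)) ι lam pos 𝒢₀ hp her hg hth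
  refine ⟨𝒢, h1, h2, h3, ?_⟩
  rw [hmin] at h4
  exact pj_her_mono hp.lam0 hρ0 le_rfl (Real.rpow_pos_of_pos hρ0 _).le le_rfl (by linarith) (fun _ _ h => h) h4

end Claimed.Agent.R256
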