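import Claimed.Agent.R256.Prj.Defs

/-!
# Row 256, Prj, unit PIN, file LOW-R: the heavy tubes through a pin have at most `2K` directions.      (chief helper186)
Lemma names:radial-low-product (04 l.2013-2076), first half.   Paper free, elementary.

## LEAF L-256-PRJ-LOWR  (`pj_low_rep`): PROVED (helper186)
Fix the pin `i`; `u_k = θ_k - θ_i`, `v_k = r_k - r_i`; `a = (4K²)^(-1/d)`, so `K a^d = 1/(4K)`, `a ≤ 1`; `s₀ = 4AKΔ/a`.
(1) For a low partner `j`: `1/K ≤ |u_j|, |v_j| ≤ 2A`, the slope `m_j = rpSl pos i j = v_j/u_j` has `|m_j| ≤ 2AK`; `dist (pos i) (pos j) = max |u_j| |v_j|` (sup metric of `ℝ × ℝ`: `Prod.dist_eq`, `Real.dist_eq`);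
    dividing the tube condition by `|u_j|`:  `k` in the tube  ⟹  `|v_k - m_j u_k| ≤ Δ max 1 |m_j| ≤ 2AKΔ`.
(2) The slab `{k : |u_k| ≤ a}` has mass `≤ K a^d = 1/(4K)` (`hfr` at `z = θ_i`, `r = a`, `Δ ≤ a ≤ 1`), so the tube minus the slab has mass `≥ 3/(4K)`.
(3) If `|m_j - m_j'| > s₀` the two sets (tube minus slab) are disjoint: a common `k` has `|u_k| |m_j - m_j'| ≤ 4AKΔ`, i.e. `|u_k| < a`.
(4) `S` := a subset of maximal cardinality among the subsets of `univ.filter (PjLow .. i)` with pairwise `|m_e - m_e'| > s₀` (pattern: `R255.rp_heavy_count`, `Finset.exists_max_image` on the powerset).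
    Disjointness and `∑ lam ≤ 1` give `card S * 3/(4K) ≤ 1`, so `card S ≤ 4K/3 ≤ 2K`; maximality gives the covering.
-/

set_option autoImplicit false

namespace Claimed.Agent.R256

open Finset Classical
open Claimed.Agent.R255
open Claimed.Agent.RW (KfFrost)

variable {ι : Type} [Fintype ι]

/-- a maximal `s₀`-separated subset -/
theorem pj_aux_sep_net {κ : Type} (P : Finset κ) (m : κ → ℝ) (s₀ : ℝ) (hs : 0 ≤ s₀) :
    ∃ S ⊆ P, (∀ e ∈ S, ∀ e' ∈ S, e ≠ e' → s₀ < |m e - m e'|) ∧ ∀ j ∈ P, ∃ e ∈ S, |m j - m e| ≤ s₀ := by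
  induction P using Finset.induction_on with
  | empty => exact ⟨∅, Finset.Subset.refl _, by simp, by simp⟩
  | insert a P _ ih =>
    obtain ⟨S, hSP, hsep, hcov⟩ := ih
    by_cases h : ∃ e ∈ S, |m a - m e| ≤ s₀
    · refine ⟨S, hSP.trans (Finset.subset_insert _ _), hsep, ?_⟩
      intro j hj
      rcases Finset.mem_insert.1 hj with rfl | hj
      · exact h
      · exact hcov j hj
    · push Not at h
      refine ⟨insert a S, Finset.insert_subset_insert _ hSP, ?_, ?_⟩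
      · intro e he e' he' hne
        rcases Finset.mem_insert.1 he with h1 | h1
        · rcases Finset.mem_insert.1 he' with h2 | h2
          · exact absurd (h1.trans h2.symm) hne
          · rw [h1]; exact h e' h2
        · rcases Finset.mem_insert.1 he' with h2 | h2
          · rw [h2, abs_sub_comm]; exact h e h1
          · exact hsep e h1 e' h2 hne
      · intro j hj
        rcases Finset.mem_insert.1 hj with rfl | hj
        · exact ⟨j, Finset.mem_insert_self _ _, by simpa using hs⟩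
        · obtain ⟨e, he, h2⟩ := hcov j hj
          exact ⟨e, Finset.mem_insert_of_mem he, h2⟩

/-- a point of the tube of a low pair is close to the line of slope `m_j` through the pin -/
theorem pj_low_line {lam : ι → ℝ} {pos : ι → ℝ × ℝ} {A K Δ : ℝ} (hp : RpPop lam pos A) (hK : 1 ≤ K) (hΔ : 0 < Δ)
    (i j k : ι) (hsep : PjSep pos K⁻¹ i j)
    (hk : |((pos k).1 - (pos i).1) * ((pos j).2 - (pos i).2) - ((pos k).2 - (pos i).2) * ((pos j).1 - (pos i).1)|
      ≤ Δ * dist (pos i) (pos j)) :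
    |((pos k).1 - (pos i).1) * rpSl pos i j - ((pos k).2 - (pos i).2)| ≤ 2 * A * K * Δ := by
  have hK0 : 0 < K := by linarith
  have hKi : 0 < K⁻¹ := inv_pos.2 hK0
  have hA0 : 0 ≤ A := (abs_nonneg _).trans (hp.bd i).1
  unfold rpSl
  obtain ⟨h1, -⟩ := hsep
  obtain ⟨u, hu⟩ : ∃ u : ℝ, u = (pos j).1 - (pos i).1 := ⟨_, rfl⟩
  obtain ⟨v, hv⟩ : ∃ v : ℝ, v = (pos j).2 - (pos i).2 := ⟨_, rfl⟩
  have hd : dist (pos i) (pos j) ≤ 2 * A := by
    rw [Prod.dist_eq, max_le_iff, Real.dist_eq, Real.dist_eq]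
    exact ⟨(abs_sub _ _).trans (by linarith [(hp.bd i).1, (hp.bd j).1]),
      (abs_sub _ _).trans (by linarith [(hp.bd i).2, (hp.bd j).2])⟩
  rw [← hu, ← hv] at hk
  rw [← hu] at h1
  rw [← hu, ← hv]
  have hu0 : 0 < |u| := lt_of_lt_of_le hKi h1
  have hune : u ≠ 0 := abs_pos.1 hu0
  obtain ⟨x, hx⟩ : ∃ x : ℝ, x = (pos k).1 - (pos i).1 := ⟨_, rfl⟩
  obtain ⟨y, hy⟩ : ∃ y : ℝ, y = (pos k).2 - (pos i).2 := ⟨_, rfl⟩
  rw [← hx, ← hy] at hk ⊢
  have e : x * (v / u) - y = (x * v - y * u) / u := by field_simp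
  rw [e, abs_div, div_le_iff₀ hu0]
  have h2 : Δ * dist (pos i) (pos j) ≤ Δ * (2 * A) := mul_le_mul_of_nonneg_left hd hΔ.le
  have h3 : 1 ≤ K * |u| := by
    have := mul_le_mul_of_nonneg_left h1 hK0.le
    rwa [mul_inv_cancel₀ hK0.ne'] at this
  have h4 : Δ * (2 * A) * 1 ≤ Δ * (2 * A) * (K * |u|) := mul_le_mul_of_nonneg_left h3 (by positivity)
  calc |x * v - y * u| ≤ Δ * (2 * A) * (K * |u|) := by linarith
    _ = 2 * A * K * Δ * |u| := by ring

theorem pj_low_rep {lam : ι → ℝ} {pos : ι → ℝ × ℝ} {A K d Δ : ℝ} (hp : RpPop lam pos A) (hA : 1 ≤ A) (hK : 1 ≤ K)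
    (hd : 0 < d) (hΔ : 0 < Δ) (hΔa : Δ ≤ (4 * K ^ 2) ^ (-(1 / d))) (hfr : KfFrost lam (fun i => (pos i).1) K d Δ) (i : ι) :
    ∃ S : Finset ι, (S.card : ℝ) ≤ 2 * K ∧ (∀ e ∈ S, PjLow lam pos K Δ i e) ∧
      ∀ j, PjLow lam pos K Δ i j → ∃ e ∈ S, |rpSl pos i j - rpSl pos i e| ≤ 4 * A * K * Δ / (4 * K ^ 2) ^ (-(1 / d)) := by
  have hK0 : 0 < K := by linarith
  obtain ⟨a, ha⟩ : ∃ a : ℝ, a = (4 * K ^ 2) ^ (-(1 / d)) := ⟨_, rfl⟩
  rw [← ha] at hΔa ⊢
  have hb : (1 : ℝ) ≤ 4 * K ^ 2 := by nlinarith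
  have ha0 : 0 < a := by rw [ha]; exact Real.rpow_pos_of_pos (by linarith) _
  have ha1 : a ≤ 1 := by
    rw [ha]
    exact Real.rpow_le_one_of_one_le_of_nonpos hb (by
      have : 0 < 1 / d := by positivity
      linarith)
  have had : K * a ^ d = 1 / (4 * K) := by
    rw [ha, ← Real.rpow_mul (by linarith)]
    have : -(1 / d) * d = -1 := by field_simp
    rw [this, Real.rpow_neg_one]
    field_simp
  obtain ⟨s₀, hs₀⟩ : ∃ s₀ : ℝ, s₀ = 4 * A * K * Δ / a := ⟨_, rfl⟩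
  rw [← hs₀]
  have hs0 : 0 ≤ s₀ := by rw [hs₀]; positivity
  obtain ⟨S, hSP, hsep, hcov⟩ := pj_aux_sep_net (univ.filter fun j => PjLow lam pos K Δ i j) (rpSl pos i) s₀ hs0
  have hSlow : ∀ e ∈ S, PjLow lam pos K Δ i e := fun e he => (Finset.mem_filter.1 (hSP he)).2
  refine ⟨S, ?_, hSlow, fun j hj => hcov j (Finset.mem_filter.2 ⟨Finset.mem_univ _, hj⟩)⟩
  -- the tubes minus the slab
  obtain ⟨U, hU⟩ : ∃ U : ι → Finset ι, U = fun e => univ.filter fun k =>
      |((pos k).1 - (pos i).1) * ((pos e).2 - (pos i).2) - ((pos k).2 - (pos i).2) * ((pos e).1 - (pos i).1)|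
        ≤ Δ * dist (pos i) (pos e) ∧ a < |(pos k).1 - (pos i).1| := ⟨_, rfl⟩
  have hslab : ∑ k with dist ((pos k).1) ((pos i).1) ≤ a, lam k ≤ 1 / (4 * K) := by
    rw [← had]; exact hfr (pos i).1 a hΔa ha1
  have hmass : ∀ e ∈ S, 3 / (4 * K) ≤ ∑ k ∈ U e, lam k := by
    intro e he
    have h1 := (hSlow e he).2
    unfold pjTube at h1
    have h2 : ∑ k with |((pos k).1 - (pos i).1) * ((pos e).2 - (pos i).2) - ((pos k).2 - (pos i).2) * ((pos e).1 - (pos i).1)|
        ≤ Δ * dist (pos i) (pos e), lam k ≤ ∑ k ∈ U e, lam k + ∑ k with dist ((pos k).1) ((pos i).1) ≤ a, lam k := by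
      rw [Finset.sum_filter, hU, Finset.sum_filter, Finset.sum_filter, ← Finset.sum_add_distrib]
      refine Finset.sum_le_sum fun k _ => ?_
      have hl := hp.lam0 k
      rw [Real.dist_eq]
      by_cases c1 : |((pos k).1 - (pos i).1) * ((pos e).2 - (pos i).2) - ((pos k).2 - (pos i).2) * ((pos e).1 - (pos i).1)|
        ≤ Δ * dist (pos i) (pos e)
      · by_cases c2 : |(pos k).1 - (pos i).1| ≤ a
        · rw [if_pos c1, if_neg (fun h => absurd h.2 (not_lt.2 c2)), if_pos c2]; linarith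
        · rw [if_pos c1, if_pos ⟨c1, not_le.1 c2⟩, if_neg c2]; linarith
      · rw [if_neg c1, if_neg (fun h => c1 h.1)]
        split_ifs <;> linarith
    have h3 : K⁻¹ = 4 / (4 * K) := by field_simp
    have h4 : (4 : ℝ) / (4 * K) = 3 / (4 * K) + 1 / (4 * K) := by ring
    linarith
  have hdisj : ∀ e ∈ S, ∀ e' ∈ S, e ≠ e' → Disjoint (U e) (U e') := by
    intro e he e' he' hne
    rw [Finset.disjoint_left]
    intro k hk hk'
    rw [hU] at hk hk'
    simp only [Finset.mem_filter, Finset.mem_univ, true_and] at hk hk'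
    have l1 := pj_low_line hp hK hΔ i e k (hSlow e he).1 hk.1
    have l2 := pj_low_line hp hK hΔ i e' k (hSlow e' he').1 hk'.1
    have l3 := hsep e he e' he' hne
    obtain ⟨x, hx⟩ : ∃ x : ℝ, x = (pos k).1 - (pos i).1 := ⟨_, rfl⟩
    rw [← hx] at l1 l2 hk
    have l4 : |x * (rpSl pos i e - rpSl pos i e')| ≤ 4 * A * K * Δ := by
      have e1 : x * (rpSl pos i e - rpSl pos i e')
          = (x * rpSl pos i e - ((pos k).2 - (pos i).2)) - (x * rpSl pos i e' - ((pos k).2 - (pos i).2)) := by ring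
      rw [e1]
      exact (abs_sub _ _).trans (by linarith)
    rw [abs_mul] at l4
    have l5 : a * s₀ = 4 * A * K * Δ := by rw [hs₀]; field_simp
    have l6 : a * s₀ < |x| * |rpSl pos i e - rpSl pos i e'| :=
      mul_lt_mul'' hk.2 l3 ha0.le hs0
    linarith
  have htot : ∑ e ∈ S, ∑ k ∈ U e, lam k ≤ 1 := by
    rw [← Finset.sum_biUnion (fun e he e' he' hne => hdisj e he e' he' hne)]
    exact (Finset.sum_le_sum_of_subset_of_nonneg (Finset.subset_univ _) fun k _ _ => hp.lam0 k).trans hp.lam1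
  have hcard : (S.card : ℝ) * (3 / (4 * K)) ≤ 1 := by
    refine le_trans ?_ htot
    rw [← nsmul_eq_mul]
    exact Finset.card_nsmul_le_sum S _ _ hmass
  have h5 : (S.card : ℝ) * (3 / (4 * K)) = (S.card : ℝ) * 3 / (4 * K) := by ring
  rw [h5, div_le_one (by positivity)] at hcard
  have : (0 : ℝ) ≤ S.card := Nat.cast_nonneg _
  linarith

end Claimed.Agent.R256
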