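import Claimed.Agent.R256.Prj.PinLow

/-!
# Row 256, Prj, unit PIN, file LOW-H: on heavy tubes the pin product is hereditarily Frostman `d`.      (chief helper186)
Lemma names:radial-low-product (04 l.2013-2076) in hereditary form.   Paper free, elementary.   Needs `pj_low_rep`.
Notation: pin `i`; `u_k = θ_k - θ_i`, `v_k = r_k - r_i`, `f(k) = pjF pos i k = u_k v_k`; `a = (4K²)^(-1/d)`, `s₀ = 4AKΔ/a`, `Δ₂ = pjD2 A K d Δ = 4A s₀`, `Γ = pjGam A K d = A K² (2 + 32 A³ K / a)`;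
`I_l(k)` = the dyadic interval of level `l` of `θ_k`;  `PjDense κ`: for every level `l` with `Δ ≤ 2^-l` the `Δ₂`-tube of `(i,j)` carries at least the fraction `κ` of `lam (I_l(j))`.

## LEAF L-256-PRJ-LOWM  (`pj_low_miss`, ~200 lines)
Fix `i`, `S` from `pj_low_rep`.  For `e ∈ S` let `T_e = {k : |v_k - m_e u_k| ≤ 2A s₀}`.  If `j` is low with `|m_j - m_e| ≤ s₀` then `j ∈ T_e` and `T_e ⊆` the `Δ₂`-tube of `(i,j)`
(`|v_k - m_j u_k| ≤ 4A s₀`, multiply by `|u_j| ≤ dist`).  So if `j` is not dense at the level `l`, then `lam (I_l(j) ∩ T_e) < κ lam (I_l(j))`; the set of such `j ∈ T_e` has mass `≤ κ` (sum over the intervals of level `l`).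
Union over `e ∈ S` (`≤ 2K`) and `l ≤ Lv`; then sum over `i` with `∑ lam ≤ 1`.
## LEAF L-256-PRJ-LOWH  (`pj_low_her`, ~450 lines)
Let `(i,j)` be low and dense, `Δ ≤ w' ≤ w ≤ 1`; `N'` = left side, `M = pjM lam f True i j w`.   `C = 12 K² (128 A² K Γ)/κ ≥ (128 A² K Γ)^d`.
TRIVIAL RANGES (`N' ≤ M` and `C (w'/w)^d ≥ 1`):  `w' > w/2`;   `w < 16 A² K Δ₂`  (then `w'/w ≥ Δ/w`);   `128 A² K Γ w' > w`.
MAIN RANGE.  (1) two points `y, y₀` of the narrow set with the same representative `e ∈ S` and the same sign of `u`: `|f - m_e u²| ≤ 4A² s₀`, so `|m_e| |u_y² - u_y₀²| ≤ 2w' + 8A² s₀`, `|u_y + u_y₀| ≥ 2/K`, `|m_e| ≥ 1/(2AK)`, `s₀ ≤ 4AK w'/a`: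
 `|θ_y - θ_y₀| ≤ Γ w'`.   (2) `l'` := the largest level with `Γ w' ≤ 2^-l'`: each group `(e, sign)` meets at most 3 dyadic intervals of level `l'`: at most `12K` intervals `c'`, each containing a point `y₀` of the narrow set.
 (3) `l` := the least level with `2^-l ≤ w/(32 A² K)`; then `w/(64 A² K) < 2^-l`, `Δ ≤ 2^-l`, `l ≤ l'`, `2^-(l'-l) < 128 A² K Γ w'/w`.
 (4) every `k ∈ I_l(y₀)` in the `Δ₂`-tube of `(i,y₀)` has `|f(k) - f(y₀)| ≤ 8A²K 2^-l + 4A²K Δ₂ ≤ w/2`, so `|f(k) - f(j)| ≤ w`.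
 (5) `lam c' ≤ K (2^-(l'-l))^d lam (I_l(y₀)) ≤ K (..)^d κ⁻¹ lam (I_l(y₀) ∩ tube) ≤ K (..)^d κ⁻¹ M`  (`htree`, density of `y₀`).   Sum over the `12K` intervals.
-/

set_option autoImplicit false

namespace Claimed.Agent.R256

open Finset Classical
open Claimed.Agent.R255
open Claimed.Agent.RW (KfFrost)

/-- the enlarged tube width -/
noncomputable def pjD2 (A K d Δ : ℝ) : ℝ := 16 * A ^ 2 * K * Δ / (4 * K ^ 2) ^ (-(1 / d))

/-- the distortion constant -/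
noncomputable def pjGam (A K d : ℝ) : ℝ := A * K ^ 2 * (2 + 32 * A ^ 3 * K / (4 * K ^ 2) ^ (-(1 / d)))

variable {ι : Type} [Fintype ι]

/-- the enlarged joining tube is dense in every dyadic time interval around the partner -/
def PjDense (lam : ι → ℝ) (pos : ι → ℝ × ℝ) (κ Δ₂ Δ : ℝ) (i j : ι) : Prop :=
  ∀ l : ℕ, Δ ≤ (1 / 2 : ℝ) ^ l →
    κ * ∑ k with icCell l (pos k).1 = icCell l (pos j).1, lam k ≤
      ∑ k with icCell l (pos k).1 = icCell l (pos j).1 ∧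
        |((pos k).1 - (pos i).1) * ((pos j).2 - (pos i).2) - ((pos k).2 - (pos i).2) * ((pos j).1 - (pos i).1)|
          ≤ Δ₂ * dist (pos i) (pos j), lam k

theorem pj_lowh_eqns_cite : True := by
  have := @pjD2.eq_1
  have := @pjGam.eq_1
  have := @PjDense.eq_1
  trivial

/-! ### helpers of `pj_low_miss` (prefix `pj_lm_`) -/

theorem pj_lm_cover {α β : Type} (f : α → ℝ) (hf : ∀ a, 0 ≤ f a) (s : Finset α) (I : Finset β) (t : β → Finset α)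
    (h : ∀ a ∈ s, ∃ b ∈ I, a ∈ t b) : ∑ a ∈ s, f a ≤ ∑ b ∈ I, ∑ a ∈ t b, f a := by
  calc ∑ a ∈ s, f a ≤ ∑ a ∈ s, ∑ b ∈ I, (if a ∈ t b then f a else 0) := by
        refine Finset.sum_le_sum fun a ha => ?_
        obtain ⟨b, hb, hab⟩ := h a ha
        calc f a = (if a ∈ t b then f a else 0) := by rw [if_pos hab]
          _ ≤ _ := Finset.single_le_sum (f := fun b => if a ∈ t b then f a else 0)
            (fun b _ => by split_ifs <;> simp [hf a]) hb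
    _ = ∑ b ∈ I, ∑ a ∈ s, (if a ∈ t b then f a else 0) := Finset.sum_comm
    _ ≤ ∑ b ∈ I, ∑ a ∈ t b, f a := by
        refine Finset.sum_le_sum fun b _ => ?_
        rw [← Finset.sum_filter]
        exact Finset.sum_le_sum_of_subset_of_nonneg (fun a ha => (Finset.mem_filter.1 ha).2) (fun a _ _ => hf a)

/-- the points of `T` in the cells in which `T` is not `κ`-dense have mass `≤ κ` -/
theorem pj_lm_cell {lam : ι → ℝ} (h0 : ∀ i, 0 ≤ lam i) (h1 : ∑ i, lam i ≤ 1) (g : ι → ℤ) (T : ι → Prop) {κ : ℝ} (hκ : 0 ≤ κ) :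
    ∑ j with T j ∧ ∑ k with g k = g j ∧ T k, lam k < κ * ∑ k with g k = g j, lam k, lam j ≤ κ := by
  obtain ⟨B, hB⟩ : ∃ B : Finset ι, B = univ.filter (fun j => T j ∧ ∑ k with g k = g j ∧ T k, lam k < κ * ∑ k with g k = g j, lam k) :=
    ⟨_, rfl⟩
  rw [← hB]
  calc ∑ j ∈ B, lam j = ∑ c ∈ B.image g, ∑ j ∈ B with g j = c, lam j :=
        (Finset.sum_fiberwise_of_maps_to (fun j hj => Finset.mem_image_of_mem g hj) _).symm
    _ ≤ ∑ c ∈ B.image g, κ * ∑ k with g k = c, lam k := by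
        refine Finset.sum_le_sum fun c hc => ?_
        obtain ⟨j₀, hj₀, rfl⟩ := Finset.mem_image.1 hc
        rw [hB] at hj₀
        have h2 := (Finset.mem_filter.1 hj₀).2.2
        refine le_trans ?_ h2.le
        refine Finset.sum_le_sum_of_subset_of_nonneg ?_ (fun k _ _ => h0 k)
        intro k hk
        obtain ⟨hkB, hkg⟩ := Finset.mem_filter.1 hk
        rw [hB] at hkB
        exact Finset.mem_filter.2 ⟨Finset.mem_univ _, hkg, (Finset.mem_filter.1 hkB).2.1⟩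
    _ = κ * ∑ c ∈ B.image g, ∑ k with g k = c, lam k := by rw [Finset.mul_sum]
    _ ≤ κ * ∑ c ∈ univ.image g, ∑ k with g k = c, lam k := by
        refine mul_le_mul_of_nonneg_left ?_ hκ
        exact Finset.sum_le_sum_of_subset_of_nonneg (Finset.image_subset_image (Finset.subset_univ _))
          (fun c _ _ => Finset.sum_nonneg fun k _ => h0 k)
    _ = κ * ∑ k, lam k := by rw [Finset.sum_fiberwise_of_maps_to (fun j hj => Finset.mem_image_of_mem g hj)]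
    _ ≤ κ := by nlinarith

theorem pj_lm_tube {uj vj uk vk me s₀ A : ℝ} (huj : uj ≠ 0) (h1 : |vj / uj - me| ≤ s₀) (h2 : |vk - me * uk| ≤ 2 * A * s₀)
    (h3 : |uk| ≤ 2 * A) : |uk * vj - vk * uj| ≤ 4 * A * s₀ * |uj| := by
  have e : uk * vj - vk * uj = (-(vk - me * uk) + (vj / uj - me) * uk) * uj := by field_simp; ring
  rw [e, abs_mul]
  refine mul_le_mul_of_nonneg_right ?_ (abs_nonneg _)
  have h4 : |(vj / uj - me) * uk| ≤ s₀ * (2 * A) := by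
    rw [abs_mul]
    exact mul_le_mul h1 h3 (abs_nonneg _) ((abs_nonneg _).trans h1)
  calc _ ≤ |-(vk - me * uk)| + |(vj / uj - me) * uk| := abs_add_le _ _
    _ ≤ 2 * A * s₀ + s₀ * (2 * A) := by rw [abs_neg]; exact add_le_add h2 h4
    _ = _ := by ring

theorem pj_lm_self {uj vj me s₀ A : ℝ} (huj : uj ≠ 0) (h1 : |vj / uj - me| ≤ s₀) (h3 : |uj| ≤ 2 * A) :
    |vj - me * uj| ≤ 2 * A * s₀ := by
  have e : vj - me * uj = (vj / uj - me) * uj := by field_simp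
  rw [e, abs_mul]
  calc _ ≤ s₀ * (2 * A) := mul_le_mul h1 h3 (abs_nonneg _) ((abs_nonneg _).trans h1)
    _ = _ := by ring

theorem pj_lm_bd {lam : ι → ℝ} {pos : ι → ℝ × ℝ} {A : ℝ} (hp : RpPop lam pos A) (i k : ι) :
    |(pos k).1 - (pos i).1| ≤ 2 * A ∧ |(pos k).2 - (pos i).2| ≤ 2 * A := by
  obtain ⟨a1, a2⟩ := hp.bd i
  obtain ⟨b1, b2⟩ := hp.bd k
  rw [abs_le] at a1 a2 b1 b2
  constructor <;> rw [abs_le] <;> constructor <;> linarith [a1.1, a1.2, a2.1, a2.2, b1.1, b1.2, b2.1, b2.2]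

omit [Fintype ι] in
theorem pj_lm_dist (pos : ι → ℝ × ℝ) (i j : ι) :
    |(pos j).1 - (pos i).1| ≤ dist (pos i) (pos j) ∧ |(pos j).2 - (pos i).2| ≤ dist (pos i) (pos j) := by
  rw [Prod.dist_eq, Real.dist_eq, Real.dist_eq, abs_sub_comm (pos i).1, abs_sub_comm (pos i).2]
  exact ⟨le_max_left _ _, le_max_right _ _⟩

theorem pj_lm_dist_le {lam : ι → ℝ} {pos : ι → ℝ × ℝ} {A : ℝ} (hp : RpPop lam pos A) (i j : ι) : dist (pos i) (pos j) ≤ 2 * A := by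
  rw [Prod.dist_eq, Real.dist_eq, Real.dist_eq, abs_sub_comm (pos i).1, abs_sub_comm (pos i).2]
  exact max_le (pj_lm_bd hp i j).1 (pj_lm_bd hp i j).2

theorem pj_lm_ne {lam : ι → ℝ} {pos : ι → ℝ × ℝ} {K Δ : ℝ} (hK : 1 ≤ K) {i j : ι} (h : PjLow lam pos K Δ i j) :
    (pos j).1 - (pos i).1 ≠ 0 := by
  intro h0
  have h1 := h.1.1
  rw [h0, abs_zero] at h1
  have : 0 < K⁻¹ := by positivity
  linarith

theorem pj_low_miss {lam : ι → ℝ} {pos : ι → ℝ × ℝ} {A K d Δ κ : ℝ} (hp : RpPop lam pos A) (hA : 1 ≤ A) (hK : 1 ≤ K)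
    (hd : 0 < d) (hΔ : 0 < Δ) (hΔa : Δ ≤ (4 * K ^ 2) ^ (-(1 / d))) (hfr : KfFrost lam (fun i => (pos i).1) K d Δ)
    (hκ : 0 ≤ κ) (Lv : ℕ) (hLv : (1 / 2 : ℝ) ^ (Lv + 1) < Δ) :
    pjMiss lam (PjLow lam pos K Δ) (fun i j => PjLow lam pos K Δ i j ∧ PjDense lam pos κ (pjD2 A K d Δ) Δ i j)
      ≤ 2 * K * (Lv + 1) * κ := by
  have hb : ∀ i, ∑ j with PjLow lam pos K Δ i j ∧ ¬(PjLow lam pos K Δ i j ∧ PjDense lam pos κ (pjD2 A K d Δ) Δ i j), lam j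
      ≤ 2 * K * (Lv + 1) * κ := by
    intro i
    obtain ⟨S, hS1, hS2, hS3⟩ := pj_low_rep hp hA hK hd hΔ hΔa hfr i
    obtain ⟨s₀, hs₀⟩ : ∃ s₀ : ℝ, s₀ = 4 * A * K * Δ / (4 * K ^ 2) ^ (-(1 / d)) := ⟨_, rfl⟩
    rw [← hs₀] at hS3
    have hD2 : pjD2 A K d Δ = 4 * A * s₀ := by unfold pjD2; rw [hs₀]; ring
    have hcov := pj_lm_cover lam hp.lam0
      (univ.filter fun j => PjLow lam pos K Δ i j ∧ ¬(PjLow lam pos K Δ i j ∧ PjDense lam pos κ (pjD2 A K d Δ) Δ i j))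
      (S ×ˢ Finset.range (Lv + 1))
      (fun b => univ.filter fun j => |((pos j).2 - (pos i).2) - rpSl pos i b.1 * ((pos j).1 - (pos i).1)| ≤ 2 * A * s₀ ∧
        ∑ k with icCell b.2 (pos k).1 = icCell b.2 (pos j).1 ∧
            |((pos k).2 - (pos i).2) - rpSl pos i b.1 * ((pos k).1 - (pos i).1)| ≤ 2 * A * s₀, lam k
          < κ * ∑ k with icCell b.2 (pos k).1 = icCell b.2 (pos j).1, lam k) (by
        intro j hj
        obtain ⟨hlow, hnd⟩ := (Finset.mem_filter.1 hj).2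
        have hnd' : ¬ PjDense lam pos κ (pjD2 A K d Δ) Δ i j := fun h => hnd ⟨hlow, h⟩
        unfold PjDense at hnd'
        push Not at hnd'
        obtain ⟨l, hl, hlt⟩ := hnd'
        have hlLv : l < Lv + 1 := by
          by_contra hcon
          have : (1 / 2 : ℝ) ^ l ≤ (1 / 2 : ℝ) ^ (Lv + 1) := pow_le_pow_of_le_one (by norm_num) (by norm_num) (not_lt.1 hcon)
          linarith
        obtain ⟨e, he, hme⟩ := hS3 j hlow
        have hne := pj_lm_ne hK hlow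
        refine ⟨(e, l), Finset.mem_product.2 ⟨he, Finset.mem_range.2 hlLv⟩, Finset.mem_filter.2 ⟨Finset.mem_univ _, ?_, ?_⟩⟩
        · exact pj_lm_self hne hme (pj_lm_bd hp i j).1
        · refine lt_of_le_of_lt ?_ hlt
          refine Finset.sum_le_sum_of_subset_of_nonneg ?_ (fun k _ _ => hp.lam0 k)
          intro k hk
          obtain ⟨hk1, hk2⟩ := (Finset.mem_filter.1 hk).2
          refine Finset.mem_filter.2 ⟨Finset.mem_univ _, hk1, ?_⟩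
          rw [hD2]
          refine (pj_lm_tube hne hme hk2 (pj_lm_bd hp i k).1).trans ?_
          refine mul_le_mul_of_nonneg_left (pj_lm_dist pos i j).1 ?_
          have : 0 ≤ s₀ := (abs_nonneg _).trans hme
          positivity)
    calc _ ≤ _ := hcov
      _ ≤ ∑ b ∈ S ×ˢ Finset.range (Lv + 1), κ := Finset.sum_le_sum fun b _ =>
          pj_lm_cell hp.lam0 hp.lam1 (fun k => icCell b.2 (pos k).1)
            (fun k => |((pos k).2 - (pos i).2) - rpSl pos i b.1 * ((pos k).1 - (pos i).1)| ≤ 2 * A * s₀) hκ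
      _ = (S.card : ℝ) * (Lv + 1) * κ := by
          rw [Finset.sum_const, Finset.card_product, Finset.card_range, nsmul_eq_mul]
          push_cast
          ring
      _ ≤ 2 * K * (Lv + 1) * κ := by gcongr
  unfold pjMiss
  have hB0 : 0 ≤ 2 * K * (Lv + 1) * κ := by positivity
  calc _ = ∑ i, lam i * ∑ j with PjLow lam pos K Δ i j ∧ ¬(PjLow lam pos K Δ i j ∧ PjDense lam pos κ (pjD2 A K d Δ) Δ i j), lam j := by
        refine Finset.sum_congr rfl fun i _ => ?_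
        rw [Finset.mul_sum]
        refine Finset.sum_congr ?_ fun _ _ => rfl
        ext j
        simp only [Finset.mem_filter, Finset.mem_univ, true_and]
    _ ≤ ∑ i, lam i * (2 * K * (Lv + 1) * κ) := Finset.sum_le_sum fun i _ => mul_le_mul_of_nonneg_left (hb i) (hp.lam0 i)
    _ = (∑ i, lam i) * (2 * K * (Lv + 1) * κ) := by rw [Finset.sum_mul]
    _ ≤ 1 * (2 * K * (Lv + 1) * κ) := mul_le_mul_of_nonneg_right hp.lam1 hB0
    _ = _ := one_mul _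

/-! ### helpers of `pj_low_her` (prefix `pj_lh_`) -/

theorem pj_lh_triv {N' M C x d : ℝ} (hNM : N' ≤ M) (hM : 0 ≤ M) (hx0 : 0 < x) (hx1 : x ≤ 1) (hd1 : d ≤ 1) (hC : 0 ≤ C)
    (h : 1 ≤ C * x) : N' ≤ C * x ^ d * M := by
  have h1 : x ≤ x ^ d := by
    calc x = x ^ (1 : ℝ) := (Real.rpow_one x).symm
      _ ≤ x ^ d := Real.rpow_le_rpow_of_exponent_ge hx0 hx1 hd1
  have h2 : 1 ≤ C * x ^ d := h.trans (mul_le_mul_of_nonneg_left h1 hC)
  calc N' ≤ 1 * M := by rw [one_mul]; exact hNM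
    _ ≤ _ := mul_le_mul_of_nonneg_right h2 hM

/-- (1): two points of the narrow set with the same representative and the same sign of `u` -/
theorem pj_lh_group {uy vy u0 v0 me s₀ A K w' : ℝ} (hA : 1 ≤ A) (hK : 1 ≤ K)
    (hy1 : K⁻¹ ≤ |uy|) (h01 : K⁻¹ ≤ |u0|) (hy2 : |uy| ≤ 2 * A) (h02 : |u0| ≤ 2 * A)
    (hmy : |vy / uy - me| ≤ s₀) (hm0 : |v0 / u0 - me| ≤ s₀) (hsg : 0 < uy ↔ 0 < u0) (hme : (2 * A * K)⁻¹ ≤ |me|)
    (hf : |uy * vy - u0 * v0| ≤ 2 * w') : |uy - u0| ≤ A * K ^ 2 * (2 * w' + 8 * A ^ 2 * s₀) := by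
  have hKi : 0 < K⁻¹ := by positivity
  have hy0 : uy ≠ 0 := fun h => by rw [h, abs_zero] at hy1; linarith
  have h00 : u0 ≠ 0 := fun h => by rw [h, abs_zero] at h01; linarith
  have hs : 0 ≤ s₀ := (abs_nonneg _).trans hmy
  have sq : ∀ u : ℝ, |u| ≤ 2 * A → |u ^ 2| ≤ 4 * A ^ 2 := by
    intro u hu
    rw [abs_pow]
    nlinarith [abs_nonneg u]
  have b1 : |uy * vy - me * uy ^ 2| ≤ s₀ * (4 * A ^ 2) := by
    have e : uy * vy - me * uy ^ 2 = (vy / uy - me) * uy ^ 2 := by field_simp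
    rw [e, abs_mul]
    exact mul_le_mul hmy (sq uy hy2) (abs_nonneg _) hs
  have b2 : |u0 * v0 - me * u0 ^ 2| ≤ s₀ * (4 * A ^ 2) := by
    have e : u0 * v0 - me * u0 ^ 2 = (v0 / u0 - me) * u0 ^ 2 := by field_simp
    rw [e, abs_mul]
    exact mul_le_mul hm0 (sq u0 h02) (abs_nonneg _) hs
  have b3 : |me * ((uy - u0) * (uy + u0))| ≤ 2 * w' + 8 * A ^ 2 * s₀ := by
    have e : me * ((uy - u0) * (uy + u0)) = -(uy * vy - me * uy ^ 2) + (u0 * v0 - me * u0 ^ 2) + (uy * vy - u0 * v0) := by ring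
    rw [e]
    rw [abs_le] at b1 b2 hf ⊢
    constructor <;> linarith [b1.1, b1.2, b2.1, b2.2, hf.1, hf.2]
  have b4 : 2 * K⁻¹ ≤ |uy + u0| := by
    by_cases hpos : 0 < uy
    · have h0p := hsg.1 hpos
      rw [abs_of_pos hpos] at hy1
      rw [abs_of_pos h0p] at h01
      rw [abs_of_pos (by linarith)]
      linarith
    · have hyn : uy < 0 := lt_of_le_of_ne (not_lt.1 hpos) hy0
      have h0n : u0 < 0 := lt_of_le_of_ne (not_lt.1 fun h => hpos (hsg.2 h)) h00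
      rw [abs_of_neg hyn] at hy1
      rw [abs_of_neg h0n] at h01
      rw [abs_of_neg (by linarith)]
      linarith
  rw [abs_mul, abs_mul] at b3
  have b5 : (2 * A * K)⁻¹ * (|uy - u0| * (2 * K⁻¹)) ≤ 2 * w' + 8 * A ^ 2 * s₀ :=
    le_trans (mul_le_mul hme (mul_le_mul_of_nonneg_left b4 (abs_nonneg _)) (by positivity) (abs_nonneg _)) b3
  have e5 : (2 * A * K)⁻¹ * (|uy - u0| * (2 * K⁻¹)) = |uy - u0| / (A * K ^ 2) := by field_simp
  rw [e5, div_le_iff₀ (by positivity)] at b5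
  linarith

/-- (4): the pin product on the enlarged tube inside a short time interval -/
theorem pj_lh_wide {uk vk u0 v0 A K Δ₂ D h : ℝ} (hA : 1 ≤ A) (hK : 1 ≤ K) (hΔ₂ : 0 ≤ Δ₂) (hD : D ≤ 2 * A)
    (ht : |uk * v0 - vk * u0| ≤ Δ₂ * D) (h01 : K⁻¹ ≤ |u0|) (h02 : |u0| ≤ 2 * A) (h03 : |v0| ≤ 2 * A) (hk : |uk| ≤ 2 * A)
    (hh : |uk - u0| ≤ h) : |uk * vk - u0 * v0| ≤ 8 * A ^ 2 * K * h + 4 * A ^ 2 * K * Δ₂ := by
  have hK0 : 0 < K := by linarith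
  have hh0 : 0 ≤ h := (abs_nonneg _).trans hh
  have e : u0 * (uk * vk - u0 * v0) = -(uk * (uk * v0 - vk * u0)) + v0 * ((uk - u0) * (uk + u0)) := by ring
  have c1 : |uk * (uk * v0 - vk * u0)| ≤ 2 * A * (Δ₂ * (2 * A)) := by
    rw [abs_mul]
    exact mul_le_mul hk (ht.trans (mul_le_mul_of_nonneg_left hD hΔ₂)) (abs_nonneg _) (by positivity)
  have c2 : |uk + u0| ≤ 4 * A := (abs_add_le _ _).trans (by linarith)
  have c3 : |v0 * ((uk - u0) * (uk + u0))| ≤ 2 * A * (h * (4 * A)) := by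
    rw [abs_mul, abs_mul]
    exact mul_le_mul h03 (mul_le_mul hh c2 (abs_nonneg _) hh0) (by positivity) (by positivity)
  have c4 : |u0| * |uk * vk - u0 * v0| ≤ 2 * A * (Δ₂ * (2 * A)) + 2 * A * (h * (4 * A)) := by
    rw [← abs_mul, e]
    refine (abs_add_le _ _).trans ?_
    rw [abs_neg]
    exact add_le_add c1 c3
  have c5 : K⁻¹ * |uk * vk - u0 * v0| ≤ 2 * A * (Δ₂ * (2 * A)) + 2 * A * (h * (4 * A)) :=
    le_trans (mul_le_mul_of_nonneg_right h01 (abs_nonneg _)) c4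
  rw [inv_mul_le_iff₀ hK0] at c5
  linarith

theorem pj_lh_cell_dist {l : ℕ} {x y : ℝ} (h : icCell l x = icCell l y) : |x - y| ≤ (1 / 2 : ℝ) ^ l := by
  unfold icCell at h
  have h1 := Int.abs_sub_lt_one_of_floor_eq_floor h
  have h2 : (0 : ℝ) < 2 ^ l := by positivity
  rw [← sub_mul, abs_mul, abs_of_pos h2] at h1
  rw [one_div, inv_pow, ← one_div, le_div_iff₀ h2]
  exact h1.le

theorem pj_lh_cell_near {l : ℕ} {x y : ℝ} (h : |x - y| ≤ (1 / 2 : ℝ) ^ l) :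
    icCell l x ∈ ({icCell l y - 1, icCell l y, icCell l y + 1} : Finset ℤ) := by
  have h2 : (0 : ℝ) < 2 ^ l := by positivity
  rw [one_div, inv_pow, ← one_div, le_div_iff₀ h2, ← abs_of_pos h2, ← abs_mul, sub_mul] at h
  unfold icCell
  rw [abs_le] at h
  have a1 := Int.floor_le (x * 2 ^ l)
  have a2 := Int.lt_floor_add_one (x * 2 ^ l)
  have b1 := Int.floor_le (y * 2 ^ l)
  have b2 := Int.lt_floor_add_one (y * 2 ^ l)
  have c1 : ⌊y * 2 ^ l⌋ - 1 ≤ ⌊x * 2 ^ l⌋ := by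
    have : ((⌊y * 2 ^ l⌋ - 1 : ℤ) : ℝ) < (⌊x * 2 ^ l⌋ : ℝ) + 1 := by push_cast; linarith [h.1]
    have : ⌊y * 2 ^ l⌋ - 1 < ⌊x * 2 ^ l⌋ + 1 := by exact_mod_cast this
    omega
  have c2 : ⌊x * 2 ^ l⌋ ≤ ⌊y * 2 ^ l⌋ + 1 := by
    have : (⌊x * 2 ^ l⌋ : ℝ) < ((⌊y * 2 ^ l⌋ + 1 + 1 : ℤ) : ℝ) := by push_cast; linarith [h.2]
    have : ⌊x * 2 ^ l⌋ < ⌊y * 2 ^ l⌋ + 1 + 1 := by exact_mod_cast this
    omega
  simp only [Finset.mem_insert, Finset.mem_singleton]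
  omega

omit [Fintype ι] in
/-- (2): every group meets at most three cells -/
theorem pj_lh_count {γ : Type} [DecidableEq γ] (Y : Finset ι) (θ : ι → ℝ) (gr : ι → γ) (l : ℕ)
    (h : ∀ y ∈ Y, ∀ y₀ ∈ Y, gr y = gr y₀ → |θ y - θ y₀| ≤ (1 / 2 : ℝ) ^ l) :
    (Y.image (fun y => icCell l (θ y))).card ≤ (Y.image gr).card * 3 := by
  have hsub : Y.image (fun y => icCell l (θ y)) ⊆
      (Y.image gr).biUnion (fun c => (Y.filter (fun y => gr y = c)).image (fun y => icCell l (θ y))) := by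
    intro c hc
    obtain ⟨y, hy, rfl⟩ := Finset.mem_image.1 hc
    exact Finset.mem_biUnion.2 ⟨gr y, Finset.mem_image_of_mem gr hy,
      Finset.mem_image_of_mem _ (Finset.mem_filter.2 ⟨hy, rfl⟩)⟩
  refine (Finset.card_le_card hsub).trans (Finset.card_biUnion_le_card_mul _ _ 3 ?_)
  intro c hc
  obtain ⟨y₀, hy₀, rfl⟩ := Finset.mem_image.1 hc
  refine le_trans (Finset.card_le_card ?_) (Finset.card_le_three (a := icCell l (θ y₀) - 1) (b := icCell l (θ y₀)) (c := icCell l (θ y₀) + 1))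
  intro c hc
  obtain ⟨y, hy, rfl⟩ := Finset.mem_image.1 hc
  obtain ⟨hyY, hyg⟩ := Finset.mem_filter.1 hy
  exact pj_lh_cell_near (h y hyY y₀ hy₀ hyg)

/-- (2), (3): the two levels -/
theorem pj_lh_levels {A K Γ w w' : ℝ} (hA : 1 ≤ A) (hK : 1 ≤ K) (hΓ : 1 ≤ Γ) (hw' : 0 < w') (hw1 : w ≤ 1)
    (hG : 128 * A ^ 2 * K * Γ * w' ≤ w) :
    ∃ l l' : ℕ, l ≤ l' ∧ Γ * w' ≤ (1 / 2 : ℝ) ^ l' ∧ (1 / 2 : ℝ) ^ l ≤ w / (32 * A ^ 2 * K) ∧ w / (64 * A ^ 2 * K) ≤ (1 / 2 : ℝ) ^ l ∧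
      (1 / 2 : ℝ) ^ (l' - l) ≤ 128 * A ^ 2 * K * Γ * (w' / w) := by
  have hAK : 1 ≤ A ^ 2 * K := by nlinarith [mul_nonneg (sub_nonneg.2 hA) (sub_nonneg.2 hA)]
  have hAK0 : 0 < A ^ 2 * K := by linarith
  have hΓw : 0 < Γ * w' := by positivity
  have hw0 : 0 < w := lt_of_lt_of_le (by positivity) hG
  have hΓw1 : 128 * (A ^ 2 * K) * (Γ * w') ≤ w := by linarith
  have hΓw2 : Γ * w' ≤ 1 := by nlinarith
  obtain ⟨l', hl'1, hl'2⟩ := exists_nat_pow_near_of_lt_one hΓw hΓw2 (by norm_num : (0 : ℝ) < 1 / 2) (by norm_num)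
  have hx0 : 0 < w / (32 * A ^ 2 * K) := by positivity
  have hx1 : w / (32 * A ^ 2 * K) ≤ 1 := by
    rw [div_le_one (by positivity)]
    nlinarith
  obtain ⟨n, hn1, hn2⟩ := exists_nat_pow_near_of_lt_one hx0 hx1 (by norm_num : (0 : ℝ) < 1 / 2) (by norm_num)
  have hl3 : w / (64 * A ^ 2 * K) ≤ (1 / 2 : ℝ) ^ (n + 1) := by
    have e : w / (64 * A ^ 2 * K) = w / (32 * A ^ 2 * K) * (1 / 2) := by field_simp; ring
    rw [e, pow_succ]
    exact mul_le_mul_of_nonneg_right hn2 (by norm_num)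
  have hl'3 : (1 / 2 : ℝ) ^ l' < 2 * (Γ * w') := by
    rw [pow_succ] at hl'1
    linarith
  have hl'4 : 2 * (Γ * w') ≤ w / (64 * A ^ 2 * K) := by
    rw [le_div_iff₀ (by positivity)]
    nlinarith
  have hll : n + 1 ≤ l' := by
    by_contra hcon
    have : (1 / 2 : ℝ) ^ (n + 1) ≤ (1 / 2 : ℝ) ^ l' := pow_le_pow_of_le_one (by norm_num) (by norm_num) (not_le.1 hcon).le
    linarith
  refine ⟨n + 1, l', hll, hl'2, hn1.le, hl3, ?_⟩
  rw [pow_sub₀ _ (by norm_num) hll, ← div_eq_mul_inv, div_le_iff₀ (by positivity)]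
  calc (1 / 2 : ℝ) ^ l' ≤ 2 * (Γ * w') := hl'3.le
    _ = 128 * A ^ 2 * K * Γ * (w' / w) * (w / (64 * A ^ 2 * K)) := by field_simp; ring
    _ ≤ _ := mul_le_mul_of_nonneg_left hl3 (by positivity)

theorem pj_lh_sum {lam : ι → ℝ} (h0 : ∀ i, 0 ≤ lam i) (Y : Finset ι) (g : ι → ℤ) {n b : ℝ} (hb : 0 ≤ b)
    (hcard : ((Y.image g).card : ℝ) ≤ n) (hcell : ∀ y ∈ Y, ∑ k with g k = g y, lam k ≤ b) : ∑ y ∈ Y, lam y ≤ n * b := by
  calc ∑ y ∈ Y, lam y = ∑ c ∈ Y.image g, ∑ y ∈ Y with g y = c, lam y :=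
        (Finset.sum_fiberwise_of_maps_to (fun j hj => Finset.mem_image_of_mem g hj) _).symm
    _ ≤ ∑ c ∈ Y.image g, b := by
        refine Finset.sum_le_sum fun c hc => ?_
        obtain ⟨y₀, hy₀, rfl⟩ := Finset.mem_image.1 hc
        refine le_trans ?_ (hcell y₀ hy₀)
        exact Finset.sum_le_sum_of_subset_of_nonneg (Finset.filter_subset_filter _ (Finset.subset_univ _)) (fun k _ _ => h0 k)
    _ = (Y.image g).card * b := by rw [Finset.sum_const, nsmul_eq_mul]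
    _ ≤ n * b := mul_le_mul_of_nonneg_right hcard hb

theorem pj_lh_pjM (lam : ι → ℝ) (F : ι → ι → ℝ) (𝒢 : ι → ι → Prop) (i j : ι) (w : ℝ) (Y : Finset ι)
    (hY : ∀ y, y ∈ Y ↔ 𝒢 i y ∧ |F i y - F i j| ≤ w) : pjM lam F 𝒢 i j w = ∑ y ∈ Y, lam y := by
  unfold pjM
  refine Finset.sum_congr ?_ fun _ _ => rfl
  ext y
  rw [hY]
  simp only [Finset.mem_filter, Finset.mem_univ, true_and]

/-- the slope of a low pair is bounded below -/
theorem pj_lh_slope {lam : ι → ℝ} {pos : ι → ℝ × ℝ} {A K Δ : ℝ} (hp : RpPop lam pos A) (hA : 1 ≤ A) (hK : 1 ≤ K) {i e : ι}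
    (h : PjLow lam pos K Δ i e) : (2 * A * K)⁻¹ ≤ |rpSl pos i e| := by
  unfold rpSl
  have hne := pj_lm_ne hK h
  have h1 := h.1.2
  have h2 := (pj_lm_bd hp i e).1
  have h3 : 0 < |(pos e).1 - (pos i).1| := abs_pos.2 hne
  rw [abs_div, le_div_iff₀ h3]
  calc (2 * A * K)⁻¹ * |(pos e).1 - (pos i).1| ≤ (2 * A * K)⁻¹ * (2 * A) := mul_le_mul_of_nonneg_left h2 (by positivity)
    _ = K⁻¹ := by field_simp
    _ ≤ _ := h1

/-- the constants -/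
theorem pj_lh_const {A K q Δ κ Γ Δ₂ G : ℝ} (hA : 1 ≤ A) (hK : 1 ≤ K) (hq1 : 1 ≤ q) (hΔ : 0 < Δ) (hκ : 0 < κ) (hκ1 : κ ≤ 1)
    (hΓe : Γ = A * K ^ 2 * (2 + 32 * A ^ 3 * K * q)) (hΔ₂e : Δ₂ = 16 * A ^ 2 * K * Δ * q) (hG : G = 128 * A ^ 2 * K * Γ) :
    1 ≤ Γ ∧ 128 ≤ G ∧ 12 * G ≤ 12 * K ^ 2 * G / κ ∧ 16 * A ^ 2 * K * Δ₂ ≤ 12 * G * Δ ∧ 64 * A ^ 2 * K * Δ ≤ 16 * A ^ 2 * K * Δ₂ := by
  have hA0 : 0 < A := by linarith
  have hK0 : 0 < K := by linarith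
  have hq0 : 0 < q := by linarith
  have hK2 : 1 ≤ K ^ 2 := one_le_pow₀ hK
  have hA2 : 1 ≤ A ^ 2 := one_le_pow₀ hA
  have hAK2 : 1 ≤ A * K ^ 2 := one_le_mul_of_one_le_of_one_le hA hK2
  have hA2K : 1 ≤ A ^ 2 * K := one_le_mul_of_one_le_of_one_le hA2 hK
  have hΓ1 : 1 ≤ Γ := by
    rw [hΓe]
    have : 0 ≤ 32 * A ^ 3 * K * q := by positivity
    exact one_le_mul_of_one_le_of_one_le hAK2 (by linarith)
  have hG128 : 128 ≤ G := by
    have : 1 ≤ A ^ 2 * K * Γ := one_le_mul_of_one_le_of_one_le hA2K hΓ1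
    rw [hG]
    linarith
  have hG0 : 0 < G := by linarith
  refine ⟨hΓ1, hG128, ?_, ?_, ?_⟩
  · rw [le_div_iff₀ hκ]
    have h2 : 12 * G * κ ≤ 12 * G * 1 := mul_le_mul_of_nonneg_left hκ1 (by positivity)
    have h3 : G * 1 ≤ G * K ^ 2 := mul_le_mul_of_nonneg_left hK2 hG0.le
    linarith
  · have h1 : 16 * A ^ 2 * K * Δ₂ = 256 * ((A ^ 4 * K ^ 2) * q) * Δ := by rw [hΔ₂e]; ring
    have h2 : A ^ 4 * K ^ 2 ≤ A ^ 6 * K ^ 4 :=
      mul_le_mul (pow_le_pow_right₀ hA (by norm_num)) (pow_le_pow_right₀ hK (by norm_num)) (by positivity) (by positivity)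
    have e : 12 * G = 3072 * (A ^ 3 * K ^ 3) + 49152 * ((A ^ 6 * K ^ 4) * q) := by rw [hG, hΓe]; ring
    rw [h1, e]
    refine mul_le_mul_of_nonneg_right ?_ hΔ.le
    have a1 : 0 ≤ A ^ 3 * K ^ 3 := by positivity
    have a2 : (A ^ 4 * K ^ 2) * q ≤ (A ^ 6 * K ^ 4) * q := mul_le_mul_of_nonneg_right h2 hq0.le
    have a3 : 0 ≤ (A ^ 6 * K ^ 4) * q := by positivity
    linarith
  · have h1 : 16 * A ^ 2 * K * Δ₂ = 256 * ((A ^ 2 * K) * ((A ^ 2 * K) * q) * Δ) := by rw [hΔ₂e]; ring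
    have h2 : 64 * A ^ 2 * K * Δ = 64 * ((A ^ 2 * K) * 1 * Δ) := by ring
    rw [h1, h2]
    have h3 : 1 ≤ (A ^ 2 * K) * q := one_le_mul_of_one_le_of_one_le hA2K hq1
    have h4 : (A ^ 2 * K) * 1 * Δ ≤ (A ^ 2 * K) * ((A ^ 2 * K) * q) * Δ :=
      mul_le_mul_of_nonneg_right (mul_le_mul_of_nonneg_left h3 (by positivity)) hΔ.le
    have h5 : 0 ≤ (A ^ 2 * K) * ((A ^ 2 * K) * q) * Δ := by positivity
    linarith

theorem pj_lh_gam {A K q Δ w' s₀ Γ : ℝ} (hA : 1 ≤ A) (hK : 1 ≤ K) (hq0 : 0 < q) (hΔw' : Δ ≤ w') (hs₀e : s₀ = 4 * A * K * Δ * q)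
    (hΓe : Γ = A * K ^ 2 * (2 + 32 * A ^ 3 * K * q)) : A * K ^ 2 * (2 * w' + 8 * A ^ 2 * s₀) ≤ Γ * w' := by
  have hA0 : 0 < A := by linarith
  have hK0 : 0 < K := by linarith
  have h2 : s₀ ≤ 4 * A * K * w' * q := by
    rw [hs₀e]
    exact mul_le_mul_of_nonneg_right (mul_le_mul_of_nonneg_left hΔw' (by positivity)) hq0.le
  have e2 : Γ * w' = A * K ^ 2 * (2 * w' + 8 * A ^ 2 * (4 * A * K * w' * q)) := by rw [hΓe]; ring
  rw [e2]
  refine mul_le_mul_of_nonneg_left ?_ (by positivity)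
  have h3 : 8 * A ^ 2 * s₀ ≤ 8 * A ^ 2 * (4 * A * K * w' * q) := mul_le_mul_of_nonneg_left h2 (by positivity)
  linarith

/-- (1), (2): the narrow set meets at most `12 K` cells of the level `l'` -/
theorem pj_lh_card {lam : ι → ℝ} {pos : ι → ℝ × ℝ} {A K Δ s₀ w' c : ℝ} (hp : RpPop lam pos A) (hA : 1 ≤ A) (hK : 1 ≤ K) (i : ι)
    (S : Finset ι) (hS1 : (S.card : ℝ) ≤ 2 * K) (hS2 : ∀ e ∈ S, PjLow lam pos K Δ i e)
    (hS3 : ∀ j, PjLow lam pos K Δ i j → ∃ e ∈ S, |rpSl pos i j - rpSl pos i e| ≤ s₀) (Y : Finset ι)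
    (hY1 : ∀ y ∈ Y, PjLow lam pos K Δ i y) (hY2 : ∀ y ∈ Y, |pjF pos i y - c| ≤ w') (l' : ℕ)
    (hl' : A * K ^ 2 * (2 * w' + 8 * A ^ 2 * s₀) ≤ (1 / 2 : ℝ) ^ l') :
    (((Y.image fun y => icCell l' (pos y).1).card : ℕ) : ℝ) ≤ 12 * K := by
  have : Nonempty ι := ⟨i⟩
  choose! e he using hS3
  have hgrp : ∀ y ∈ Y, ∀ y₀ ∈ Y, (e y, decide (0 < (pos y).1 - (pos i).1)) = (e y₀, decide (0 < (pos y₀).1 - (pos i).1)) →
      |(pos y).1 - (pos y₀).1| ≤ (1 / 2 : ℝ) ^ l' := by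
    intro y hy y₀ hy₀ hgr
    have hly := hY1 y hy
    have hl0 := hY1 y₀ hy₀
    have hfy := hY2 y hy
    have hf0 := hY2 y₀ hy₀
    obtain ⟨he1, he2⟩ := Prod.ext_iff.1 hgr
    simp only at he1 he2
    have hsg : 0 < (pos y).1 - (pos i).1 ↔ 0 < (pos y₀).1 - (pos i).1 := by
      rw [decide_eq_decide] at he2
      exact he2
    have hm0 := (he y₀ hl0).2
    rw [← he1] at hm0
    have hff : |((pos y).1 - (pos i).1) * ((pos y).2 - (pos i).2) - ((pos y₀).1 - (pos i).1) * ((pos y₀).2 - (pos i).2)| ≤ 2 * w' := by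
      unfold pjF at hfy hf0
      rw [abs_le] at hfy hf0 ⊢
      constructor <;> linarith [hfy.1, hfy.2, hf0.1, hf0.2]
    have h1 := pj_lh_group hA hK hly.1.1 hl0.1.1 (pj_lm_bd hp i y).1 (pj_lm_bd hp i y₀).1 (he y hly).2 hm0 hsg
      (pj_lh_slope hp hA hK (hS2 _ (he y hly).1)) hff
    have e1 : (pos y).1 - (pos y₀).1 = ((pos y).1 - (pos i).1) - ((pos y₀).1 - (pos i).1) := by ring
    rw [e1]
    exact h1.trans hl'
  have h1 := pj_lh_count Y (fun y => (pos y).1) (fun y => (e y, decide (0 < (pos y).1 - (pos i).1))) l' hgrp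
  have h3 : (Y.image fun y => icCell l' (pos y).1).card ≤ S.card * 2 * 3 := by
    refine h1.trans (Nat.mul_le_mul_right 3 ?_)
    have e2 : S.card * 2 = (S ×ˢ (Finset.univ : Finset Bool)).card := by
      rw [Finset.card_product, Finset.card_univ, Fintype.card_bool]
    rw [e2]
    refine Finset.card_le_card ?_
    intro c hc
    obtain ⟨y, hy, rfl⟩ := Finset.mem_image.1 hc
    exact Finset.mem_product.2 ⟨(he y (hY1 y hy)).1, Finset.mem_univ _⟩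
  calc (((Y.image fun y => icCell l' (pos y).1).card : ℕ) : ℝ) ≤ ((S.card * 2 * 3 : ℕ) : ℝ) := by exact_mod_cast h3
    _ = (S.card : ℝ) * 6 := by push_cast; ring
    _ ≤ 2 * K * 6 := mul_le_mul_of_nonneg_right hS1 (by norm_num)
    _ = 12 * K := by ring

/-- (4), (5): one cell of the level `l'` -/
theorem pj_lh_cellb {lam : ι → ℝ} {pos : ι → ℝ × ℝ} {A K d Δ κ Δ₂ G w w' : ℝ} (hp : RpPop lam pos A) (hA : 1 ≤ A) (hK : 1 ≤ K)
    (hd : 0 < d) (hd1 : d ≤ 1) (htree : PjTree1 lam (fun i => (pos i).1) K d Δ) (hκ : 0 < κ) (hΔ₂0 : 0 ≤ Δ₂) (hG1 : 1 ≤ G)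
    (hw'0 : 0 < w') (hw0 : 0 < w) (T1 : 2 * w' ≤ w) (T2 : 16 * A ^ 2 * K * Δ₂ ≤ w) {l l' : ℕ} (hll : l ≤ l')
    (hΔl' : Δ ≤ (1 / 2 : ℝ) ^ l') (hΔl : Δ ≤ (1 / 2 : ℝ) ^ l) (hl1 : (1 / 2 : ℝ) ^ l ≤ w / (32 * A ^ 2 * K))
    (hl3 : (1 / 2 : ℝ) ^ (l' - l) ≤ G * (w' / w)) (i j y₀ : ι) (hl0 : PjLow lam pos K Δ i y₀)
    (hd0 : PjDense lam pos κ Δ₂ Δ i y₀) (hf0 : |pjF pos i y₀ - pjF pos i j| ≤ w') (Z : Finset ι)
    (hZ : ∀ y, y ∈ Z ↔ True ∧ |pjF pos i y - pjF pos i j| ≤ w) :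
    ∑ k with icCell l' (pos k).1 = icCell l' (pos y₀).1, lam k ≤ K * (G * (w' / w) ^ d) * ((∑ y ∈ Z, lam y) / κ) := by
  have hA0 : 0 < A := by linarith
  have hK0 : 0 < K := by linarith
  have hG0 : 0 < G := by linarith
  have hx0 : 0 < w' / w := by positivity
  have hM : 0 ≤ ∑ y ∈ Z, lam y := Finset.sum_nonneg fun k _ => hp.lam0 k
  have hpd : ((1 / 2 : ℝ) ^ (l' - l)) ^ d ≤ G * (w' / w) ^ d := by
    calc ((1 / 2 : ℝ) ^ (l' - l)) ^ d ≤ (G * (w' / w)) ^ d := Real.rpow_le_rpow (by positivity) hl3 hd.le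
      _ = G ^ d * (w' / w) ^ d := Real.mul_rpow hG0.le hx0.le
      _ ≤ G * (w' / w) ^ d := by
          refine mul_le_mul_of_nonneg_right ?_ (by positivity)
          calc G ^ d ≤ G ^ (1 : ℝ) := Real.rpow_le_rpow_of_exponent_le hG1 hd1
            _ = G := Real.rpow_one G
  have t1 : ∑ k with icCell l' (pos k).1 = icCell l' (pos y₀).1, lam k
      ≤ K * ((1 / 2 : ℝ) ^ (l' - l)) ^ d * ∑ k with icCell l (pos k).1 = icCell l (pos y₀).1, lam k := htree l l' hll hΔl' y₀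
  have t2 := hd0 l hΔl
  have t3 : ∑ k with icCell l (pos k).1 = icCell l (pos y₀).1 ∧
      |((pos k).1 - (pos i).1) * ((pos y₀).2 - (pos i).2) - ((pos k).2 - (pos i).2) * ((pos y₀).1 - (pos i).1)|
        ≤ Δ₂ * dist (pos i) (pos y₀), lam k ≤ ∑ y ∈ Z, lam y := by
    refine Finset.sum_le_sum_of_subset_of_nonneg ?_ (fun k _ _ => hp.lam0 k)
    intro k hk
    obtain ⟨hk1, hk2⟩ := (Finset.mem_filter.1 hk).2
    refine (hZ k).2 ⟨trivial, ?_⟩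
    have hkd : |((pos k).1 - (pos i).1) - ((pos y₀).1 - (pos i).1)| ≤ (1 / 2 : ℝ) ^ l := by
      have := pj_lh_cell_dist hk1
      have e1 : ((pos k).1 - (pos i).1) - ((pos y₀).1 - (pos i).1) = (pos k).1 - (pos y₀).1 := by ring
      rw [e1]
      exact this
    have h4 := pj_lh_wide hA hK hΔ₂0 (pj_lm_dist_le hp i y₀) hk2 hl0.1.1 (pj_lm_bd hp i y₀).1 (pj_lm_bd hp i y₀).2
      (pj_lm_bd hp i k).1 hkd
    have h5 : 8 * A ^ 2 * K * (1 / 2 : ℝ) ^ l ≤ w / 4 := by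
      have h6 : 8 * A ^ 2 * K * (1 / 2 : ℝ) ^ l ≤ 8 * A ^ 2 * K * (w / (32 * A ^ 2 * K)) :=
        mul_le_mul_of_nonneg_left hl1 (by positivity)
      have e6 : 8 * A ^ 2 * K * (w / (32 * A ^ 2 * K)) = w / 4 := by field_simp; ring
      linarith
    unfold pjF at hf0 ⊢
    rw [abs_le] at h4 hf0 ⊢
    constructor <;> linarith [h4.1, h4.2, hf0.1, hf0.2]
  have t4 : ∑ k with icCell l (pos k).1 = icCell l (pos y₀).1, lam k ≤ (∑ y ∈ Z, lam y) / κ := by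
    rw [le_div_iff₀ hκ, mul_comm]
    exact t2.trans t3
  have t5 : 0 ≤ ∑ k with icCell l (pos k).1 = icCell l (pos y₀).1, lam k := Finset.sum_nonneg fun k _ => hp.lam0 k
  exact t1.trans (mul_le_mul (mul_le_mul_of_nonneg_left hpd hK0.le) t4 t5 (by positivity))

theorem pj_low_her {lam : ι → ℝ} {pos : ι → ℝ × ℝ} {A K d Δ κ : ℝ} (hp : RpPop lam pos A) (hA : 1 ≤ A) (hK : 1 ≤ K)
    (hd : 0 < d) (hd1 : d ≤ 1) (hΔ : 0 < Δ) (hΔa : Δ ≤ (4 * K ^ 2) ^ (-(1 / d)))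
    (hfr : KfFrost lam (fun i => (pos i).1) K d Δ) (htree : PjTree1 lam (fun i => (pos i).1) K d Δ)
    (hκ : 0 < κ) (hκ1 : κ ≤ 1) :
    PjHrd lam (pjF pos) (fun _ _ => True)
      (fun i j => PjLow lam pos K Δ i j ∧ PjDense lam pos κ (pjD2 A K d Δ) Δ i j)
      (12 * K ^ 2 * (128 * A ^ 2 * K * pjGam A K d) / κ) d Δ := by
  intro i j hij w' w hΔw' hw'w hw1
  have hA0 : 0 < A := by linarith
  have hK0 : 0 < K := by linarith
  have hw'0 : 0 < w' := hΔ.trans_le hΔw'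
  have hw0 : 0 < w := hw'0.trans_le hw'w
  -- the constants
  obtain ⟨q, hq⟩ : ∃ q : ℝ, q = 1 / (4 * K ^ 2) ^ (-(1 / d)) := ⟨_, rfl⟩
  have ha0 : 0 < (4 * K ^ 2) ^ (-(1 / d)) := by positivity
  have ha1 : (4 * K ^ 2) ^ (-(1 / d)) ≤ 1 := by
    have hK2 : 1 ≤ K ^ 2 := one_le_pow₀ hK
    refine Real.rpow_le_one_of_one_le_of_nonpos (by linarith) ?_
    have : 0 < 1 / d := by positivity
    linarith
  have hq1 : 1 ≤ q := by rw [hq, le_div_iff₀ ha0, one_mul]; exact ha1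
  have hq0 : 0 < q := by linarith
  obtain ⟨s₀, hs₀⟩ : ∃ s₀ : ℝ, s₀ = 4 * A * K * Δ / (4 * K ^ 2) ^ (-(1 / d)) := ⟨_, rfl⟩
  have hs₀e : s₀ = 4 * A * K * Δ * q := by rw [hs₀, hq]; ring
  obtain ⟨Γ, hΓ⟩ : ∃ Γ : ℝ, Γ = pjGam A K d := ⟨_, rfl⟩
  have hΓe : Γ = A * K ^ 2 * (2 + 32 * A ^ 3 * K * q) := by rw [hΓ, hq]; unfold pjGam; ring
  obtain ⟨Δ₂, hΔ₂⟩ : ∃ Δ₂ : ℝ, Δ₂ = pjD2 A K d Δ := ⟨_, rfl⟩
  have hΔ₂e : Δ₂ = 16 * A ^ 2 * K * Δ * q := by rw [hΔ₂, hq]; unfold pjD2; ring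
  rw [← hΓ, ← hΔ₂]
  rw [← hΔ₂] at hij
  have hΔ₂0 : 0 ≤ Δ₂ := by rw [hΔ₂e]; positivity
  obtain ⟨G, hG⟩ : ∃ G : ℝ, G = 128 * A ^ 2 * K * Γ := ⟨_, rfl⟩
  rw [← hG]
  obtain ⟨hΓ1, hG128, hC12, hc4, hc5⟩ := pj_lh_const hA hK hq1 hΔ hκ hκ1 hΓe hΔ₂e hG
  have hG0 : 0 < G := by linarith
  have hC0 : 0 ≤ 12 * K ^ 2 * G / κ := by positivity
  -- the two sets
  obtain ⟨Y, hY⟩ : ∃ Y : Finset ι, ∀ y, y ∈ Y ↔
      (PjLow lam pos K Δ i y ∧ PjDense lam pos κ Δ₂ Δ i y) ∧ |pjF pos i y - pjF pos i j| ≤ w' :=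
    ⟨univ.filter fun y => (PjLow lam pos K Δ i y ∧ PjDense lam pos κ Δ₂ Δ i y) ∧ |pjF pos i y - pjF pos i j| ≤ w', fun y => by
      simp only [Finset.mem_filter, Finset.mem_univ, true_and]⟩
  obtain ⟨Z, hZ⟩ : ∃ Z : Finset ι, ∀ y, y ∈ Z ↔ True ∧ |pjF pos i y - pjF pos i j| ≤ w :=
    ⟨univ.filter fun y => True ∧ |pjF pos i y - pjF pos i j| ≤ w, fun y => by
      simp only [Finset.mem_filter, Finset.mem_univ, true_and]⟩
  rw [pj_lh_pjM lam (pjF pos) _ i j w' Y hY, pj_lh_pjM lam (pjF pos) _ i j w Z hZ]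
  have hNM : ∑ y ∈ Y, lam y ≤ ∑ y ∈ Z, lam y :=
    Finset.sum_le_sum_of_subset_of_nonneg (fun y hy => (hZ y).2 ⟨trivial, ((hY y).1 hy).2.trans hw'w⟩) (fun k _ _ => hp.lam0 k)
  have hM : 0 ≤ ∑ y ∈ Z, lam y := Finset.sum_nonneg fun k _ => hp.lam0 k
  have hx0 : 0 < w' / w := by positivity
  have hx1 : w' / w ≤ 1 := (div_le_one hw0).2 hw'w
  have htriv : w ≤ 12 * K ^ 2 * G / κ * w' → ∑ y ∈ Y, lam y ≤ 12 * K ^ 2 * G / κ * (w' / w) ^ d * ∑ y ∈ Z, lam y := by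
    intro h
    refine pj_lh_triv hNM hM hx0 hx1 hd1 hC0 ?_
    rw [← mul_div_assoc, le_div_iff₀ hw0, one_mul]
    exact h
  -- trivial ranges
  by_cases T1 : w < 2 * w'
  · refine htriv (T1.le.trans (mul_le_mul_of_nonneg_right ?_ hw'0.le))
    linarith
  by_cases T3 : w < G * w'
  · refine htriv (T3.le.trans (mul_le_mul_of_nonneg_right ?_ hw'0.le))
    linarith
  by_cases T2 : w < 16 * A ^ 2 * K * Δ₂
  · exact htriv (T2.le.trans (hc4.trans (mul_le_mul hC12 hΔw' hΔ.le hC0)))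
  -- the main range
  rw [not_lt] at T1 T2 T3
  obtain ⟨S, hS1, hS2, hS3⟩ := pj_low_rep hp hA hK hd hΔ hΔa hfr i
  rw [← hs₀] at hS3
  obtain ⟨l, l', hll, hl'1, hl1, hl2, hl3⟩ := pj_lh_levels hA hK hΓ1 hw'0 hw1 (by rw [← hG]; exact T3)
  rw [← hG] at hl3
  have hΔl' : Δ ≤ (1 / 2 : ℝ) ^ l' := (hΔw'.trans (le_mul_of_one_le_left hw'0.le hΓ1)).trans hl'1
  have hΔl : Δ ≤ (1 / 2 : ℝ) ^ l := by
    refine le_trans ?_ hl2
    rw [le_div_iff₀ (by positivity)]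
    linarith
  have hcard := pj_lh_card (c := pjF pos i j) hp hA hK i S hS1 hS2 hS3 Y (fun y hy => ((hY y).1 hy).1.1) (fun y hy => ((hY y).1 hy).2) l'
    ((pj_lh_gam hA hK hq0 hΔw' hs₀e hΓe).trans hl'1)
  have hfin := pj_lh_sum hp.lam0 Y (fun y => icCell l' (pos y).1) (b := K * (G * (w' / w) ^ d) * ((∑ y ∈ Z, lam y) / κ))
    (by positivity) hcard (fun y₀ hy₀ => pj_lh_cellb hp hA hK hd hd1 htree hκ hΔ₂0 (by linarith) hw'0 hw0 T1 T2 hll hΔl' hΔl hl1 hl3 i j y₀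
      ((hY y₀).1 hy₀).1.1 ((hY y₀).1 hy₀).1.2 ((hY y₀).1 hy₀).2 Z hZ)
  refine hfin.trans (le_of_eq ?_)
  field_simp

end Claimed.Agent.R256
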