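import Claimed.Agent.R256.Prj.PinDefs

/-!
# Row 256, Prj, unit PIN.  File 3: the RELATIVE thin-cone bootstrap.      (helper186)
`R255.RpStage` starts from "no heavy strip".  Here the start is an ARBITRARY symmetric graph `𝒢b` of separated horizontal pairs which is thin with a small exponent `a₀ > 0`:
`PjStage A s a₀ u`: for every loss `η₁` there is a subgraph `𝒢 ⊆ 𝒢b` which misses only `ρ^c` of the `lam ⊗ lam`-mass of `𝒢b` and is thin with the exponent `u` and the constant `ρ^(-η₁)`.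
BASE `u = a₀` (`𝒢 = 𝒢b`), STEP = copy of `R255.rp_step` (its lemmas `rp_cell_w2`, `rp_level_of_cells`, `rp_ref_mass`, `rp_tele`, `rp_par_*` hold for arbitrary graphs), TOP `u = s - τ` as in `R255.rp_stage_top`.
This is the finite form of the dichotomy (rad) of Prop names:radial-dichotomy (04 l.1778): pairs that are never fat are thin with the exponent `d - τ`, up to a power-small set of pairs.
-/

set_option autoImplicit false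

namespace Claimed.Agent.R256

open Finset Classical
open Claimed.Agent.R255

/-- the stage predicate of the relative bootstrap -/
def PjStage (A s a₀ u : ℝ) : Prop :=
  ∀ η₁ : ℝ, 0 < η₁ → ∃ c η ρ₁ : ℝ, 0 < c ∧ 0 < η ∧ 0 < ρ₁ ∧
    ∀ ρ : ℝ, 0 < ρ → ρ < ρ₁ → ∀ (ι : Type) [Fintype ι] (lam : ι → ℝ) (pos : ι → ℝ × ℝ) (𝒢b : ι → ι → Prop),
      RpPop lam pos A → RtTreeHer lam pos (ρ ^ (-η)) s ρ → RpGr pos 𝒢b (ρ ^ η) → RpThin lam pos 𝒢b (ρ ^ (-η)) a₀ ρ →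
      ∃ 𝒢 : ι → ι → Prop, RpGr pos 𝒢 (ρ ^ η₁) ∧ (∀ i j, 𝒢 i j → 𝒢b i j) ∧
        ∑ i, ∑ j with 𝒢b i j ∧ ¬ 𝒢 i j, lam i * lam j ≤ ρ ^ c ∧
        RpThin lam pos 𝒢 (ρ ^ (-η₁)) u ρ

theorem pj_rel_eqns_cite : True := by
  have := @PjStage.eq_1
  trivial

theorem pj_stage_base (A s a₀ : ℝ) : PjStage A s a₀ a₀ := by
  intro η₁ hη₁
  refine ⟨1, η₁, 1, one_pos, hη₁, one_pos, fun ρ hρ _ ι _ lam pos 𝒢b _ _ hg hth => ⟨𝒢b, hg, fun _ _ h => h, ?_, hth⟩⟩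
  refine le_trans (le_of_eq ?_) (Real.rpow_nonneg hρ.le 1)
  refine Finset.sum_eq_zero fun i _ => ?_
  rw [Finset.filter_false_of_mem (fun j _ h => h.2 h.1), Finset.sum_empty]

theorem pj_stage_mono {A s a₀ u u' : ℝ} (h : u' ≤ u) (hst : PjStage A s a₀ u) : PjStage A s a₀ u' := by
  intro η₁ hη₁
  obtain ⟨c, η, ρ₁, hc, hη, hρ₁, H2⟩ := hst η₁ hη₁
  refine ⟨c, η, ρ₁, hc, hη, hρ₁, fun ρ hρ hρ1 ι _ lam pos 𝒢b hp hh hg hb => ?_⟩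
  obtain ⟨𝒢, hg', hsub, hm, hthin⟩ := H2 ρ hρ hρ1 ι lam pos 𝒢b hp hh hg hb
  refine ⟨𝒢, hg', hsub, hm, fun i₀ z w hw hw1 => (hthin i₀ z w hw hw1).trans ?_⟩
  have hw0 : 0 < w := lt_of_lt_of_le hρ hw
  exact mul_le_mul_of_nonneg_left (Real.rpow_le_rpow_of_exponent_ge hw0 hw1 h)
    (Real.rpow_nonneg hρ.le _)

theorem pj_stage_step (A s ε ηW ρW u : ℝ) (hA : 1 ≤ A) (hs : 0 < s) (hs1 : s ≤ 1) (hε : 0 < ε) (hε1 : ε ≤ 1) (hηW : 0 < ηW)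
    (hρW : 0 < ρW) (hu0 : 0 < u) (hu1 : u ≤ 1)
    (hW2 : ∀ δ : ℝ, 0 < δ → δ < ρW → RpW2 s u ε ηW δ) (a₀ : ℝ) (h : PjStage A s a₀ u) : PjStage A s a₀ (u + ε / 2) := by
  intro η₁ hη₁
  obtain ⟨θ, hθdef⟩ : ∃ θ : ℝ, θ = ε / 4 := ⟨_, rfl⟩
  have hθ : 0 < θ := by rw [hθdef]; positivity
  have hθ1 : θ ≤ 1 / 3 := by rw [hθdef]; linarith
  obtain ⟨L, hL⟩ := rp_E_small θ (η₁ / 8) hθ (by positivity)
  have hj₁ : 0 < rpE θ L 0 := rp_E_pos θ hθ L 0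
  obtain ⟨a, hadef⟩ : ∃ a : ℝ, a = θ * rpE θ L 0 / 2 := ⟨_, rfl⟩
  have ha : 0 < a := by rw [hadef]; positivity
  obtain ⟨ηin, hηdef⟩ : ∃ ηin : ℝ, ηin = min (min (θ * rpE θ L 0 / 8) (a * ηW / 4)) (η₁ / (8 * ((L : ℝ) + 1))) := ⟨_, rfl⟩
  have hL1 : (0 : ℝ) < 8 * ((L : ℝ) + 1) := by positivity
  have hηin0 : 0 < ηin := by
    rw [hηdef]
    exact lt_min (lt_min (by positivity) (by positivity)) (by positivity)
  have hηin1 : ηin ≤ θ * rpE θ L 0 / 8 := by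
    rw [hηdef]; exact (min_le_left _ _).trans (min_le_left _ _)
  have hηin2 : ηin ≤ a * ηW / 4 := by
    rw [hηdef]; exact (min_le_left _ _).trans (min_le_right _ _)
  have hηin3' : ηin ≤ η₁ / (8 * ((L : ℝ) + 1)) := by
    rw [hηdef]; exact min_le_right _ _
  have hηin5 : ηin * (8 * ((L : ℝ) + 1)) ≤ η₁ := (le_div_iff₀ hL1).1 hηin3'
  have hLnn : (0 : ℝ) ≤ (L : ℝ) := Nat.cast_nonneg L
  have hηin3 : ηin * L ≤ η₁ / 8 := by nlinarith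
  have hηin4 : ηin ≤ η₁ := by nlinarith
  obtain ⟨c₀, η₀, ρ₀, hc₀, hη₀, hρ₀, hst⟩ := h ηin hηin0
  obtain ⟨ρa, hρa0, hρa1, hlev⟩ := rp_lev_exists A θ ηin L hA hθ hθ1 hηin0 hηin1
  have huv : (u + ε / 2) * (1 + θ) ≤ u + ε := by
    rw [hθdef]; nlinarith
  obtain ⟨ρb, hρb0, hρb1, htele⟩ := rp_par_tele A θ ηin η₁ (u + ε) (u + ε / 2) L hA hθ hηin0 hη₁ (by positivity)
    (by linarith) (by positivity) huv hL hηin3
  obtain ⟨ρc, hρc0, hρc1, hpar⟩ := rp_par_step a ηW ηin ρW c₀ L ha hηW hηin0 hηin2 hρW hc₀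
  refine ⟨min c₀ (a * ηW / 4) / 2, min η₀ ηin, min (min ρ₀ ρa) (min ρb ρc), ?_, lt_min hη₀ hηin0,
    lt_min (lt_min hρ₀ hρa0) (lt_min hρb0 hρc0), ?_⟩
  · have : 0 < min c₀ (a * ηW / 4) := lt_min hc₀ (by positivity)
    positivity
  intro ρ hρ0 hρlt ι _ lam pos 𝒢b hp her hgb hthb
  have hρ_0 : ρ < ρ₀ := lt_of_lt_of_le hρlt ((min_le_left _ _).trans (min_le_left _ _))
  have hρ_a : ρ < ρa := lt_of_lt_of_le hρlt ((min_le_left _ _).trans (min_le_right _ _))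
  have hρ_b : ρ < ρb := lt_of_lt_of_le hρlt ((min_le_right _ _).trans (min_le_left _ _))
  have hρ_c : ρ < ρc := lt_of_lt_of_le hρlt ((min_le_right _ _).trans (min_le_right _ _))
  have hρ1 : ρ < 1 := lt_of_lt_of_le hρ_a hρa1
  have her₀ : RtTreeHer lam pos (ρ ^ (-η₀)) s ρ :=
    rt_treeher_mono hp.lam0 (Real.rpow_le_rpow_of_exponent_ge hρ0 hρ1.le (by linarith [min_le_left η₀ ηin])) her
  have herin : RtTreeHer lam pos (ρ ^ (-ηin)) s ρ :=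
    rt_treeher_mono hp.lam0 (Real.rpow_le_rpow_of_exponent_ge hρ0 hρ1.le (by linarith [min_le_right η₀ ηin])) her
  have hle₀ : ρ ^ η₀ ≤ ρ ^ (min η₀ ηin) := Real.rpow_le_rpow_of_exponent_ge hρ0 hρ1.le (min_le_left _ _)
  have hgb₀ : RpGr pos 𝒢b (ρ ^ η₀) :=
    ⟨hgb.symm, fun i j hij => ⟨(hgb.sub i j hij).1, hle₀.trans (hgb.sub i j hij).2⟩⟩
  have hthb₀ : RpThin lam pos 𝒢b (ρ ^ (-η₀)) a₀ ρ := fun i₀ z w hw hw1 =>
    (hthb i₀ z w hw hw1).trans (mul_le_mul_of_nonneg_right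
      (Real.rpow_le_rpow_of_exponent_ge hρ0 hρ1.le (by linarith [min_le_left η₀ ηin]))
      (Real.rpow_nonneg (hρ0.le.trans hw) _))
  obtain ⟨𝒢₀, hg₀, hsub₀, hmass₀, hthin₀⟩ := hst ρ hρ0 hρ_0 ι lam pos 𝒢b hp her₀ hgb₀ hthb₀
  obtain ⟨k, δ, hδpos, hlev⟩ := hlev ρ hρ0 hρ_a
  obtain ⟨hsum, hpar⟩ := hpar ρ hρ0 hρ_c
  obtain ⟨hW0, hprod⟩ := htele ρ hρ0 hρ_b δ (fun n hn => ⟨hδpos n, (hlev n hn).2.1⟩)
  have hK1 : 1 ≤ ρ ^ (-ηin) := Real.one_le_rpow_of_pos_of_le_one_of_nonpos hρ0 hρ1.le (by linarith)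
  obtain ⟨W, hW⟩ : ∃ W : ℕ → ℝ, ∀ n, W n = ρ ^ rpE θ L n := ⟨_, fun _ => rfl⟩
  obtain ⟨l, hl⟩ : ∃ l : ℕ → ℝ, ∀ n, l n = δ n ^ (u + ε) := ⟨_, fun _ => rfl⟩
  have hr := rp_ref_gr (lam := lam) hg₀ L W l
  have hbad : ∀ n < L, ∑ i, ∑ j with RpBad lam pos 𝒢₀ (W n) (W (n + 1)) (l n) i j, lam i * lam j
      ≤ 2 * ρ ^ (a * ηW / 2) := by
    intro n hn
    obtain ⟨hlv, -, hδa⟩ := hlev n hn
    rw [← hadef] at hδa
    obtain ⟨p1, p2, p3, p4⟩ := hpar (δ n) (hδpos n) hδa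
    have hd1 : 0 < δ n ^ ηW := Real.rpow_pos_of_pos (hδpos n) _
    have hd2 : 0 < δ n ^ (ηW / 2) := Real.rpow_pos_of_pos (hδpos n) _
    rw [hW n, hW (n + 1), hl n]
    refine (rp_level_of_cells hp (k n) _ (δ n ^ ηW + δ n ^ (ηW / 2)) (by positivity) (fun q => ?_)).trans p4
    exact rp_cell_w2 hp hg₀ hlv s u ε ηW (ρ ^ (-ηin)) (ρ ^ (-ηin)) (δ n ^ (ηW / 2)) hs.le hs1 hK1 (by positivity)
      hthin₀ herin (hW2 _ (hδpos n) p1) hd2 p2 p3 q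
  have hm := rp_ref_mass hp.lam0 L W l _ hbad
  have hsplit := rp_split_mass hp.lam0 (fun i j => 𝒢b i j ∧ ¬ RpRef lam pos 𝒢₀ L W l i j)
    (fun i j => 𝒢b i j ∧ ¬ 𝒢₀ i j) (fun i j => 𝒢₀ i j ∧ ¬ RpRef lam pos 𝒢₀ L W l i j) (by
      intro i j hij
      by_cases h0 : 𝒢₀ i j
      · exact Or.inr ⟨h0, hij.2⟩
      · exact Or.inl ⟨hij.1, h0⟩)
  refine ⟨RpRef lam pos 𝒢₀ L W l, ?_, fun i j hij => hsub₀ i j hij.1, ?_, ?_⟩
  · exact ⟨hr.symm, fun i j hij => ⟨(hr.sub i j hij).1,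
      (Real.rpow_le_rpow_of_exponent_ge hρ0 hρ1.le hηin4).trans (hr.sub i j hij).2⟩⟩
  · refine le_trans ?_ hsum
    refine le_trans ?_ (add_le_add hmass₀ hm)
    convert hsplit
    rfl
  · refine rp_tele hp L W l (fun n => ?_) ρ _ _ ?_ ?_ ?_
    · rw [hl n]; exact (Real.rpow_pos_of_pos (hδpos n) _).le
    · rw [hW L, rp_E_top θ hθ L, Real.rpow_one]
    · intro w; rw [hW 0]; exact hW0 w
    · intro n hn w
      rw [hW n, hW (n + 1), Finset.prod_congr rfl (fun m _ => hl m)]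
      exact hprod n hn w


theorem pj_stage_top (A s a₀ τ : ℝ) (hA : 1 ≤ A) (hs : 0 < s) (hs1 : s ≤ 1) (ha₀ : 0 < a₀) (hτ : 0 < τ) :
    PjStage A s a₀ (s - τ) := by
  rcases le_or_gt (s - τ) a₀ with hle | hlt
  · exact pj_stage_mono hle (pj_stage_base A s a₀)
  obtain ⟨τW, hτW⟩ : ∃ τW, τW = min τ a₀ := ⟨_, rfl⟩
  have hτW0 : 0 < τW := by rw [hτW]; exact lt_min hτ ha₀
  have hτW1 : τW ≤ τ := by rw [hτW]; exact min_le_left _ _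
  have hτW2 : τW ≤ a₀ := by rw [hτW]; exact min_le_right _ _
  obtain ⟨ε, hε, ηW, hηW, ρW, hρW, hW⟩ := RW.ex_W2 s τW 2 hτW0 hs1 (by norm_num)
  obtain ⟨ε', hε'⟩ : ∃ ε', ε' = min ε 1 := ⟨_, rfl⟩
  have hε'0 : 0 < ε' := by rw [hε']; exact lt_min hε one_pos
  have hε'1 : ε' ≤ 1 := by rw [hε']; exact min_le_right _ _
  have hε'2 : ε' ≤ ε := by rw [hε']; exact min_le_left _ _
  have hW2 : ∀ u : ℝ, τW ≤ u → u ≤ s - τW → ∀ δ : ℝ, 0 < δ → δ < min ρW 1 → RpW2 s u ε' ηW δ := by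
    intro u hu1 hu2 δ hδ0 hδ1 X T _ _ μ ν pt sl G M h1 h2
    have h3 := hW u hu1 hu2 δ hδ0 (lt_of_lt_of_le hδ1 (min_le_left _ _)) X T μ ν pt sl G M h1 h2
    refine le_trans ?_ h3
    exact Real.rpow_le_rpow_of_exponent_ge hδ0 (lt_of_lt_of_le hδ1 (min_le_right _ _)).le
      (by linarith)
  have hind : ∀ n : ℕ, a₀ + n * (ε' / 2) ≤ s - τW + ε' / 2 → PjStage A s a₀ (a₀ + n * (ε' / 2)) := by
    intro n
    induction n with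
    | zero =>
      intro _
      simpa using pj_stage_base A s a₀
    | succ n ih =>
      intro hn
      push_cast at hn ⊢
      have hn0 : (0 : ℝ) ≤ n * (ε' / 2) := by positivity
      have h1 : a₀ + n * (ε' / 2) ≤ s - τW := by linarith
      have h2 := pj_stage_step A s ε' ηW (min ρW 1) (a₀ + n * (ε' / 2)) hA hs hs1 hε'0 hε'1 hηW
        (lt_min hρW one_pos) (by linarith) (by linarith) (hW2 _ (by linarith) h1) a₀ (ih (by linarith))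
      have h3 : a₀ + n * (ε' / 2) + ε' / 2 = a₀ + ((n : ℝ) + 1) * (ε' / 2) := by ring
      rw [h3] at h2
      exact h2
  have hpos : 0 ≤ (s - a₀ - τW) / (ε' / 2) := by
    apply div_nonneg <;> linarith
  have hn1 := Nat.le_ceil ((s - a₀ - τW) / (ε' / 2))
  have hn2 := Nat.ceil_lt_add_one hpos
  rw [div_le_iff₀ (by linarith)] at hn1
  rw [← sub_lt_iff_lt_add, lt_div_iff₀ (by linarith)] at hn2
  refine pj_stage_mono ?_ (hind ⌈(s - a₀ - τW) / (ε' / 2)⌉₊ ?_)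
  · linarith
  · linarith

end Claimed.Agent.R256
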